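import Vale.Agent.P159.H730.Tor

/-!
P159 (helper730): the contribution of the bad set to (*), from the probability of the bad set and a
sub-Gaussian bound of the observed coordinates:
`E [|C_J - G|²_HS ; A] ≤ 1100 (#I v)² √P(A)`.
-/

namespace Vale.Agent.P159.H730

open Finset Matrix MeasureTheory
open Vale.Agent.P159.TM.H104 (EM Ex Cv K3 Lg li nh Gr nh_nonneg abs_li)
open Vale.Agent.P159.H37
open Vale.Agent.P159.TM.Spec (V)
open Vale.Agent.P159.TM.SpecC (wT)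
open Vale.Agent.P159.H864 (TI TInv tra sym Inv CT CInv MC cl up cobV Gc Gck PiCk GM)

noncomputable section

set_option linter.unusedSectionVars false

variable {V' : Type*} [Fintype V'] {I : Type*} [Fintype I]
variable {μ : (V' → ℤ) → ℝ} {Q : Matrix I V' ℝ}

/-- the observed coordinates are sub-Gaussian with variance proxy `v` -/
def SG1 (μ : (V' → ℤ) → ℝ) (Q : Matrix I V' ℝ) (v : ℝ) : Prop :=
  ∀ (i : I) (lam : ℝ), Lg μ (lam • Q i) - Lg μ 0 ≤ lam ^ 2 * v / 2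

lemma Ex_exp (hμ : EM μ) (u : V' → ℝ) :
    Ex μ 0 (fun h => Real.exp (li u h)) = Real.exp (Lg μ u - Lg μ 0) := by
  have h1 : Real.exp (Lg μ u) = Zs μ u := by
    unfold Lg
    rw [Real.exp_log (TM.H104.T_one_pos hμ u)]
    rfl
  have h2 : Real.exp (Lg μ 0) = Zs μ 0 := by
    unfold Lg
    rw [Real.exp_log (TM.H104.T_one_pos hμ 0)]
    rfl
  rw [Real.exp_sub, h1, h2]
  unfold Ex
  congr 1
  unfold Zs TM.H104.T
  refine tsum_congr fun h => ?_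
  rw [TM.H104.li_zero, Real.exp_zero]
  ring

/-- eighth power against the exponentials -/
lemma pow8_le (x : ℝ) : x ^ 8 ≤ 40320 * (Real.exp x + Real.exp (-x)) := by
  have h1 : ∀ y : ℝ, 0 ≤ y → y ^ 8 ≤ 40320 * Real.exp y := by
    intro y hy
    have h := Real.pow_div_factorial_le_exp y hy 8
    have e : ((8 : ℕ).factorial : ℝ) = 40320 := by norm_num [Nat.factorial]
    rw [e, div_le_iff₀ (by norm_num)] at h
    linarith
  rcases le_total 0 x with h | h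
  · have := h1 x h
    have := Real.exp_pos (-x)
    linarith
  · have h2 := h1 (-x) (by linarith)
    have e : (-x) ^ 8 = x ^ 8 := by ring
    rw [e] at h2
    have := Real.exp_pos x
    linarith

lemma exp_half_le : Real.exp (1 / 2) ≤ 1.7 := by
  have h1 : Real.exp 1 < 2.7182818286 := Real.exp_one_lt_d9
  have h2 : Real.exp (1 / 2) ^ 2 = Real.exp 1 := by
    rw [← Real.exp_nat_mul]
    norm_num
  by_contra hc
  push Not at hc
  nlinarith [Real.exp_pos (1 / 2)]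

/-- eighth moment of a sub-Gaussian coordinate -/
lemma mom8 (hμ : EM μ) {q : V' → ℝ} {v : ℝ} (hv : 0 < v)
    (h : ∀ lam : ℝ, Lg μ (lam • q) - Lg μ 0 ≤ lam ^ 2 * v / 2) :
    Ex μ 0 (fun k => li q k ^ 8) ≤ 137088 * v ^ 4 := by
  set lam := (Real.sqrt v)⁻¹ with hl
  have hs : 0 < Real.sqrt v := Real.sqrt_pos.2 hv
  have hl2 : lam ^ 2 = v⁻¹ := by
    rw [hl, inv_pow, Real.sq_sqrt hv.le]
  have hl8 : lam ^ 8 = (v ^ 4)⁻¹ := by
    have : lam ^ 8 = (lam ^ 2) ^ 4 := by ring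
    rw [this, hl2, inv_pow]
  have h1 : Ex μ 0 (fun k => Real.exp (li (lam • q) k)) ≤ Real.exp (1 / 2) := by
    rw [Ex_exp hμ]
    refine Real.exp_le_exp.2 ((h lam).trans (le_of_eq ?_))
    rw [hl2]
    field_simp
  have h2 : Ex μ 0 (fun k => Real.exp (li ((-lam) • q) k)) ≤ Real.exp (1 / 2) := by
    rw [Ex_exp hμ]
    refine Real.exp_le_exp.2 ((h (-lam)).trans (le_of_eq ?_))
    rw [neg_sq, hl2]
    field_simp
  have g8 : Gr fun k : V' → ℤ => li q k ^ 8 := by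
    have e : (fun k : V' → ℤ => li q k ^ 8) = fun k => (li q k ^ 4) ^ 2 := by funext k; ring
    rw [e]
    exact Gr.sq (Gr.four (Gr.li q))
  have gE := ((Gr.exp_li (V := V') (lam • q)).add (Gr.exp_li ((-lam) • q))).cmul (40320 * v ^ 4)
  have h3 : Ex μ 0 (fun k => li q k ^ 8) ≤ Ex μ 0 fun k => 40320 * v ^ 4 *
      (Real.exp (li (lam • q) k) + Real.exp (li ((-lam) • q) k)) := by
    refine TM.H104.Ex_mono hμ g8 gE (fun k => ?_) 0
    have h4 := pow8_le (li (lam • q) k)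
    have e : li ((-lam) • q) k = -li (lam • q) k := by
      rw [neg_smul, TM.H104.li_neg]
    rw [e]
    have e2 : li (lam • q) k ^ 8 = (v ^ 4)⁻¹ * li q k ^ 8 := by
      rw [TM.H104.li_smul, mul_pow, hl8]
    rw [e2] at h4
    have hv4 : 0 < v ^ 4 := by positivity
    have h5 := mul_le_mul_of_nonneg_left h4 hv4.le
    have e3 : v ^ 4 * ((v ^ 4)⁻¹ * li q k ^ 8) = li q k ^ 8 := by
      field_simp
    rw [e3] at h5
    linarith
  refine h3.trans ?_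
  rw [TM.H104.Ex_cmul, TM.H104.Ex_add hμ (Gr.exp_li _) (Gr.exp_li _)]
  have h5 := exp_half_le
  have hv4 : 0 < v ^ 4 := by positivity
  nlinarith

/-- `E |Q h|⁸ ≤ 137088 (#I v)⁴` -/
lemma mom_nq (hμ : EM μ) {v : ℝ} (hv : 0 < v) (h : SG1 μ Q v) :
    Ex μ 0 (fun k => nq Q k ^ 4) ≤ 137088 * (Fintype.card I * v) ^ 4 := by
  have g8 : ∀ i, Gr fun k : V' → ℤ => li (Q i) k ^ 8 := fun i => by
    have e : (fun k : V' → ℤ => li (Q i) k ^ 8) = fun k => (li (Q i) k ^ 4) ^ 2 := by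
      funext k; ring
    rw [e]
    exact Gr.sq (Gr.four (Gr.li (Q i)))
  have h1 : Ex μ 0 (fun k => nq Q k ^ 4) ≤
      Ex μ 0 fun k => (Fintype.card I : ℝ) ^ 3 * ∑ i, li (Q i) k ^ 8 := by
    refine TM.H104.Ex_mono hμ (Gr.four (Gr.nq Q)) ((Gr.sum _ g8).cmul _) (fun k => ?_) 0
    unfold nq
    have a1 := sq_sum_le_card_mul_sum_sq (s := (Finset.univ : Finset I))
      (f := fun i => li (Q i) k ^ 2)
    have a2 := sq_sum_le_card_mul_sum_sq (s := (Finset.univ : Finset I))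
      (f := fun i => (li (Q i) k ^ 2) ^ 2)
    rw [Finset.card_univ] at a1 a2
    have a0 : 0 ≤ ∑ i, (li (Q i) k ^ 2) ^ 2 := Finset.sum_nonneg fun _ _ => sq_nonneg _
    have a3 : (∑ i, li (Q i) k ^ 2) ^ 4 ≤
        ((Fintype.card I : ℝ) * ∑ i, (li (Q i) k ^ 2) ^ 2) ^ 2 := by
      have : (∑ i, li (Q i) k ^ 2) ^ 4 = ((∑ i, li (Q i) k ^ 2) ^ 2) ^ 2 := by ring
      rw [this]
      exact pow_le_pow_left₀ (sq_nonneg _) a1 2
    refine a3.trans ?_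
    have e : ∑ i, ((li (Q i) k ^ 2) ^ 2) ^ 2 = ∑ i, li (Q i) k ^ 8 :=
      Finset.sum_congr rfl fun i _ => by ring
    rw [e] at a2
    calc ((Fintype.card I : ℝ) * ∑ i, (li (Q i) k ^ 2) ^ 2) ^ 2
        = (Fintype.card I : ℝ) ^ 2 * (∑ i, (li (Q i) k ^ 2) ^ 2) ^ 2 := by ring
      _ ≤ (Fintype.card I : ℝ) ^ 2 * ((Fintype.card I : ℝ) * ∑ i, li (Q i) k ^ 8) :=
          mul_le_mul_of_nonneg_left a2 (by positivity)
      _ = _ := by ring
  refine h1.trans ?_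
  rw [TM.H104.Ex_cmul, H789.Ex_sum hμ Finset.univ fun i _ => g8 i]
  have h2 : ∑ i : I, Ex μ 0 (fun k => li (Q i) k ^ 8) ≤ ∑ _i : I, 137088 * v ^ 4 :=
    Finset.sum_le_sum fun i _ => mom8 hμ hv (h i)
  rw [Finset.sum_const, Finset.card_univ, nsmul_eq_mul] at h2
  calc (Fintype.card I : ℝ) ^ 3 * ∑ i : I, Ex μ 0 (fun k => li (Q i) k ^ 8)
      ≤ (Fintype.card I : ℝ) ^ 3 * ((Fintype.card I : ℝ) * (137088 * v ^ 4)) :=
        mul_le_mul_of_nonneg_left h2 (by positivity)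
    _ = _ := by ring

/-- `E_J F ² ≤ E_J F²` -/
lemma Ex_sq_le {ν : (V' → ℤ) → ℝ} (hν : EM ν) (J : V' → ℝ) {F : (V' → ℤ) → ℝ} (hF : Gr F) :
    Ex ν J F ^ 2 ≤ Ex ν J fun h => F h ^ 2 := by
  have h := H114.Cv_self_nonneg hν J hF
  unfold Cv at h
  have e : (fun h => F h * F h) = fun h => F h ^ 2 := by funext h; ring
  rw [e] at h
  nlinarith

/-- Cauchy-Schwarz for covariances -/
lemma Cv_cs {ν : (V' → ℤ) → ℝ} (hν : EM ν) (J a b : V' → ℝ) :
    Cv ν J (li a) (li b) ^ 2 ≤ Cv ν J (li a) (li a) * Cv ν J (li b) (li b) := by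
  classical
  have h := H864.bf_sq_le (A := Cm ν J) (H789.Cm_symm ν J) (fun u => H114.qf_Cm_nonneg hν J u) a b
  rw [H789.bf_Cm hν, H789.qf_Cm hν, H789.qf_Cm hν] at h
  exact h

lemma Cv_le_sq {ν : (V' → ℤ) → ℝ} (J a : V' → ℝ) :
    Cv ν J (li a) (li a) ≤ Ex ν J fun h => li a h ^ 2 := by
  unfold Cv
  have e : (fun h => li a h * li a h) = fun h => li a h ^ 2 := by funext h; ring
  rw [e]
  nlinarith [mul_self_nonneg (Ex ν J (li a))]

/-- Hilbert-Schmidt norm of the observed covariance -/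
lemma hs_le {ν : (V' → ℤ) → ℝ} (hν : EM ν) (Q : Matrix I V' ℝ) (J : V' → ℝ) :
    ∑ i, ∑ j, Cv ν J (li (Q i)) (li (Q j)) ^ 2 ≤ Ex ν J (nq Q) ^ 2 := by
  have h0 : ∀ i, 0 ≤ Cv ν J (li (Q i)) (li (Q i)) := fun i => H114.Cv_self_nonneg hν J (Gr.li _)
  have h1 : ∑ i, ∑ j, Cv ν J (li (Q i)) (li (Q j)) ^ 2 ≤
      (∑ i, Cv ν J (li (Q i)) (li (Q i))) ^ 2 := by
    rw [pow_two (∑ i, Cv ν J (li (Q i)) (li (Q i))), Finset.sum_mul_sum]
    exact Finset.sum_le_sum fun i _ => Finset.sum_le_sum fun j _ => Cv_cs hν J _ _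
  refine h1.trans (pow_le_pow_left₀ (Finset.sum_nonneg fun i _ => h0 i) ?_ 2)
  have e : Ex ν J (nq Q) = ∑ i, Ex ν J fun h => li (Q i) h ^ 2 := by
    unfold nq
    exact H789.Ex_sum hν Finset.univ (fun i _ => Gr.sq (Gr.li (Q i))) J
  rw [e]
  exact Finset.sum_le_sum fun i _ => Cv_le_sq J (Q i)

lemma hs2_sq_le (hμ : EM μ) (s : ℝ) (J : V' → ℝ) :
    hs2 μ Q s J ^ 2 ≤ 8 * (Ex (ps μ Q s) J fun h => nq Q h ^ 4) +
      8 * Ex (ps μ Q s) 0 fun h => nq Q h ^ 4 := by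
  have hp := em_post hμ (Real.sqrt s • Q)
  have h1 := hs_le hp Q J
  have h2 := hs_le hp Q 0
  have hn0 : ∀ J, 0 ≤ Ex (ps μ Q s) J (nq Q) := fun J =>
    TM.H104.Ex_nonneg hp (fun h => nq_nonneg Q h) J
  have h3 : hs2 μ Q s J ≤ 2 * Ex (ps μ Q s) J (nq Q) ^ 2 + 2 * Ex (ps μ Q s) 0 (nq Q) ^ 2 := by
    have e : hs2 μ Q s J ≤ 2 * ∑ i, ∑ j, Cv (ps μ Q s) J (li (Q i)) (li (Q j)) ^ 2 +
        2 * ∑ i, ∑ j, Cv (ps μ Q s) 0 (li (Q i)) (li (Q j)) ^ 2 := by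
      unfold hs2
      rw [Finset.mul_sum, Finset.mul_sum, ← Finset.sum_add_distrib]
      refine Finset.sum_le_sum fun i _ => ?_
      rw [Finset.mul_sum, Finset.mul_sum, ← Finset.sum_add_distrib]
      refine Finset.sum_le_sum fun j _ => ?_
      nlinarith [sq_nonneg (Cv (ps μ Q s) J (li (Q i)) (li (Q j)) +
        Cv (ps μ Q s) 0 (li (Q i)) (li (Q j)))]
    linarith
  have q4 : ∀ J, Ex (ps μ Q s) J (nq Q) ^ 4 ≤ Ex (ps μ Q s) J fun h => nq Q h ^ 4 := by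
    intro J
    have a1 := Ex_sq_le hp J (Gr.nq Q)
    have a2 := Ex_sq_le hp J (Gr.sq (Gr.nq Q))
    have e1 : (fun h => (nq Q h ^ 2) ^ 2) = fun h => nq Q h ^ 4 := by funext h; ring
    rw [e1] at a2
    have e2 : Ex (ps μ Q s) J (nq Q) ^ 4 = (Ex (ps μ Q s) J (nq Q) ^ 2) ^ 2 := by ring
    rw [e2]
    exact (pow_le_pow_left₀ (sq_nonneg _) a1 2).trans a2
  have a1 := q4 J
  have a2 := q4 0
  have h4 : hs2 μ Q s J ^ 2 ≤
      (2 * Ex (ps μ Q s) J (nq Q) ^ 2 + 2 * Ex (ps μ Q s) 0 (nq Q) ^ 2) ^ 2 :=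
    pow_le_pow_left₀ (hs2_nonneg _ _ _ _) h3 2
  set x := Ex (ps μ Q s) J (nq Q)
  set y := Ex (ps μ Q s) 0 (nq Q)
  have h5 : (2 * x ^ 2 + 2 * y ^ 2) ^ 2 ≤ 8 * x ^ 4 + 8 * y ^ 4 := by
    nlinarith [sq_nonneg (x ^ 2 - y ^ 2)]
  linarith

/-- **contribution of the bad set** -/
theorem bad_le (hμ : EM μ) {s v : ℝ} (hv : 0 < v) (h1 : SG1 μ Q v) (h2 : SG1 (ps μ Q s) Q v)
    {A : Set (V' → ℝ)} (hA : MeasurableSet A) :
    Es μ Q s (A.indicator (hs2 μ Q s)) ≤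
      1500 * (Fintype.card I * v) ^ 2 * Real.sqrt (Es μ Q s (A.indicator fun _ => (1 : ℝ))) := by
  have hp := em_post hμ (Real.sqrt s • Q)
  have c4 : H663.ChI μ 0 (Real.sqrt s • Q) fun J =>
      8 * (Ex (ps μ Q s) J fun h => nq Q h ^ 4) + 8 * Ex (ps μ Q s) 0 fun h => nq Q h ^ 4 :=
    ((H663.ChI.of_Ex hμ 0 (Real.sqrt s • Q) (Gr.four (Gr.nq Q))).cmul 8).add
      (chi_const hμ 0 _ _)
  have chs2 : H663.ChI μ 0 (Real.sqrt s • Q) fun J => hs2 μ Q s J ^ 2 := by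
    refine H663.ChI.mono hμ ((measurable_hs2 hμ s).pow_const 2) c4 fun J => ?_
    rw [abs_of_nonneg (sq_nonneg _)]
    exact hs2_sq_le hμ s J
  have c1 : H663.ChI μ 0 (Real.sqrt s • Q) (A.indicator fun _ => (1 : ℝ)) :=
    chi_ind hμ measurable_const (fun _ => zero_le_one) (chi_const hμ 0 _ 1) hA
  have e1 : (fun J => (A.indicator (fun _ => (1 : ℝ)) J) ^ 2) = A.indicator fun _ => (1 : ℝ) := by
    funext J
    by_cases hJ : J ∈ A
    · rw [Set.indicator_of_mem hJ]; norm_num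
    · rw [Set.indicator_of_notMem hJ]; norm_num
  have e2 : (fun J => A.indicator (fun _ => (1 : ℝ)) J * hs2 μ Q s J) =
      A.indicator (hs2 μ Q s) := by
    funext J
    by_cases hJ : J ∈ A
    · rw [Set.indicator_of_mem hJ, Set.indicator_of_mem hJ, one_mul]
    · rw [Set.indicator_of_notMem hJ, Set.indicator_of_notMem hJ, zero_mul]
  have c3 := chi_ind hμ (measurable_hs2 (Q := Q) hμ s) (hs2_nonneg _ _ _) (chi_hs2 hμ s) hA
  have hcs := Es_cs (Q := Q) hμ (s := s) (Φ := A.indicator fun _ => (1 : ℝ)) (Ψ := hs2 μ Q s)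
    (by rw [e1]; exact c1) chs2 (by rw [e2]; exact c3)
  rw [e1, e2] at hcs
  have hm : (Es μ Q s fun J => hs2 μ Q s J ^ 2) ≤
      2193408 * (Fintype.card I * v) ^ 4 := by
    have a1 : (Es μ Q s fun J => hs2 μ Q s J ^ 2) ≤ Es μ Q s fun J =>
        8 * (Ex (ps μ Q s) J fun h => nq Q h ^ 4) + 8 * Ex (ps μ Q s) 0 fun h => nq Q h ^ 4 :=
      H663.Ech_mono' hμ chs2 c4 fun J => hs2_sq_le hμ s J
    refine a1.trans ?_
    unfold Es
    rw [H663.Ech_add' ((H663.ChI.of_Ex hμ 0 (Real.sqrt s • Q) (Gr.four (Gr.nq Q))).cmul 8)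
      (chi_const hμ 0 _ _), Ech_cmul, Ech_const hμ,
      H663.Ech_Ex hμ 0 (Real.sqrt s • Q) (Gr.four (Gr.nq Q))]
    have a2 := mom_nq hμ hv h1
    have a3 := mom_nq (Q := Q) hp hv h2
    linarith
  have hp0 : 0 ≤ Es μ Q s (A.indicator fun _ => (1 : ℝ)) := Ech_nonneg hμ _ _ fun J =>
    Set.indicator_nonneg (fun _ _ => zero_le_one) J
  have hcv : 0 ≤ (Fintype.card I : ℝ) * v := by positivity
  refine le_trans (Real.le_sqrt_of_sq_le (hcs.trans (mul_le_mul_of_nonneg_left hm hp0)))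
    (le_of_le_of_eq ?_ rfl)
  rw [Real.sqrt_mul hp0, mul_comm]
  refine mul_le_mul_of_nonneg_right ?_ (Real.sqrt_nonneg _)
  refine Real.sqrt_le_iff.2 ⟨by positivity, ?_⟩
  have h5 : 0 ≤ ((Fintype.card I : ℝ) * v) ^ 4 := by positivity
  nlinarith

/-! ### the cell torus -/

section torus

variable {N l : ℕ} [NeZero N] [NeZero (N / l)] {b t τ τ' : ℝ}

/-- cell averages are sub-Gaussian with proxy `1/τ` -/
lemma sg1_wC (hb : 0 < b) (hl : l ∣ N) (hτ : 0 < τ) (h : τ ≤ t) :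
    SG1 (wC N l b t τ) (cobV N l) τ⁻¹ := by
  intro i lam
  have h1 := (H864.dm_MC hb hl hτ h).Lg_le (lam • cobV N l i)
  refine h1.trans (le_of_eq ?_)
  have e0 : lam • cobV N l i = (cobV N l)ᵀ *ᵥ (lam • Pi.single i 1) := by
    rw [mulVec_smul, mulVec_single_one]
    rfl
  rw [H864.MC_inv hl (hτ.trans_le h).ne' hτ.ne', e0, qf_eq, H864.MC_mulVec_tr hl,
    dotProduct_smul, smul_eq_mul]
  have e1 : ((cobV N l)ᵀ *ᵥ (lam • Pi.single i (1 : ℝ))) ⬝ᵥ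
      ((cobV N l)ᵀ *ᵥ (lam • Pi.single i (1 : ℝ))) = lam ^ 2 := by
    rw [dotProduct_mulVec, vecMul_transpose, mulVec_mulVec, H864.cobV_mul_tr hl, one_mulVec,
      smul_dotProduct, dotProduct_smul, single_one_dotProduct, Pi.single_eq_same]
    simp only [smul_eq_mul, mul_one]
    ring
  rw [e1]
  ring

/-- **the bad set on the cell torus**: for every event of the source law -/
theorem bad_tor (hb : 0 < b) (hl : l ∣ N) (hτ' : 0 < τ') {σ : ℝ} (h : τ' ≤ σ) (ht : σ ≤ t)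
    {A : Set (V N → ℝ)} (hA : MeasurableSet A) :
    Ech (wC N l b t τ') 0 (Real.sqrt (σ - τ') • cobV N l)
        (A.indicator (hs2 (wC N l b t τ') (cobV N l) (σ - τ'))) ≤
      1500 * (((N / l : ℕ) : ℝ) ^ 2 / τ') ^ 2 *
        Real.sqrt (Ech (wC N l b t τ') 0 (Real.sqrt (σ - τ') • cobV N l)
          (A.indicator fun _ => (1 : ℝ))) := by
  have hμ := H864.em_MC (N := N) (l := l) (t := t) hb.le hl hτ' (h.trans ht)
  have h1 := sg1_wC (N := N) (l := l) (t := t) hb hl hτ' (h.trans ht)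
  have h2 : SG1 (ps (wC N l b t τ') (cobV N l) (σ - τ')) (cobV N l) τ'⁻¹ := by
    rw [ps_wC hl b t (sub_nonneg.2 h), add_sub_cancel]
    intro i lam
    refine (sg1_wC (N := N) (l := l) (t := t) hb hl (hτ'.trans_le h) ht i lam).trans ?_
    have h3 : σ⁻¹ ≤ τ'⁻¹ := inv_anti₀ hτ' h
    nlinarith [mul_le_mul_of_nonneg_left h3 (sq_nonneg lam)]
  have h3 := bad_le hμ (inv_pos.2 hτ') h1 h2 hA
  have hc : (Fintype.card (V (N / l)) : ℝ) = ((N / l : ℕ) : ℝ) ^ 2 := TM.H764.card_V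
  rw [hc, ← div_eq_mul_inv] at h3
  exact h3

end torus

end

end Vale.Agent.P159.H730
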