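import Vale.Agent.P159.H730.Apt2

/-!
P159 / module APT (helper730), part 4: **the deterministic bound with a source of any size** (V cells).

Cells `2 ^ s` with `n - s` much larger than `log (1 / e)`: the size `R` of the source is then not a
power of `1 / e`; the number `D` of the window tail has to satisfy
`K2 (log (1 / e) + log (1 + R)) <= D`.

* `lgt_numR`, `lgt_goodR` : 789's `lgt_num`, `lgt_good`, any `R`;
* `AptNr`, `AptHr`, `apt_tR`, `apt_tauR`, `apt_oneR` : the forms of Apt2.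
-/

set_option linter.unusedSectionVars false

namespace Vale.Agent.P159.H730

open Finset Matrix MeasureTheory
open Vale.Agent.P159.TM.H104 (EM Ex Cv K3 Lg li nh Gr)
open Vale.Agent.P159.H37
open Vale.Agent.P159.TM.Spec (V Rng)
open Vale.Agent.P159.TM.SpecC (wT)
open Vale.Agent.P159.TM.H459 (sd sn bk bk1 blk mem_blk)
open Vale.Agent.P159.H864 (TI sym cobV cl cl1 cl1_val l_pos cobV_tr_mulVec)
open Vale.Agent.P159.H963 (Neu nwt Gnc)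
open Vale.Agent.P159.H859 (dB)
open Vale.Agent.P159.H663 (TC bE rsC)
open Vale.Agent.P159.H789 (ib bm bfl small_pow)
open Vale.Agent.P159.H276 (Eop Wt)
open Vale.Agent.P159.H972 (AP RNG Par tn)

noncomputable section

/-- the tail of the window against the size of the source -/
lemma tail_le {c D e R : ℝ} (hc : 0 < c) (he : 0 < e) (hR : 0 ≤ R)
    (hD : 2 / c * (Real.log (1 / e) + Real.log (1 + R)) ≤ D) :
    Real.exp (-(c * D)) * (1 + R) ^ 2 ≤ e ^ (2 : ℝ) := by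
  have h1 : (0 : ℝ) < 1 + R := by linarith
  have h2 := mul_le_mul_of_nonneg_left hD hc.le
  have h3 : c * (2 / c * (Real.log (1 / e) + Real.log (1 + R))) =
      2 * (-Real.log e + Real.log (1 + R)) := by
    rw [one_div, Real.log_inv]
    field_simp
  rw [h3] at h2
  have h4 : (1 + R) ^ 2 = Real.exp (2 * Real.log (1 + R)) := by
    rw [two_mul, Real.exp_add, Real.exp_log h1]
    ring
  rw [h4, Real.rpow_def_of_pos he, ← Real.exp_add]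
  refine Real.exp_le_exp.2 ?_
  linarith

lemma tail_one {C e R A x : ℝ} (hC : 0 < C) (he : 0 < e) (hR : 0 ≤ R) (hx0 : 0 < x)
    (ht : x * (1 + R) ^ 2 ≤ e ^ (2 : ℝ)) (hA : A ≤ e ^ (-(1 / 40) : ℝ) * (1 + R))
    (m3 : C * e ^ (79 / 40 : ℝ) ≤ 1) : A * (C * x) ≤ 1 := by
  obtain ⟨w, hw⟩ : ∃ w : ℝ, w = e ^ (-(1 / 40) : ℝ) := ⟨_, rfl⟩
  have hw0 : 0 < w := hw ▸ Real.rpow_pos_of_pos he _
  rw [← hw] at hA
  have ht1 : x * (1 + R) ≤ e ^ (2 : ℝ) := by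
    refine le_trans ?_ ht
    exact mul_le_mul_of_nonneg_left (by nlinarith) hx0.le
  have h6 : A * (C * x) ≤ w * (1 + R) * (C * x) :=
    mul_le_mul_of_nonneg_right hA (by positivity)
  have h7 : w * (1 + R) * (C * x) = w * C * (x * (1 + R)) := by ring
  have h8 : w * C * (x * (1 + R)) ≤ w * C * e ^ (2 : ℝ) :=
    mul_le_mul_of_nonneg_left ht1 (by positivity)
  have h9 : w * C * e ^ (2 : ℝ) = C * e ^ (79 / 40 : ℝ) := by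
    have : w * e ^ (2 : ℝ) = e ^ (79 / 40 : ℝ) := by
      rw [hw, ← Real.rpow_add he]
      norm_num
    rw [← this]
    ring
  rw [h7] at h6
  exact h6.trans (h8.trans (h9.le.trans m3))

lemma tail_two {C e R A x : ℝ} (hC : 0 < C) (he : 0 < e) (hR : 0 ≤ R) (hx0 : 0 < x)
    (ht : x * (1 + R) ^ 2 ≤ e ^ (2 : ℝ)) (hA : A ≤ e ^ (-(1 / 40) : ℝ) * (1 + R))
    (m4 : 8 * C * e ^ (37 / 20 : ℝ) ≤ 1) :
    4 * A * (2 * R + 1) * (C * x) ≤ e ^ (1 / 8 : ℝ) := by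
  obtain ⟨w, hw⟩ : ∃ w : ℝ, w = e ^ (-(1 / 40) : ℝ) := ⟨_, rfl⟩
  have hw0 : 0 < w := hw ▸ Real.rpow_pos_of_pos he _
  rw [← hw] at hA
  have h9 : 4 * A * (2 * R + 1) * (C * x) ≤ 4 * (w * (1 + R)) * (2 * (1 + R)) * (C * x) := by
    refine mul_le_mul_of_nonneg_right ?_ (by positivity)
    refine mul_le_mul ?_ (by linarith) (by linarith) (by positivity)
    linarith
  have h10 : 4 * (w * (1 + R)) * (2 * (1 + R)) * (C * x) =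
      8 * C * w * (x * (1 + R) ^ 2) := by ring
  have h11 : 8 * C * w * (x * (1 + R) ^ 2) ≤ 8 * C * w * e ^ (2 : ℝ) :=
    mul_le_mul_of_nonneg_left ht (by positivity)
  have h12 : w * e ^ (2 : ℝ) = e ^ (37 / 20 : ℝ) * e ^ (1 / 8 : ℝ) := by
    rw [hw, ← Real.rpow_add he, ← Real.rpow_add he]
    norm_num
  have h13 : 8 * C * w * e ^ (2 : ℝ) = 8 * C * e ^ (37 / 20 : ℝ) * e ^ (1 / 8 : ℝ) := by
    rw [mul_assoc (8 * C) w, h12]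
    ring
  have h14 := mul_le_mul_of_nonneg_right m4 (Real.rpow_pos_of_pos he (1 / 8)).le
  rw [one_mul] at h14
  calc 4 * A * (2 * R + 1) * (C * x) ≤ 8 * C * w * e ^ (2 : ℝ) := by linarith
    _ ≤ e ^ (1 / 8 : ℝ) := by rw [h13]; exact h14

lemma last_num {e A B : ℝ} (he : 0 < e) (hA : A ≤ e ^ (-(1 / 40) : ℝ))
    (hB : B ≤ 5 * e ^ (1 / 8 : ℝ)) (hB0 : 0 ≤ B) (m5 : 5 * e ^ (3 / 80 : ℝ) ≤ 1) :
    A * B ≤ e ^ (1 / 16 : ℝ) := by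
  have pe : ∀ p : ℝ, 0 < e ^ p := fun p => Real.rpow_pos_of_pos he p
  refine (mul_le_mul hA hB hB0 (pe _).le).trans ?_
  have h20 : e ^ (-(1 / 40) : ℝ) * (5 * e ^ (1 / 8 : ℝ)) =
      5 * e ^ (3 / 80 : ℝ) * e ^ (1 / 16 : ℝ) := by
    have h21 : e ^ (-(1 / 40) : ℝ) * e ^ (1 / 8 : ℝ) = e ^ (3 / 80 : ℝ) * e ^ (1 / 16 : ℝ) := by
      rw [← Real.rpow_add he, ← Real.rpow_add he]
      norm_num
    calc e ^ (-(1 / 40) : ℝ) * (5 * e ^ (1 / 8 : ℝ)) =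
        5 * (e ^ (-(1 / 40) : ℝ) * e ^ (1 / 8 : ℝ)) := by ring
      _ = 5 * (e ^ (3 / 80 : ℝ) * e ^ (1 / 16 : ℝ)) := by rw [h21]
      _ = 5 * e ^ (3 / 80 : ℝ) * e ^ (1 / 16 : ℝ) := by ring
  rw [h20]
  have h22 := mul_le_mul_of_nonneg_right m5 (pe (1 / 16)).le
  rw [one_mul] at h22
  exact h22

/-- the numbers of LGT, a source of any size -/
theorem lgt_numR {c C η τ₀ : ℝ} (hc : 0 < c) (hC : 0 < C) (hη : 0 < η) (hτ₀ : 0 < τ₀) :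
    ∃ e₀ : ℝ, 0 < e₀ ∧ e₀ ≤ 1 / 4 ∧
      ∀ (e ν L R D δ : ℝ), 0 < e → e ≤ e₀ →
        2 / c * (Real.log (1 / e) + Real.log (1 + R)) ≤ D → 0 ≤ L → 0 ≤ R → 1 ≤ ν →
        ν ^ 2 * (L * ν + 3) ≤ e ^ (-(1 / 40) : ℝ) → 0 ≤ δ → δ ≤ 2 * e ^ (1 / 8 : ℝ) →
        ν ^ 2 * e ^ (1 / 4 : ℝ) ≤ η ∧ δ ≤ τ₀ ∧
          (L * ν + 2 * R + 3) * (C * Real.exp (-(c * D))) ≤ 1 ∧
          ν ^ 2 * (L * ν + 3) * (δ + ν ^ 2 * e ^ (1 / 4 : ℝ) + (L * ν + 3) * e ^ (1 / 4 : ℝ) +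
            4 * (L * ν + 2 * R + 2) * (2 * R + 1) * (C * Real.exp (-(c * D)))) ≤
            e ^ (1 / 16 : ℝ) := by
  obtain ⟨e1, he1, h1⟩ := small_pow (1 / η) (p := 9 / 40) (by norm_num)
  obtain ⟨e2, he2, h2⟩ := small_pow (2 / τ₀) (p := 1 / 8) (by norm_num)
  obtain ⟨e3, he3, h3⟩ := small_pow C (p := 79 / 40) (by norm_num)
  obtain ⟨e4, he4, h4⟩ := small_pow (8 * C) (p := 37 / 20) (by norm_num)
  obtain ⟨e5, he5, h5⟩ := small_pow 5 (p := 3 / 80) (by norm_num)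
  refine ⟨min (1 / 4) (min e1 (min e2 (min e3 (min e4 e5)))), by positivity,
    min_le_left _ _, ?_⟩
  intro e ν L R D δ he hee hD hL hR hν hνL hδ hδe
  have l0 : e ≤ 1 / 4 := hee.trans (min_le_left _ _)
  have l1 : e ≤ e1 := hee.trans ((min_le_right _ _).trans (min_le_left _ _))
  have l2 : e ≤ e2 := hee.trans ((min_le_right _ _).trans ((min_le_right _ _).trans
    (min_le_left _ _)))
  have l3 : e ≤ e3 := hee.trans ((min_le_right _ _).trans ((min_le_right _ _).trans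
    ((min_le_right _ _).trans (min_le_left _ _))))
  have l4 : e ≤ e4 := hee.trans ((min_le_right _ _).trans ((min_le_right _ _).trans
    ((min_le_right _ _).trans ((min_le_right _ _).trans (min_le_left _ _)))))
  have l5 : e ≤ e5 := hee.trans ((min_le_right _ _).trans ((min_le_right _ _).trans
    ((min_le_right _ _).trans ((min_le_right _ _).trans (min_le_right _ _)))))
  have m1 := h1 e he l1
  have m2 := h2 e he l2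
  have m3 := h3 e he l3
  have m4 := h4 e he l4
  have m5 := h5 e he l5
  have he1' : e ≤ 1 := by linarith
  have hLν : 0 ≤ L * ν := mul_nonneg hL (by linarith)
  have hν2 : 1 ≤ ν ^ 2 := by nlinarith
  have pe : ∀ p : ℝ, 0 < e ^ p := fun p => Real.rpow_pos_of_pos he p
  obtain ⟨w, hw⟩ : ∃ w : ℝ, w = e ^ (-(1 / 40) : ℝ) := ⟨_, rfl⟩
  have hw0 : 0 < w := hw ▸ pe _
  have w1 : ν ^ 2 ≤ w := by
    rw [hw]
    refine le_trans ?_ hνL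
    nlinarith
  have w2 : L * ν + 3 ≤ w := by
    rw [hw]
    refine le_trans ?_ hνL
    nlinarith
  have a1 : w * e ^ (1 / 4 : ℝ) = e ^ (9 / 40 : ℝ) := by
    rw [hw, ← Real.rpow_add he]
    norm_num
  have hR1 : (0 : ℝ) < 1 + R := by linarith
  obtain ⟨x, hx⟩ : ∃ x : ℝ, x = Real.exp (-(c * D)) := ⟨_, rfl⟩
  have hx0 : 0 < x := hx ▸ Real.exp_pos _
  have ht : x * (1 + R) ^ 2 ≤ e ^ (2 : ℝ) := by
    rw [hx]
    exact tail_le hc he hR hD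
  have q1 : L * ν + 2 * R + 3 ≤ w * (1 + R) := by nlinarith
  rw [hw] at q1
  have q2 : L * ν + 2 * R + 2 ≤ e ^ (-(1 / 40) : ℝ) * (1 + R) := by linarith
  have h16 : ν ^ 2 * e ^ (1 / 4 : ℝ) ≤ e ^ (9 / 40 : ℝ) := by
    rw [← a1]
    exact mul_le_mul_of_nonneg_right w1 (pe _).le
  have h17 : (L * ν + 3) * e ^ (1 / 4 : ℝ) ≤ e ^ (9 / 40 : ℝ) := by
    rw [← a1]
    exact mul_le_mul_of_nonneg_right w2 (pe _).le
  rw [← hx]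
  refine ⟨?_, ?_, tail_one hC he hR hx0 ht q1 m3, ?_⟩
  · have h7 : e ^ (9 / 40 : ℝ) ≤ η := by
      rw [one_div, inv_mul_le_iff₀ hη, mul_one] at m1
      exact m1
    exact h16.trans h7
  · refine hδe.trans ?_
    have h7 : 2 / τ₀ * e ^ (1 / 8 : ℝ) * τ₀ ≤ 1 * τ₀ := mul_le_mul_of_nonneg_right m2 hτ₀.le
    have h8 : 2 / τ₀ * e ^ (1 / 8 : ℝ) * τ₀ = 2 * e ^ (1 / 8 : ℝ) := by field_simp
    rw [h8] at h7
    linarith
  · have h8 := tail_two hC he hR hx0 ht q2 m4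
    have h15 : e ^ (9 / 40 : ℝ) ≤ e ^ (1 / 8 : ℝ) :=
      Real.rpow_le_rpow_of_exponent_ge he he1' (by norm_num)
    have h18 : δ + ν ^ 2 * e ^ (1 / 4 : ℝ) + (L * ν + 3) * e ^ (1 / 4 : ℝ) +
        4 * (L * ν + 2 * R + 2) * (2 * R + 1) * (C * x) ≤ 5 * e ^ (1 / 8 : ℝ) := by
      linarith
    exact last_num he hνL h18 (by positivity) m5

/-- **LGT in the letters of Good.lean, a source of any size** -/
theorem lgt_goodR {b1 : ℝ} (hb1 : 0 < b1) (b2 : ℝ) (hA6 : TM.Spec.ThmA6 b1 b2 (5 / 2)) :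
    ∃ W₀ : ℝ, ∀ W : ℝ, W₀ ≤ W → ∃ ys : ℝ, ∃ X0 : ℕ, 0 < ys ∧
      ∃ K2 e₀ : ℝ, 0 < K2 ∧ 0 < e₀ ∧
      ∀ P : Par, P.b1 = b1 → P.b2 = b2 → P.W = W → P.ys ≤ ys → X0 ≤ P.X0 →
      ∀ (b : ℝ) (n r s : ℕ) (e : ℝ), 0 < e → e ≤ e₀ → RNG P b n r e → n ≤ r → s ≤ n →
      ∀ (D : ℕ) (L R X δ : ℝ) (J : V (2 ^ r) → ℝ),
        K2 * (Real.log (1 / e) + Real.log (1 + R)) ≤ D → 0 ≤ L → 0 ≤ R →
        (2 ^ (r - n) : ℝ) ^ 2 * (L * 2 ^ (r - n) + 3) ≤ e ^ (-(1 / 40) : ℝ) →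
        0 ≤ δ → δ ≤ 2 * e ^ (1 / 8 : ℝ) → AP b n r s X (tn n) δ →
        16 * (4 * (D : ℝ) + 1) ^ 2 * max 1 (L * D) ≤ X →
        (∀ β : ZMod (2 ^ (r - n)) × ZMod (2 ^ (r - n)), Rs (wt (2 ^ r) b (tn n))
          ((8 * (4 * (D : ℝ) + 1) ^ 2) • bfl (2 ^ (r - n)) (2 ^ n) J β) ≤ δ) →
        (∀ β β' : ZMod (2 ^ (r - n)) × ZMod (2 ^ (r - n)), sd β β' ≤ 1 →
          |bm (2 ^ (r - n)) (2 ^ n) J β - bm (2 ^ (r - n)) (2 ^ n) J β'| ≤ tn n * L) →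
        |∑ z, J z| ≤ (2 ^ (r - n) : ℝ) ^ 2 → (∀ z, |J z| ≤ tn n * R) →
        ∀ a' : ℝ, |a'| ≤ 1 →
          Rs (wt (2 ^ r) b (tn n)) (J + fun _ => tn n * a') ≤ e ^ (1 / 16 : ℝ) := by
  obtain ⟨W₀, hW₀⟩ := H789.lgt_of hb1 b2 (5 / 2) hA6
  refine ⟨W₀, fun W hW => ?_⟩
  obtain ⟨c, C, η, τ₀, ys, X0, hc, hC, hη, hτ₀, hys, hX0, h⟩ := hW₀ W hW
  refine ⟨ys, X0, hys, ?_⟩
  obtain ⟨e₀, he₀, he₀', hnum⟩ := lgt_numR hc hC hη hτ₀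
  have hK2 : 0 < 2 / c := by positivity
  obtain ⟨e₁, he₁, hsm⟩ := small_pow (Real.exp (1 / (2 / c))) (p := 1) one_pos
  refine ⟨2 / c, min e₀ e₁, hK2, by positivity, ?_⟩
  intro P hP1 hP2 hPW hPy hPX b n r s e he hee hR hnr hsn D L R X δ J hD hL hR0 hνL hδ hδe
    hAP hQX hB1 hB2 hB3 hB4 a' ha'
  have hbb : 0 ≤ b := by
    have := hR.hb1
    rw [hP1] at this
    linarith
  have hRg : TM.Spec.Rng b1 b2 (5 / 2) W ys X0 (2 ^ r) b (2 ^ n) (e ^ (1 / 4 : ℝ)) := by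
    have h1 : TM.Spec.Rng P.b1 P.b2 (5 / 2) P.W P.ys P.X0 (2 ^ r) b (2 ^ n)
      (e ^ (1 / 4 : ℝ)) := hR
    rw [hP1, hP2, hPW] at h1
    exact TM.H857.rng_mono h1 le_rfl hPy hPX
  have hNb : 2 ^ r = 2 ^ (r - n) * 2 ^ n := by
    rw [← pow_add]
    congr 1
    omega
  have hν1 : (1 : ℝ) ≤ 2 ^ (r - n) := one_le_pow₀ (by norm_num)
  obtain ⟨n1, n2, n3, n4⟩ := hnum e (2 ^ (r - n)) L R D δ he (hee.trans (min_le_left _ _)) hD hL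
    hR0 hν1 hνL hδ hδe
  -- `D ≥ 1`
  have hD1 : 1 ≤ D := by
    have h1 := hsm e he (hee.trans (min_le_right _ _))
    rw [Real.rpow_one] at h1
    have h2 : Real.exp (1 / (2 / c)) ≤ 1 / e := by
      rw [le_div_iff₀ he]
      exact h1
    have h3 : 1 / (2 / c) ≤ Real.log (1 / e) := by
      rw [Real.le_log_iff_exp_le (by positivity)]
      exact h2
    have h3' : 0 ≤ Real.log (1 + R) := Real.log_nonneg (by linarith)
    have h4 : 1 ≤ 2 / c * (Real.log (1 / e) + Real.log (1 + R)) := by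
      have := mul_le_mul_of_nonneg_left (h3.trans (le_add_of_nonneg_right h3')) hK2.le
      rwa [mul_one_div_cancel hK2.ne'] at this
    have h5 : (1 : ℝ) ≤ D := h4.trans hD
    exact_mod_cast h5
  have ht : (1 : ℝ) / ((2 ^ n : ℕ) : ℝ) ^ 2 = tn n := (H789.tn_eq' n).symm
  have hνc : (((2 ^ (r - n) : ℕ) : ℝ)) = 2 ^ (r - n) := by push_cast; rfl
  have hA1 : 1 ≤ max 1 (L * (D : ℝ)) := le_max_left _ _
  have hX0' : 0 < X := by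
    refine lt_of_lt_of_le ?_ hQX
    positivity
  have key := h (2 ^ r) b (2 ^ n) (e ^ (1 / 4 : ℝ)) hRg (by
      have h1 : (((2 ^ r : ℕ)) : ℝ) = 2 ^ (r - n) * 2 ^ n := by
        rw [hNb]
        push_cast
        rfl
      rw [h1, mul_pow, mul_right_comm]
      push_cast
      exact mul_le_mul_of_nonneg_right n1 (by positivity))
    (2 ^ (r - n)) hNb D L R (max 1 (L * D)) δ J hD1 hL hR0 hA1 (le_max_right _ _) hδ n2
    (by rw [ht]; exact hB1) (by rw [ht]; exact hB2) (by rw [hνc]; exact hB3)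
    (by rw [ht]; exact hB4) (by rw [hνc]; exact n3)
    (by
      intro β
      rw [ht]
      refine H789.cst_of_AP hbb hsn hnr hX0' (by positivity) ?_ hAP β
      refine le_trans (le_of_eq ?_) hQX
      ring) a' ha'
  rw [ht, hνc] at key
  exact key.trans n4

/-- the numeric conditions at the scale `e`, a source of any size -/
structure AptNr (K2 e : ℝ) (n r s D : ℕ) (c₀ L Lam δ X : ℝ) : Prop where
  c0 : 0 < c₀
  D0 : K2 * (Real.log (1 / e) + Real.log (1 + c₀ * Lam * (4 : ℝ) ^ n / 2 ^ s)) ≤ D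
  L0 : 0 ≤ L
  Lam0 : 0 ≤ Lam
  νL : (2 ^ (r - n) : ℝ) ^ 2 * (c₀ * L * 2 ^ (r - n) + 3) ≤ e ^ (-(1 / 40) : ℝ)
  δ0 : 0 ≤ δ
  δe : δ ≤ 2 * e ^ (1 / 8 : ℝ)
  X : 2 * QD D * max 1 (c₀ * L * D) ≤ X

/-- **the bound at the natural mass**, any contraction `T`, a source of any size -/
def AptHr (P : Par) (b K2 e₀ : ℝ) : Prop :=
  ∀ (n r s : ℕ) (e : ℝ), 0 < e → e ≤ e₀ → RNG P b n r e → n ≤ r → s ≤ n →
    ∀ [NeZero (2 ^ r / 2 ^ s)] (T : Matrix (V (2 ^ r / 2 ^ s)) (V (2 ^ r / 2 ^ s)) ℝ), TC T →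
    ∀ (D : ℕ) (c₀ L Lam δ X : ℝ), AptNr K2 e n r s D c₀ L Lam δ X →
      AP b n r s X (tn n) δ → ∀ j : V (2 ^ r / 2 ^ s) → ℝ,
      AptB (2 ^ r) (2 ^ s) (2 ^ (r - n)) (2 ^ (n - s)) b (tn n) T (c₀ * QD D) δ L Lam j →
      ∀ a' : ℝ, |a'| ≤ 1 →
        Rs (wt (2 ^ r) b (tn n)) (c₀ • ((cobV (2 ^ r) (2 ^ s))ᵀ *ᵥ (T *ᵥ j)) +
          fun _ => tn n * a') ≤ e ^ (1 / 16 : ℝ)

theorem apt_tR {b1 : ℝ} (hb1 : 0 < b1) (b2 : ℝ) (hA6 : TM.Spec.ThmA6 b1 b2 (5 / 2)) :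
    ∃ W₀ : ℝ, ∀ W : ℝ, W₀ ≤ W → ∃ ys : ℝ, ∃ X0 : ℕ, 0 < ys ∧
      ∃ K2 e₀ : ℝ, 0 < K2 ∧ 0 < e₀ ∧
      ∀ P : Par, P.b1 = b1 → P.b2 = b2 → P.W = W → P.ys ≤ ys → X0 ≤ P.X0 →
      ∀ b : ℝ, AptHr P b K2 e₀ := by
  obtain ⟨W₀, hW₀⟩ := lgt_goodR hb1 b2 hA6
  refine ⟨W₀, fun W hW => ?_⟩
  obtain ⟨ys, X0, hys, h⟩ := hW₀ W hW
  refine ⟨ys, X0, hys, ?_⟩
  obtain ⟨K2, e₀, hK2, he₀, h⟩ := h
  refine ⟨K2, e₀, hK2, he₀, ?_⟩
  intro P hP1 hP2 hPW hPy hPX b n r s e he hee hR hnr hsn _ T hT D c₀ L Lam δ X hn hAP j hj a' ha'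
  have ht0 : 0 < tn n := H789.tn_pos n
  have hl : 2 ^ s ∣ 2 ^ r := pow_dvd_pow 2 (hsn.trans hnr)
  have hξ : 2 ^ n = 2 ^ (n - s) * 2 ^ s := by
    rw [← pow_add]
    congr 1
    omega
  have hN : 2 ^ r = 2 ^ (r - n) * 2 ^ n := by
    rw [← pow_add]
    congr 1
    omega
  have htn : tn n = 1 / ((2 ^ n : ℕ) : ℝ) ^ 2 := H789.tn_eq' n
  have hTn : Neu (T *ᵥ j) := by
    have h1 := hj.neu
    unfold H963.Neu at h1 ⊢
    rw [H663.ti_sum hT.ti, h1, mul_zero]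
  have hc₀ := hn.c0
  have h4n : (0 : ℝ) < 4 ^ n := by positivity
  have h2s : (0 : ℝ) < 2 ^ s := by positivity
  refine h P hP1 hP2 hPW hPy hPX b n r s e he hee hR hnr hsn D (c₀ * L)
    (c₀ * Lam * (4 : ℝ) ^ n / 2 ^ s) X δ (c₀ • ((cobV (2 ^ r) (2 ^ s))ᵀ *ᵥ (T *ᵥ j))) hn.D0
    (mul_nonneg hc₀.le hn.L0) (div_nonneg (mul_nonneg (mul_nonneg hc₀.le hn.Lam0) h4n.le) h2s.le)
    hn.νL hn.δ0 hn.δe hAP ?_ ?_ ?_ ?_ ?_ a' ha'
  · refine le_trans (le_of_eq ?_) hn.X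
    unfold QD
    ring
  · intro β
    have h1 := hj.S1 β
    unfold H663.rsC at h1
    refine le_trans (le_of_eq ?_) h1
    rw [bfl_cob hl hN hξ]
    unfold H663.bE
    rw [← mulVec_smul, smul_smul, mul_comm (8 * (4 * (D : ℝ) + 1) ^ 2) c₀, ← mulVec_mulVec,
      ← mulVec_mulVec]
    rfl
  · intro β β' hs
    rw [bm_cob hl hξ, bm_cob hl hξ]
    have h1 := hj.S2 β β' hs
    have et : (((2 ^ s : ℕ)) : ℝ) / (((2 ^ (n - s) : ℕ) : ℝ) * ((2 ^ s : ℕ) : ℝ)) ^ 2 =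
        ((2 ^ s : ℕ) : ℝ) / ((2 ^ n : ℕ) : ℝ) ^ 2 := by
      rw [hξ]
      push_cast
      rfl
    rw [et] at h1
    have e : c₀ * (((2 ^ s : ℕ) : ℝ) / ((2 ^ n : ℕ) : ℝ) ^ 2 *
        ∑ w ∈ Bc (2 ^ r) (2 ^ s) (2 ^ (r - n)) (2 ^ (n - s)) β, (T *ᵥ j) w) -
        c₀ * (((2 ^ s : ℕ) : ℝ) / ((2 ^ n : ℕ) : ℝ) ^ 2 *
          ∑ w ∈ Bc (2 ^ r) (2 ^ s) (2 ^ (r - n)) (2 ^ (n - s)) β', (T *ᵥ j) w) =
        c₀ * (((2 ^ s : ℕ) : ℝ) / ((2 ^ n : ℕ) : ℝ) ^ 2 *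
          (∑ w ∈ Bc (2 ^ r) (2 ^ s) (2 ^ (r - n)) (2 ^ (n - s)) β, (T *ᵥ j) w -
            ∑ w ∈ Bc (2 ^ r) (2 ^ s) (2 ^ (r - n)) (2 ^ (n - s)) β', (T *ᵥ j) w)) := by ring
    rw [e, abs_mul, abs_of_pos hc₀]
    have h2 := mul_le_mul_of_nonneg_left h1 hc₀.le
    linarith
  · have e : ∑ z, (c₀ • ((cobV (2 ^ r) (2 ^ s))ᵀ *ᵥ (T *ᵥ j))) z = 0 := by
      have h1 : Neu (c₀ • ((cobV (2 ^ r) (2 ^ s))ᵀ *ᵥ (T *ᵥ j))) :=
        (H963.neu_cobV_tr hl hTn).smul _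
      exact h1
    rw [e, abs_zero]
    positivity
  · intro z
    have hlR : (0 : ℝ) < ((2 ^ s : ℕ) : ℝ) := by positivity
    rw [Pi.smul_apply, smul_eq_mul, cobV_tr_mulVec, abs_mul, abs_of_pos hc₀, abs_mul,
      abs_of_pos (inv_pos.2 hlR)]
    have h1 : |(T *ᵥ j) (cl z)| ≤ Lam := by
      refine abs_le_of_sq_le_sq ?_ hn.Lam0
      exact (Finset.single_le_sum (f := fun w => (T *ᵥ j) w ^ 2) (fun w _ => sq_nonneg _)
        (Finset.mem_univ (cl z))).trans hj.S4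
    have h2 : c₀ * ((((2 ^ s : ℕ) : ℝ))⁻¹ * |(T *ᵥ j) (cl z)|) ≤
        c₀ * ((((2 ^ s : ℕ) : ℝ))⁻¹ * Lam) :=
      mul_le_mul_of_nonneg_left (mul_le_mul_of_nonneg_left h1 (inv_pos.2 hlR).le) hc₀.le
    refine h2.trans (le_of_eq ?_)
    unfold H972.tn
    push_cast
    field_simp

section post

variable {P : Par} {b K2 e₀ e : ℝ} {n r s : ℕ} [NeZero (2 ^ r / 2 ^ s)]

/-- **the bound at the posterior mass** `τ >= t`, amplitude `Q` -/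
theorem apt_tauR (hb : 0 < b) (H : AptHr P b K2 e₀) (he : 0 < e) (hee : e ≤ e₀)
    (hR : RNG P b n r e) (hnr : n ≤ r) (hsn : s ≤ n) {τ : ℝ} (h : tn n ≤ τ) {D : ℕ}
    {Q L Lam δ X : ℝ} (hn : AptNr K2 e n r s D (2 * Q) L Lam δ X) (hAP : AP b n r s X (tn n) δ)
    {j : V (2 ^ r / 2 ^ s) → ℝ}
    (hj : AptB (2 ^ r) (2 ^ s) (2 ^ (r - n)) (2 ^ (n - s)) b (tn n)
      (Eop (2 ^ r) (2 ^ s) b (tn n) τ) (2 * Q * QD D) δ L Lam j) :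
    Rs (nwt (2 ^ r) b τ 0) (Q • ((cobV (2 ^ r) (2 ^ s))ᵀ *ᵥ j)) ≤
      e ^ (1 / 16 : ℝ) / 2 + Q ^ 2 * qf (Wt (2 ^ r) (2 ^ s) b (tn n) τ) j := by
  have ht0 : 0 < tn n := H789.tn_pos n
  have hl : 2 ^ s ∣ 2 ^ r := pow_dvd_pow 2 (hsn.trans hnr)
  have hT := tc_Eop (N := 2 ^ r) (l := 2 ^ s) hb hl ht0 h
  have hjn : Neu (Q • j) := hj.neu.smul _
  have hen : Neu (Eop (2 ^ r) (2 ^ s) b (tn n) τ *ᵥ (Q • j)) := by
    unfold H963.Neu at hjn ⊢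
    rw [H663.ti_sum hT.ti, hjn, mul_zero]
  have h1 := H276.eta2 hb hl ht0 h hjn hen (η := e ^ (1 / 16 : ℝ))
    (fun a' h0 h1 => by
      have h2 := H n r s e he hee hR hnr hsn (Eop (2 ^ r) (2 ^ s) b (tn n) τ) hT D (2 * Q) L Lam
        δ X hn hAP j hj a' (abs_le.2 ⟨by linarith, h1⟩)
      refine le_trans (le_of_eq ?_) h2
      congr 1
      funext x
      rw [Pi.add_apply, Pi.smul_apply, smul_eq_mul, mulVec_smul, mulVec_smul, Pi.smul_apply,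
        smul_eq_mul, mul_assoc])
  rw [mulVec_smul, H37.qf_smul] at h1
  exact h1

/-- **the bound at the natural mass**, neutral model, amplitude `Q` -/
theorem apt_oneR (hb : 0 < b) (H : AptHr P b K2 e₀) (he : 0 < e) (hee : e ≤ e₀)
    (hR : RNG P b n r e) (hnr : n ≤ r) (hsn : s ≤ n) {D : ℕ} {Q L Lam δ X : ℝ}
    (hn : AptNr K2 e n r s D Q L Lam δ X) (hAP : AP b n r s X (tn n) δ)
    {j : V (2 ^ r / 2 ^ s) → ℝ}
    (hj : AptB (2 ^ r) (2 ^ s) (2 ^ (r - n)) (2 ^ (n - s)) b (tn n) 1 (Q * QD D) δ L Lam j) :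
    Rs (nwt (2 ^ r) b (tn n) 0) (Q • ((cobV (2 ^ r) (2 ^ s))ᵀ *ᵥ j)) ≤ e ^ (1 / 16 : ℝ) := by
  have ht0 : 0 < tn n := H789.tn_pos n
  have hl : 2 ^ s ∣ 2 ^ r := pow_dvd_pow 2 (hsn.trans hnr)
  have hn' : Neu ((cobV (2 ^ r) (2 ^ s))ᵀ *ᵥ j) := H963.neu_cobV_tr hl hj.neu
  have h2 := H30.Rs_nwt_le (N := 2 ^ r) hb.le ht0 0
    (F := (Q / tn n) • ((cobV (2 ^ r) (2 ^ s))ᵀ *ᵥ j)) (hn'.smul _) (η := e ^ (1 / 16 : ℝ)) (by
      intro a' h0 h1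
      have h3 := H n r s e he hee hR hnr hsn 1 TC.one D Q L Lam δ X hn hAP j hj a'
        (abs_le.2 ⟨by linarith, h1⟩)
      refine le_trans (le_of_eq ?_) h3
      congr 1
      funext x
      rw [Matrix.one_mulVec]
      simp only [Pi.smul_apply, Pi.add_apply, smul_eq_mul]
      field_simp)
  have e1 : tn n • ((Q / tn n) • ((cobV (2 ^ r) (2 ^ s))ᵀ *ᵥ j)) =
      Q • ((cobV (2 ^ r) (2 ^ s))ᵀ *ᵥ j) := by
    rw [smul_smul, mul_div_cancel₀ _ ht0.ne']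
  rw [e1] at h2
  exact h2

end post

end

end Vale.Agent.P159.H730
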