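import Vale.Agent.P159.H730.Apt3
import Vale.Agent.P159.H730.Apt4

/-!
P159 / module APT (helper730), part 5: **TYP with cells of any size** (V cells).

The theorems of Apt3 with the numbers `AptNr` of Apt4 (no bound on the size of the source: the
number `D` satisfies `K2 (log (1 / e) + log (1 + c₀ Λ 4^n / 2^s)) <= D`).
-/

set_option linter.unusedSectionVars false

namespace Vale.Agent.P159.H730

open Finset Matrix MeasureTheory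
open Vale.Agent.P159.TM.H104 (EM Ex Cv K3 Lg li nh Gr)
open Vale.Agent.P159.H37
open Vale.Agent.P159.TM.Spec (V Rng)
open Vale.Agent.P159.TM.SpecC (wT)
open Vale.Agent.P159.TM.H459 (sd sn bk bk1 blk mem_blk)
open Vale.Agent.P159.H864 (TI sym cobV cl l_pos)
open Vale.Agent.P159.H963 (Neu nwt nMC Gnc obsN Pn)
open Vale.Agent.P159.H859 (dB)
open Vale.Agent.P159.H663 (TC bE rsC)
open Vale.Agent.P159.H789 (ib bm bfl)
open Vale.Agent.P159.H276 (Eop Wt sqW)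
open Vale.Agent.P159.H972 (AP RNG Par tn)
open Vale.Agent.P159.H816 (bS av clsG Cz)
open Vale.Agent.P159.H239 (TypE)

noncomputable section

section typ

variable {P : Par} {b K2 e₀ e : ℝ} {n r s : ℕ} [NeZero (2 ^ r / 2 ^ s)]

/-- the class lies in the good set, posterior mass `τ` -/
theorem cls_tauR (hb : 0 < b) (H : AptHr P b K2 e₀) (he : 0 < e) (hee : e ≤ e₀)
    (hR : RNG P b n r e) (hnr : n ≤ r) (hsn : s ≤ n) {τ : ℝ} (h1 : tn n ≤ τ) {D : ℕ}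
    {Q L Λ δ X u : ℝ} (hn : AptNr K2 e n r s D (2 * Q) L Λ δ X) (hAP : AP b n r s X (tn n) δ)
    {J : V (2 ^ r) → ℝ}
    (hJ : J ∈ clsG (2 ^ r) (2 ^ s) b (tn n) (2 * Q * QD D) δ (2 ^ (r - n)) (2 ^ (n - s))
      (Eop (2 ^ r) (2 ^ s) b (tn n) τ) (sqW (2 ^ r) (2 ^ s) b (tn n) τ) (2 ^ s * tn n * L) u Λ) :
    Rs (nwt (2 ^ r) b τ 0) (Q • J) ≤ e ^ (1 / 16 : ℝ) / 2 + Q ^ 2 * u := by
  have ht0 : 0 < tn n := H789.tn_pos n
  have hl : 2 ^ s ∣ 2 ^ r := pow_dvd_pow 2 (hsn.trans hnr)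
  have hT := tc_Eop (N := 2 ^ r) (l := 2 ^ s) hb hl ht0 h1
  have hJ' : J ∈ clsG (2 ^ r) (2 ^ s) b (tn n) (2 * Q * QD D) δ (2 ^ (r - n)) (2 ^ (n - s))
      (Eop (2 ^ r) (2 ^ s) b (tn n) τ) (sqW (2 ^ r) (2 ^ s) b (tn n) τ)
      (((2 ^ s : ℕ) : ℝ) * tn n * L) u Λ := by
    push_cast
    exact hJ
  have h2 := AptB.of_cls hl (by positivity) hT ht0.le hn.L0 hJ'
  have h3 := apt_tauR hb H he hee hR hnr hsn h1 hn hAP h2
  rw [(H816.clsG_rng hJ).1] at h3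
  refine h3.trans ?_
  have h4 : qf (Wt (2 ^ r) (2 ^ s) b (tn n) τ) (cobV (2 ^ r) (2 ^ s) *ᵥ J) ≤ u := by
    rw [← H276.sq_sqW hb hl ht0 h1]
    exact H816.clsG_quad hJ
  have h5 := mul_le_mul_of_nonneg_left h4 (sq_nonneg Q)
  linarith

/-- the class lies in the good set, natural mass -/
theorem cls_oneR (hb : 0 < b) (H : AptHr P b K2 e₀) (he : 0 < e) (hee : e ≤ e₀)
    (hR : RNG P b n r e) (hnr : n ≤ r) (hsn : s ≤ n) {D : ℕ}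
    {Q L Λ δ X u : ℝ} (hn : AptNr K2 e n r s D Q L Λ δ X) (hAP : AP b n r s X (tn n) δ)
    {W₃ : Matrix (V (2 ^ r / 2 ^ s)) (V (2 ^ r / 2 ^ s)) ℝ} {J : V (2 ^ r) → ℝ}
    (hJ : J ∈ clsG (2 ^ r) (2 ^ s) b (tn n) (Q * QD D) δ (2 ^ (r - n)) (2 ^ (n - s)) 1 W₃
      (2 ^ s * tn n * L) u Λ) :
    Rs (nwt (2 ^ r) b (tn n) 0) (Q • J) ≤ e ^ (1 / 16 : ℝ) := by
  have ht0 : 0 < tn n := H789.tn_pos n
  have hl : 2 ^ s ∣ 2 ^ r := pow_dvd_pow 2 (hsn.trans hnr)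
  have hJ' : J ∈ clsG (2 ^ r) (2 ^ s) b (tn n) (Q * QD D) δ (2 ^ (r - n)) (2 ^ (n - s)) 1 W₃
      (((2 ^ s : ℕ) : ℝ) * tn n * L) u Λ := by
    push_cast
    exact hJ
  have h2 := AptB.of_cls hl (by positivity) TC.one ht0.le hn.L0 hJ'
  have h3 := apt_oneR hb H he hee hR hnr hsn hn hAP h2
  rwa [(H816.clsG_rng hJ).1] at h3

/-- **TYP at the posterior mass `τ`, every prior** -/
theorem typ_tauR (hb : 0 < b) (H : AptHr P b K2 e₀) (he : 0 < e) (hee : e ≤ e₀)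
    (hR : RNG P b n r e) (hnr : n ≤ r) (hsn : s ≤ n) {τ : ℝ} (h1 : tn n ≤ τ) (h4 : τ ≤ 4 * tn n)
    {D : ℕ} {Q L Λ δ X u w Y a : ℝ} (hn : AptNr K2 e n r s D (2 * Q) L (√(tn n) * Λ) δ X)
    (hz : ZsN b n r s X (2 * Q * QD D) L u w Λ Y) (hAP : AP b n r s X (tn n) δ)
    (hw : (Wt (2 ^ r) (2 ^ s) b (tn n) τ).trace ≤ w) (ha : 0 < a) (haτ : a < τ) :
    TypE (2 ^ r) (2 ^ s) b τ a Q (e ^ (1 / 16 : ℝ) / 2 + Q ^ 2 * u)
      (13 * ((2 : ℝ) ^ (r - n)) ^ 4 * Real.exp (-Y)) := by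
  have ht0 : 0 < tn n := H789.tn_pos n
  have hτ : 0 < τ := ha.trans haτ
  have hl : 2 ^ s ∣ 2 ^ r := pow_dvd_pow 2 (hsn.trans hnr)
  have hT := tc_Eop (N := 2 ^ r) (l := 2 ^ s) hb hl ht0 h1
  have h2 := H816.zs_good (n := n) (r := r) (s := s) hb.le hsn hnr h1 h4 ha haτ 0 hT
    (W₃ := sqW (2 ^ r) (2 ^ s) b (tn n) τ) (H276.neu_sqW hb hl ht0 h1) hz.w0
    (by rw [H276.tr_sqW hb hl ht0 h1]; exact hw) hn.δ0 hz.Q1 hz.QX hz.Y0 hz.u0 hAP hz.X2 hz.L2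
    hz.u2 hz.Λ2 hz.s1 hz.s2 hz.s3
  have hE : EM (wN (2 ^ r) (2 ^ s) b τ a) := H963.em_nMC hb.le hl ha haτ.le 0
  have hM : MeasurableSet (clsG (2 ^ r) (2 ^ s) b (tn n) (2 * Q * QD D) δ (2 ^ (r - n))
      (2 ^ (n - s)) (Eop (2 ^ r) (2 ^ s) b (tn n) τ) (sqW (2 ^ r) (2 ^ s) b (tn n) τ)
      (2 ^ s * tn n * L) u (√(tn n) * Λ)) := H816.clsG_meas hb.le ht0
  unfold H239.TypE
  refine (H239.Ech_set_mono hE 0 _ (H239.typ_meas hb.le hτ _ _).compl hM.compl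
    (Set.compl_subset_compl.2 fun J hJ => ?_)).trans h2
  exact cls_tauR hb H he hee hR hnr hsn h1 hn hAP hJ

/-- **TYP at the natural mass, every prior** -/
theorem typ_oneR (hb : 0 < b) (H : AptHr P b K2 e₀) (he : 0 < e) (hee : e ≤ e₀)
    (hR : RNG P b n r e) (hnr : n ≤ r) (hsn : s ≤ n)
    {D : ℕ} {Q L Λ δ X u w Y a : ℝ} (hn : AptNr K2 e n r s D Q L (√(tn n) * Λ) δ X)
    (hz : ZsN b n r s X (Q * QD D) L u w Λ Y) (hAP : AP b n r s X (tn n) δ)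
    (ha : 0 < a) (haτ : a < tn n) :
    TypE (2 ^ r) (2 ^ s) b (tn n) a Q (e ^ (1 / 16 : ℝ))
      (13 * ((2 : ℝ) ^ (r - n)) ^ 4 * Real.exp (-Y)) := by
  have ht0 : 0 < tn n := H789.tn_pos n
  have hl : 2 ^ s ∣ 2 ^ r := pow_dvd_pow 2 (hsn.trans hnr)
  have h2 := H816.zs_good (n := n) (r := r) (s := s) hb.le hsn hnr le_rfl
    (by linarith) ha haτ 0 TC.one (W₃ := 0) (fun x => by
      unfold H963.Neu
      simp) hz.w0 (by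
      rw [Matrix.zero_mul, Matrix.trace_zero]
      exact hz.w0.le) hn.δ0 hz.Q1 hz.QX hz.Y0 hz.u0 hAP hz.X2 hz.L2
    hz.u2 hz.Λ2 hz.s1 hz.s2 hz.s3
  have hE : EM (wN (2 ^ r) (2 ^ s) b (tn n) a) := H963.em_nMC hb.le hl ha haτ.le 0
  have hM : MeasurableSet (clsG (2 ^ r) (2 ^ s) b (tn n) (Q * QD D) δ (2 ^ (r - n))
      (2 ^ (n - s)) 1 (0 : Matrix (V (2 ^ r / 2 ^ s)) (V (2 ^ r / 2 ^ s)) ℝ)
      (2 ^ s * tn n * L) u (√(tn n) * Λ)) := H816.clsG_meas hb.le ht0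
  unfold H239.TypE
  refine (H239.Ech_set_mono hE 0 _ (H239.typ_meas hb.le ht0 _ _).compl hM.compl
    (Set.compl_subset_compl.2 fun J hJ => ?_)).trans h2
  exact cls_oneR hb H he hee hR hnr hsn hn hAP hJ

end typ

end

end Vale.Agent.P159.H730
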