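import Vale.Agent.P159.H730.Sat
import Vale.Agent.P159.H864.Cel2

/-!
P159 (helper730): (*) and saturation on the cell torus, momentum by momentum, in the letters of
helper864 (`MC N l t τ = t (1 - P) + τ P`, `Gck`, `PiCk`, `Gc`, `sym`).
-/

namespace Vale.Agent.P159.H730

open Finset Matrix MeasureTheory
open Vale.Agent.P159.TM.H104 (EM Ex Cv K3 Lg li nh Gr nh_nonneg abs_li)
open Vale.Agent.P159.H37
open Vale.Agent.P159.TM.Spec (V)
open Vale.Agent.P159.TM.SpecC (wT)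
open Vale.Agent.P159.H864 (TI TInv tra sym Inv CT CInv MC cl up cobV Gc Gck PiCk GM)
open Vale.Agent.P159.TM.H764 (cN sN dt)

noncomputable section

set_option linter.unusedSectionVars false

/-! ### matrices and modes, abstract -/

section abstract

variable {V' : Type*} [Fintype V'] {I : Type*} [Fintype I]
variable {μ : (V' → ℤ) → ℝ} {Q : Matrix I V' ℝ}

/-- entry of `Q A Qᵀ` -/
lemma QAQ_apply (Q : Matrix I V' ℝ) (A : Matrix V' V' ℝ) (i j : I) :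
    (Q * A * Qᵀ) i j = bf A (Q i) (Q j) := by
  unfold bf
  rw [Matrix.mul_apply]
  simp only [Matrix.mul_apply, Matrix.transpose_apply, Finset.sum_mul]
  rw [Finset.sum_comm]

/-- `(Q A Qᵀ u)_i = <q_i, A Qᵀ u>` -/
lemma QAQ_mulVec (Q : Matrix I V' ℝ) (A : Matrix V' V' ℝ) (u : I → ℝ) (i : I) :
    ((Q * A * Qᵀ) *ᵥ u) i = bf A (Q i) (Qᵀ *ᵥ u) := by
  rw [Qt_sum, bf_sum_right]
  unfold Matrix.mulVec dotProduct
  refine Finset.sum_congr rfl fun j _ => ?_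
  have h := QAQ_apply Q A i j
  rw [bf_smul_right, ← h, mul_comm]

lemma bf_Cm_comm (hμ : EM μ) (J a b : V' → ℝ) : bf (Cm μ J) a b = Cv μ J (li b) (li a) := by
  rw [H789.bf_Cm hμ, TM.H104.Cv_comm]

/-- mean posterior bilinear forms -/
lemma bf_Cbar (hμ : EM μ) (P : Matrix I V' ℝ) (a b : V' → ℝ) :
    bf (Cbar μ 0 P) a b = Ech μ 0 P fun J => Cv (post μ P) J (li a) (li b) := by
  have hp := em_post hμ P
  have hc : ∀ x y : V', H663.ChI μ 0 P fun J => Cm (post μ P) J x y := fun x y =>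
    chi_Cv hμ P (H789.Gr.coord x) (H789.Gr.coord y)
  have e : (fun J => Cv (post μ P) J (li a) (li b)) = fun J =>
      ∑ x, ∑ y, a x * b y * Cm (post μ P) J x y := by
    funext J
    rw [← H789.bf_Cm hp]
    unfold bf
    exact Finset.sum_congr rfl fun x _ => Finset.sum_congr rfl fun y _ => by ring
  rw [e, Ech_sum _ fun x => chi_sum _ fun y => (hc x y).cmul _]
  unfold bf
  refine Finset.sum_congr rfl fun x _ => ?_
  rw [Ech_sum _ fun y => (hc x y).cmul _]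
  refine Finset.sum_congr rfl fun y _ => ?_
  rw [Ech_cmul]
  unfold Cbar EchM
  rw [Matrix.of_apply]
  ring

/-- Hilbert-Schmidt norm of the observed `C_J - G` -/
def hs2 (μ : (V' → ℤ) → ℝ) (Q : Matrix I V' ℝ) (s : ℝ) (J : V' → ℝ) : ℝ :=
  ∑ i, ∑ j, (Cv (ps μ Q s) J (li (Q i)) (li (Q j)) - Cv (ps μ Q s) 0 (li (Q i)) (li (Q j))) ^ 2

lemma hs2_nonneg (μ : (V' → ℤ) → ℝ) (Q : Matrix I V' ℝ) (s : ℝ) (J : V' → ℝ) :
    0 ≤ hs2 μ Q s J := Finset.sum_nonneg fun _ _ => Finset.sum_nonneg fun _ _ => sq_nonneg _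

/-- `|(C_J - G) u|² ≤ |u|² |C_J - G|²_HS` -/
lemma dev_le_hs (hμ : EM μ) (u : I → ℝ) (s : ℝ) (J : V' → ℝ) :
    dev μ Q (Qᵀ *ᵥ u) s J ≤ (∑ i, u i ^ 2) * hs2 μ Q s J := by
  have hp := em_post hμ (Real.sqrt s • Q)
  unfold dev hs2
  rw [Finset.mul_sum]
  refine Finset.sum_le_sum fun i _ => ?_
  have e : ∀ J, Cv (ps μ Q s) J (li (Qᵀ *ᵥ u)) (li (Q i)) =
      ∑ j, u j * Cv (ps μ Q s) J (li (Q i)) (li (Q j)) := by
    intro J
    rw [TM.H104.Cv_comm, Cv_Qt hp]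
  rw [e, e, ← Finset.sum_sub_distrib]
  simp only [← mul_sub]
  exact Finset.sum_mul_sq_le_sq_mul_sq _ _ _

/-- **(*) in matrix letters.**  `Gs`: covariance of the observed field, `Cs`: mean posterior
covariance, `u` a common eigenvector with eigenvalues `g s`, `cb s`. -/
theorem mode_of_eig (hμ : EM μ) {u : I → ℝ} {p : ℝ} {g cb : ℝ → ℝ} (hn : 0 < ∑ i, u i ^ 2)
    (hg : ∀ s ∈ Set.Icc 0 p, (Q * Gm (ps μ Q s) * Qᵀ) *ᵥ u = g s • u)
    (hc : ∀ s ∈ Set.Icc 0 p, (Q * Cbar μ 0 (Real.sqrt s • Q) * Qᵀ) *ᵥ u = cb s • u)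
    (hpos : ∀ s ∈ Set.Icc 0 p, 0 < g s) :
    Mode μ Q u p ∧ (∀ s ∈ Set.Icc 0 p, gz μ Q (Qᵀ *ᵥ u) s = g s * ∑ i, u i ^ 2) ∧
      ∀ s ∈ Set.Icc 0 p, cz μ Q (Qᵀ *ᵥ u) s = cb s * ∑ i, u i ^ 2 := by
  have h1 : ∀ s ∈ Set.Icc 0 p, ∀ i, Cv (ps μ Q s) 0 (li (Qᵀ *ᵥ u)) (li (Q i)) = g s * u i := by
    intro s hs i
    have h := congrFun (hg s hs) i
    rw [QAQ_mulVec, Pi.smul_apply, smul_eq_mul] at h
    rw [← h, TM.H104.Cv_comm, ← H789.bf_Cm (em_post hμ _)]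
    rfl
  have h2 : ∀ s ∈ Set.Icc 0 p, ∀ i,
      (Es μ Q s fun J => Cv (ps μ Q s) J (li (Qᵀ *ᵥ u)) (li (Q i))) = cb s * u i := by
    intro s hs i
    have h := congrFun (hc s hs) i
    rw [QAQ_mulVec, Pi.smul_apply, smul_eq_mul, bf_Cbar hμ] at h
    rw [← h]
    unfold Es
    congr 1
    funext J
    exact TM.H104.Cv_comm _ _ _
  have h3 : ∀ s ∈ Set.Icc 0 p, gz μ Q (Qᵀ *ᵥ u) s = g s * ∑ i, u i ^ 2 :=
    fun s hs => gz_eig hμ (h1 s hs)
  have h4 : ∀ s ∈ Set.Icc 0 p, cz μ Q (Qᵀ *ᵥ u) s = cb s * ∑ i, u i ^ 2 :=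
    fun s hs => cz_eig hμ (h2 s hs)
  refine ⟨⟨hn, fun s hs => ?_, fun s hs => ⟨g s, h1 s hs⟩, fun s hs => ⟨cb s, h2 s hs⟩⟩, h3, h4⟩
  rw [h3 s hs]
  exact mul_pos (hpos s hs) hn

end abstract

/-! ### the cell torus -/

section torus

variable {N l : ℕ} [NeZero N] [NeZero (N / l)] {b t τ τ' : ℝ}

/-- prior weight with cell mass `τ` -/
abbrev wC (N l : ℕ) [NeZero N] (b t τ : ℝ) : (V N → ℤ) → ℝ := wM (wT b N) (MC N l t τ)

lemma ps_wC (hl : l ∣ N) (b t : ℝ) {τ' s : ℝ} (hs : 0 ≤ s) :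
    ps (wC N l b t τ') (cobV N l) s = wC N l b t (τ' + s) := by
  have h := H864.post_MC (N := N) (l := l) (t := t) (wT b N) (show τ' ≤ τ' + s by linarith)
  rw [add_sub_cancel_left, H864.post_cob hl] at h
  exact h

lemma nq_cob (hl : l ∣ N) (h : V N → ℤ) : nq (cobV N l) h = qf (cellP N l) (re h) := by
  rw [H864.cellP_eq hl, qf_gram]
  rfl

/-- Gaussian moments of the cell averages -/
theorem gm_wC (hb : 0 ≤ b) (hl : l ∣ N) (hτ : 0 < τ) (h : τ ≤ t) :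
    H730.GM (wC N l b t τ) (cobV N l) (τ / 4) := by
  refine ⟨H864.em_MC hb hl hτ h, by linarith, ?_⟩
  have h1 := H864.em_MC (t := t) (τ := τ / 2) hb hl (by linarith) (by linarith)
  have e : (fun k => wC N l b t τ k * Real.exp (τ / 4 * nq (cobV N l) k)) =
      wM (wT b N) (MC N l t (τ / 2)) := by
    funext k
    unfold wC wM
    rw [mul_assoc, ← Real.exp_add, nq_cob hl, H864.qf_MC, H864.qf_MC]
    congr 2
    ring
  rw [e]
  exact h1

/-- the wave of the cell torus -/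
def wv (k : V (N / l)) : V (N / l) → ℝ := fun x => cN (dt k x)

lemma wv_pos (k : V (N / l)) : 0 < ∑ x, wv (N := N) (l := l) k x ^ 2 := by
  refine lt_of_lt_of_le ?_ (Finset.single_le_sum (f := fun x => wv (N := N) (l := l) k x ^ 2)
    (fun _ _ => sq_nonneg _) (Finset.mem_univ (0 : V (N / l))))
  simp only [wv]
  rw [H864.dt_zero, TM.H764.cN_zero]
  norm_num

/-- symbol of the mean posterior cell covariance: prior cell mass `τ'`, posterior cell mass `τ` -/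
def Cbk (N l : ℕ) [NeZero N] [NeZero (N / l)] (b t τ' τ : ℝ) (k : V (N / l)) : ℝ :=
  sym (Gc l (Cbar (wC N l b t τ') 0 (Real.sqrt (τ - τ') • cob N l))) k

/-- **the waves are modes** -/
theorem mode_wv (hb : 0 < b) (hl : l ∣ N) (hτ' : 0 < τ') (h : τ' ≤ τ) (ht : τ ≤ t)
    (k : V (N / l)) :
    Mode (wC N l b t τ') (cobV N l) (wv k) (τ - τ') ∧
      (∀ s ∈ Set.Icc 0 (τ - τ'), gz (wC N l b t τ') (cobV N l) ((cobV N l)ᵀ *ᵥ wv k) s =
        Gck N l b t (τ' + s) k * ∑ x, wv (N := N) (l := l) k x ^ 2) ∧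
      ∀ s ∈ Set.Icc 0 (τ - τ'), cz (wC N l b t τ') (cobV N l) ((cobV N l)ᵀ *ᵥ wv k) s =
        Cbk N l b t τ' (τ' + s) k * ∑ x, wv (N := N) (l := l) k x ^ 2 := by
  refine mode_of_eig (H864.em_MC hb.le hl hτ' (h.trans ht)) (wv_pos k) (fun s hs => ?_)
    (fun s hs => ?_) fun s hs => ?_
  · rw [ps_wC hl b t hs.1]
    exact (H864.ti_Gc_GM hl b t (τ' + s)).mulVec_cN k
  · have h1 := (H864.ti_Gc_Cbar hl (H864.cinv_MC hl b t τ') (Real.sqrt s)).mulVec_cN k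
    unfold Cbk
    rw [add_sub_cancel_left]
    rw [H864.Cbar_cob hl] at h1 ⊢
    exact h1
  · exact H864.Gck_pos hb hl (by linarith [hs.1]) (by linarith [hs.2]) k

/-- the data of **(*)** on the cell torus: good sets with `e^T - 1 ≤ θ`, bad set contribution -/
structure ST (N l : ℕ) [NeZero N] [NeZero (N / l)] (b t τ' τ θ e : ℝ)
    (Gd : ℝ → Set (V N → ℝ)) : Prop where
  b0 : 0 < b
  dvd : l ∣ N
  pos : 0 < τ'
  le : τ' ≤ τ
  le' : τ ≤ t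
  th0 : 0 ≤ θ
  e0 : 0 ≤ e
  meas : ∀ σ ∈ Set.Icc τ' τ, MeasurableSet (Gd σ)
  th : ∀ σ ∈ Set.Icc τ' τ, ∀ J ∈ Gd σ, Real.exp (Tq (wC N l b t σ) J) - 1 ≤ θ
  err : ∀ σ ∈ Set.Icc τ' τ, Ech (wC N l b t τ') 0 (Real.sqrt (σ - τ') • cobV N l)
    ((Gd σ)ᶜ.indicator (hs2 (wC N l b t τ') (cobV N l) (σ - τ'))) ≤ e

variable {θ e : ℝ} {Gd : ℝ → Set (V N → ℝ)}

lemma measurable_hs2 {V' : Type*} [Fintype V'] {I : Type*} [Fintype I] {μ : (V' → ℤ) → ℝ}
    {Q : Matrix I V' ℝ} (hμ : EM μ) (s : ℝ) : Measurable (hs2 μ Q s) := by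
  unfold hs2
  refine (continuous_finsetSum _ fun i _ => continuous_finsetSum _ fun j _ => ?_).measurable
  exact ((TM.H104.continuous_Cv (em_post hμ _) (Gr.li (Q i)) (Gr.li (Q j))).sub
    continuous_const).pow 2

lemma chi_hs2 {V' : Type*} [Fintype V'] {I : Type*} [Fintype I] {μ : (V' → ℤ) → ℝ}
    {Q : Matrix I V' ℝ} (hμ : EM μ) (s : ℝ) :
    H663.ChI μ 0 (Real.sqrt s • Q) (hs2 μ Q s) := by
  have e : hs2 μ Q s = fun J => ∑ i, dev μ Q (Q i) s J := by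
    funext J
    rfl
  rw [e]
  exact chi_sum _ fun i => chi_dev hμ (Q i) s

lemma chi_ind {V' : Type*} [Fintype V'] {I : Type*} [Fintype I] {μ : (V' → ℤ) → ℝ}
    {P : Matrix I V' ℝ} (hμ : EM μ) {Φ : (V' → ℝ) → ℝ} (hm : Measurable Φ) (h0 : ∀ J, 0 ≤ Φ J)
    (hΦ : H663.ChI μ 0 P Φ) {A : Set (V' → ℝ)} (hA : MeasurableSet A) :
    H663.ChI μ 0 P (A.indicator Φ) := by
  refine H663.ChI.mono hμ (hm.indicator hA) hΦ fun J => ?_
  by_cases hJ : J ∈ A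
  · rw [Set.indicator_of_mem hJ, abs_of_nonneg (h0 J)]
  · rw [Set.indicator_of_notMem hJ, abs_zero]
    exact h0 J

/-- the hypotheses of the abstract theorem -/
theorem ST.sh (h : ST N l b t τ' τ θ e Gd) (k : V (N / l)) :
    SH (wC N l b t τ') (cobV N l) (wv k) (τ - τ') θ
      ((∑ x, wv (N := N) (l := l) k x ^ 2) * e) (fun s => Gd (τ' + s)) where
  gm := ⟨_, gm_wC h.b0.le h.dvd h.pos (h.le.trans h.le')⟩
  ev := H864.ev_wTM _
  p0 := sub_nonneg.2 h.le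
  pk s hs := by
    rw [ps_wC h.dvd b t hs.1]
    exact (H864.dm_MC h.b0 h.dvd (by linarith [h.pos, hs.1]) (by linarith [h.le', hs.2])).pk
  mode := (mode_wv h.b0 h.dvd h.pos h.le h.le' k).1
  th0 := h.th0
  e0 := mul_nonneg (wv_pos k).le h.e0
  meas s hs := h.meas _ ⟨by linarith [hs.1], by linarith [hs.2]⟩
  th s hs J hJ := by
    rw [ps_wC h.dvd b t hs.1]
    exact h.th _ ⟨by linarith [hs.1], by linarith [hs.2]⟩ J hJ
  err s hs := by
    have hμ := H864.em_MC (N := N) (l := l) (t := t) h.b0.le h.dvd h.pos (h.le.trans h.le')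
    have h1 := h.err (τ' + s) ⟨by linarith [hs.1], by linarith [hs.2]⟩
    rw [add_sub_cancel_left] at h1
    have hm := (h.meas (τ' + s) ⟨by linarith [hs.1], by linarith [hs.2]⟩).compl
    have h2 : Es (wC N l b t τ') (cobV N l) s ((Gd (τ' + s))ᶜ.indicator
        (dev (wC N l b t τ') (cobV N l) ((cobV N l)ᵀ *ᵥ wv k) s)) ≤
        Es (wC N l b t τ') (cobV N l) s fun J => (∑ x, wv (N := N) (l := l) k x ^ 2) *
          (Gd (τ' + s))ᶜ.indicator (hs2 (wC N l b t τ') (cobV N l) s) J := by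
      refine H663.Ech_mono' hμ (chi_ind hμ (measurable_dev hμ _ s) (dev_nonneg _ _ _ _)
        (chi_dev hμ _ s) hm)
        ((chi_ind hμ (measurable_hs2 hμ s) (hs2_nonneg _ _ _) (chi_hs2 hμ s) hm).cmul _)
        fun J => ?_
      by_cases hJ : J ∈ (Gd (τ' + s))ᶜ
      · rw [Set.indicator_of_mem hJ, Set.indicator_of_mem hJ]
        exact dev_le_hs hμ _ _ _
      · rw [Set.indicator_of_notMem hJ, Set.indicator_of_notMem hJ, mul_zero]
    refine h2.trans ?_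
    unfold Es
    rw [Ech_cmul]
    exact mul_le_mul_of_nonneg_left h1 (wv_pos k).le

lemma ST.cb_ge (h : ST N l b t τ' τ θ e Gd) (k : V (N / l)) :
    Gck N l b t τ k ≤ Cbk N l b t τ' τ k := by
  obtain ⟨_, h2, h3⟩ := mode_wv h.b0 h.dvd h.pos h.le h.le' k
  have i : τ - τ' ∈ Set.Icc 0 (τ - τ') := ⟨sub_nonneg.2 h.le, le_rfl⟩
  have h4 := (h.sh k).gz_le i
  rw [h2 _ i, h3 _ i, add_sub_cancel] at h4
  exact le_of_mul_le_mul_right h4 (wv_pos k)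

lemma PiZ_tor (h : ST N l b t τ' τ θ e Gd) (k : V (N / l)) {s : ℝ} (hs : s ∈ Set.Icc 0 (τ - τ')) :
    PiZ (wC N l b t τ') (cobV N l) (wv k) s = PiCk N l b t (τ' + s) k + τ' := by
  obtain ⟨_, h2, _⟩ := mode_wv h.b0 h.dvd h.pos h.le h.le' k
  unfold PiZ PiCk
  rw [h2 s hs]
  have hn := (wv_pos (N := N) (l := l) k).ne'
  have hg := (H864.Gck_pos h.b0 h.dvd (by linarith [h.pos, hs.1]) (by linarith [h.le', hs.2]) k :
    0 < Gck N l b t (τ' + s) k).ne'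
  field_simp
  ring

/-- **(*) on the cell torus** -/
theorem ST.star (h : ST N l b t τ' τ θ e Gd) (k : V (N / l)) :
    (1 - θ) * (PiCk N l b t τ k - PiCk N l b t τ' k) - (τ - τ') * (e / Gck N l b t τ k ^ 2) ≤
      (Gck N l b t τ k)⁻¹ - (Cbk N l b t τ' τ k)⁻¹ ∧
    (Gck N l b t τ k)⁻¹ - (Cbk N l b t τ' τ k)⁻¹ ≤ PiCk N l b t τ k - PiCk N l b t τ' k := by
  obtain ⟨_, h2, h3⟩ := mode_wv h.b0 h.dvd h.pos h.le h.le' k
  have i0 : (0 : ℝ) ∈ Set.Icc 0 (τ - τ') := ⟨le_rfl, sub_nonneg.2 h.le⟩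
  have i : τ - τ' ∈ Set.Icc 0 (τ - τ') := ⟨sub_nonneg.2 h.le, le_rfl⟩
  have h4 := (h.sh k).star
  rw [PiZ_tor h k i, PiZ_tor h k i0, h2 _ i, h3 _ i, add_zero, add_sub_cancel] at h4
  have hn := wv_pos (N := N) (l := l) k
  have hg := H864.Gck_pos (N := N) (l := l) (t := t) h.b0 h.dvd (h.pos.trans_le h.le) h.le' k
  have hc := hg.trans_le (h.cb_ge k)
  set n := ∑ x, wv (N := N) (l := l) k x ^ 2
  set g := Gck N l b t τ k
  set c := Cbk N l b t τ' τ k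
  have e1 : n / (g * n) - n / (c * n) = g⁻¹ - c⁻¹ := by
    field_simp
  have e2 : (τ - τ') * (n * (n * e) / (g * n) ^ 2) = (τ - τ') * (e / g ^ 2) := by
    field_simp
  have e3 : PiCk N l b t τ k + τ' - (PiCk N l b t τ' k + τ') =
      PiCk N l b t τ k - PiCk N l b t τ' k := by ring
  rw [e1, e2, e3] at h4
  exact h4

/-- **SATURATION on the cell torus.**  `τ'' ≤ τ' ≤ τ`, mean excesses
`N' = Cbk(τ',τ) - Gck(τ)`, `N'' = Cbk(τ'',τ) - Gck(τ)`.  If `N'' ≤ (1+ε) N' + r` then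
`Π(τ') - Π(τ'') ≤ 2 (θ+ε) (Π(τ) - Π(τ')) + 2 ((τ-τ'') e'' + r)/Gck(τ)²`. -/
theorem sat_tor {τ'' e' e'' : ℝ} {Gd' Gd'' : ℝ → Set (V N → ℝ)}
    (h' : ST N l b t τ' τ θ e' Gd') (h'' : ST N l b t τ'' τ θ e'' Gd'') (hθ2 : θ ≤ 1 / 2)
    {ε r : ℝ} (hε : 0 ≤ ε) (hr : 0 ≤ r) (k : V (N / l))
    (hN : Cbk N l b t τ'' τ k - Gck N l b t τ k ≤
      (1 + ε) * (Cbk N l b t τ' τ k - Gck N l b t τ k) + r) :
    PiCk N l b t τ' k - PiCk N l b t τ'' k ≤
      2 * (θ + ε) * (PiCk N l b t τ k - PiCk N l b t τ' k) +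
        2 * (((τ - τ'') * e'' + r) / Gck N l b t τ k ^ 2) := by
  have hg := H864.Gck_pos (N := N) (l := l) (t := t) h'.b0 h'.dvd (h'.pos.trans_le h'.le) h'.le' k
  have hc' := h'.cb_ge k
  have hc'' := h''.cb_ge k
  have s1 := (h'.star k).2
  have s2 := (h''.star k).1
  set g := Gck N l b t τ k
  set x1 := Cbk N l b t τ' τ k - g with hx1
  set x2 := Cbk N l b t τ'' τ k - g with hx2
  have e1 : Cbk N l b t τ' τ k = g + x1 := by rw [hx1]; ring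
  have e2 : Cbk N l b t τ'' τ k = g + x2 := by rw [hx2]; ring
  have hE : 0 ≤ (τ - τ'') * (e'' / g ^ 2) :=
    mul_nonneg (sub_nonneg.2 h''.le) (div_nonneg h''.e0 (sq_nonneg _))
  have h := sat_real (n := 1) (g := g) (x1 := x1) (x2 := x2) h'.th0 hθ2 hε zero_le_one hg
    (sub_nonneg.2 hc') (sub_nonneg.2 hc'') hE hr hN
    (D := PiCk N l b t τ k - PiCk N l b t τ'' k) (D1 := PiCk N l b t τ k - PiCk N l b t τ' k)
    (by rw [one_div, one_div, ← e2]; exact s2) (by rw [one_div, one_div, ← e1]; exact s1)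
  have e3 : PiCk N l b t τ k - PiCk N l b t τ'' k - (PiCk N l b t τ k - PiCk N l b t τ' k) =
      PiCk N l b t τ' k - PiCk N l b t τ'' k := by ring
  rw [e3] at h
  refine h.trans (le_of_eq ?_)
  ring

end torus

end

end Vale.Agent.P159.H730
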