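import Vale.Agent.P159.H552.GauHS2
import Vale.Agent.P159.H663.ChI
import Vale.Agent.P159.H114.AE1
import Vale.Agent.P159.H789.Bridge

/-!
P159 (helper730): LAW (PU5).  The exact channel law of the source against its Gaussian reference law.

* `tilt_up_measure` : `exp (<g,H g>/2) gau = c N(0, (1 - H)⁻¹)` whenever the weight is integrable;
* `Ech_eq_G` : `Ech μ 0 P Φ = E_G[e^R Φ] / E_G[e^R]`, `G` the law of `X g`,
  `X = Pᵀ B`, `B Bᵀ (1 - P Gm Pᵀ) = 1`.
* two-sided comparison with a good set.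
-/

namespace Vale.Agent.P159.H730

open Finset Matrix MeasureTheory ProbabilityTheory
open Vale.Agent.P159.H37
open Vale.Agent.P159.H552 (dnp dn gau_scale gau_int_eq gau_integrable_iff spec_real meas_mulVec)

noncomputable section

set_option linter.unusedSectionVars false

/-! ### a Gaussian with a growing weight -/

section gauss

variable {I I' : Type*} [Fintype I] [Fintype I']

lemma int_exp_sq_lt {h : ℝ}
    (hi : Integrable (fun x : ℝ => Real.exp (h * x ^ 2 / 2)) (gaussianReal 0 1)) : h < 1 := by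
  by_contra hc
  push Not at hc
  rw [gaussianReal_of_var_ne_zero _ one_ne_zero,
    integrable_withDensity_iff_integrable_smul' (measurable_gaussianPDF 0 1)
      (Filter.Eventually.of_forall fun x => ENNReal.ofReal_lt_top)] at hi
  have h1 : Integrable (fun _ : ℝ => (√(2 * Real.pi))⁻¹) volume := by
    refine hi.mono' aestronglyMeasurable_const (Filter.Eventually.of_forall fun x => ?_)
    have hp : 0 < (√(2 * Real.pi))⁻¹ := by positivity
    rw [Real.norm_eq_abs, abs_of_pos hp, gaussianPDF_def,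
      ENNReal.toReal_ofReal (gaussianPDFReal_nonneg _ _ _), gaussianPDFReal_def, smul_eq_mul]
    simp only [NNReal.coe_one, mul_one, sub_zero]
    rw [mul_assoc, ← Real.exp_add]
    have h2 : 1 ≤ Real.exp (-x ^ 2 / 2 + h * x ^ 2 / 2) := Real.one_le_exp (by nlinarith [sq_nonneg x])
    nlinarith
  rw [integrable_const_iff] at h1
  rcases h1 with h1 | h1
  · have : 0 < (√(2 * Real.pi))⁻¹ := by positivity
    exact this.ne' h1
  · have := h1.measure_univ_lt_top
    simp at this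

variable [DecidableEq I] {H : Matrix I I ℝ}

lemma qf_diagO {O : Matrix I I ℝ} {h : I → ℝ} (hO2 : Oᵀ * O = 1)
    (hH : H = O * diagonal h * Oᵀ) (g : I → ℝ) : qf H (O *ᵥ g) = ∑ i, h i * g i ^ 2 := by
  rw [hH, H37.qf_eq, mulVec_mulVec]
  have h1 : O * diagonal h * Oᵀ * O = O * diagonal h := by
    rw [Matrix.mul_assoc, hO2, Matrix.mul_one]
  rw [h1, ← mulVec_mulVec, dotProduct_mulVec, ← mulVec_transpose, mulVec_mulVec, hO2,
    Matrix.one_mulVec]
  simp only [dotProduct, mulVec_diagonal]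
  exact Finset.sum_congr rfl fun i _ => by ring

lemma measurable_expqf (H : Matrix I I ℝ) : Measurable fun g : I → ℝ => Real.exp (qf H g / 2) := by
  have : Measurable fun v : I → ℝ => qf H v := by
    unfold qf
    fun_prop
  fun_prop

/-- spectral decomposition of an integrable weight -/
lemma spec_tilt (hHs : Hᵀ = H) (hH0 : ∀ u, 0 ≤ qf H u)
    (hi : Integrable (fun g : I → ℝ => Real.exp (qf H g / 2)) (gau I)) :
    ∃ (O : Matrix I I ℝ) (h : I → ℝ), O * Oᵀ = 1 ∧ Oᵀ * O = 1 ∧ H = O * diagonal h * Oᵀ ∧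
      ∀ i, 0 ≤ h i ∧ h i < 1 := by
  obtain ⟨O, h, hO1, hO2, hH, -⟩ := spec_real hHs
  have hq := qf_diagO hO2 hH
  have h0 : ∀ i, 0 ≤ h i := by
    intro i
    have h1 := hH0 (O *ᵥ Pi.single i 1)
    rw [hq] at h1
    have h3 : ∑ j, h j * (Pi.single i (1 : ℝ) : I → ℝ) j ^ 2 = h i := by
      rw [Finset.sum_eq_single i]
      · simp
      · intro j _ hj
        simp [Pi.single_eq_of_ne hj]
      · simp
    rwa [h3] at h1
  have hi2 : Integrable (fun g : I → ℝ => Real.exp ((∑ i, h i * g i ^ 2) / 2)) (gau I) := by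
    have h1 := (gau_integrable_iff (A := (1 : Matrix I I ℝ)) (B := O)
      (by rw [Matrix.transpose_one, Matrix.mul_one, hO1]) (measurable_expqf H)).1
      (by simpa only [Matrix.one_mulVec] using hi)
    simpa only [hq] using h1
  refine ⟨O, h, hO1, hO2, hH, fun i => ⟨h0 i, ?_⟩⟩
  have h4 : Integrable (fun g : I → ℝ => Real.exp (h i * g i ^ 2 / 2)) (gau I) := by
    refine hi2.mono' (Continuous.aestronglyMeasurable (by fun_prop))
      (Filter.Eventually.of_forall fun g => ?_)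
    rw [Real.norm_eq_abs, abs_of_pos (Real.exp_pos _)]
    refine Real.exp_le_exp.2 (div_le_div_of_nonneg_right ?_ zero_le_two)
    exact Finset.single_le_sum (f := fun i => h i * g i ^ 2)
      (fun j _ => mul_nonneg (h0 j) (sq_nonneg _)) (Finset.mem_univ i)
  have h5 : MeasurePreserving (fun g : I → ℝ => g i) (gau I) (gaussianReal 0 1) := by
    unfold gau
    exact measurePreserving_eval (fun _ : I => gaussianReal 0 1) i
  refine int_exp_sq_lt ?_
  exact (h5.integrable_comp (f := fun g : I → ℝ => g i)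
    (g := fun x : ℝ => Real.exp (h i * x ^ 2 / 2)) (by fun_prop)).1 h4

/-- the covariance `(1 - H)⁻¹` has a symmetric root -/
theorem exists_root (hHs : Hᵀ = H) (hH0 : ∀ u, 0 ≤ qf H u)
    (hi : Integrable (fun g : I → ℝ => Real.exp (qf H g / 2)) (gau I)) :
    ∃ B : Matrix I I ℝ, Bᵀ = B ∧ B * Bᵀ * (1 - H) = 1 := by
  obtain ⟨O, h, hO1, hO2, hH, hh⟩ := spec_tilt hHs hH0 hi
  set D : Matrix I I ℝ := diagonal fun i => √(1 / (1 - h i)) with hD
  have hDt : Dᵀ = D := by rw [hD, diagonal_transpose]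
  have h1 : (1 : Matrix I I ℝ) - H = O * diagonal (fun i => 1 - h i) * Oᵀ := by
    have : diagonal (fun i => 1 - h i) = 1 - diagonal h := by
      rw [← diagonal_one, diagonal_sub]
    rw [this, Matrix.mul_sub, Matrix.sub_mul, Matrix.mul_one, hO1, ← hH]
  have hDD : D * (D * diagonal (fun i => 1 - h i)) = 1 := by
    rw [hD, diagonal_mul_diagonal, diagonal_mul_diagonal, ← diagonal_one]
    congr 1
    funext i
    have h4 : 0 < 1 - h i := by linarith [(hh i).2]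
    rw [← mul_assoc, Real.mul_self_sqrt (by positivity)]
    field_simp
  refine ⟨O * D * Oᵀ, ?_, ?_⟩
  · rw [transpose_mul, transpose_mul, transpose_transpose, hDt, Matrix.mul_assoc]
  · rw [transpose_mul, transpose_mul, transpose_transpose, hDt, h1]
    calc _ = O * (D * ((Oᵀ * O) * (D * ((Oᵀ * O) * (diagonal (fun i => 1 - h i) * Oᵀ))))) := by
          simp only [Matrix.mul_assoc]
      _ = O * ((D * (D * diagonal (fun i => 1 - h i))) * Oᵀ) := by
          rw [hO2, Matrix.one_mul, Matrix.one_mul]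
          simp only [Matrix.mul_assoc]
      _ = 1 := by rw [hDD, Matrix.one_mul, hO1]

/-- integral form: `∫ F(g) exp (<g,H g>/2) = c ∫ F(B g)` -/
theorem tilt_up (hHs : Hᵀ = H) (hH0 : ∀ u, 0 ≤ qf H u)
    (hi : Integrable (fun g : I → ℝ => Real.exp (qf H g / 2)) (gau I)) {B : Matrix I I' ℝ}
    (hB : B * Bᵀ * (1 - H) = 1) {F : (I → ℝ) → ℝ} (hF : Measurable F) :
    ∫ g, F g * Real.exp (qf H g / 2) ∂(gau I) =
      (∫ g, Real.exp (qf H g / 2) ∂(gau I)) * ∫ g, F (B *ᵥ g) ∂(gau I') := by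
  obtain ⟨O, h, hO1, hO2, hH, hh⟩ := spec_tilt hHs hH0 hi
  have hq := qf_diagO hO2 hH
  set a : I → ℝ := fun i => 1 / (1 - h i) - 1 with ha
  have ha0 : ∀ i, 1 + a i = 1 / (1 - h i) := fun i => by simp only [ha]; ring
  have ha1 : ∀ i, 0 < 1 + a i := by
    intro i
    have : 0 < 1 - h i := by linarith [(hh i).2]
    rw [ha0]
    positivity
  set D : Matrix I I ℝ := diagonal fun i => √(1 + a i) with hD
  set p : ℝ := ∏ i, √(1 + a i) with hp
  have hdn : ∀ g : I → ℝ, Real.exp ((∑ i, h i * g i ^ 2) / 2) = p * dnp a g := by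
    intro g
    unfold H552.dnp H552.dn
    rw [hp, ← Finset.prod_mul_distrib]
    have h1 : ∀ i, √(1 + a i) * ((√(1 + a i))⁻¹ * Real.exp (a i / (1 + a i) * (g i ^ 2 / 2))) =
        Real.exp (h i * g i ^ 2 / 2) := by
      intro i
      have h3 : 0 < √(1 + a i) := Real.sqrt_pos.2 (ha1 i)
      rw [← mul_assoc, mul_inv_cancel₀ h3.ne', one_mul]
      congr 1
      have h4 : 0 < 1 - h i := by linarith [(hh i).2]
      rw [ha0]
      simp only [ha]
      field_simp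
      ring
    simp only [h1]
    rw [← Real.exp_sum, Finset.sum_div]
  have key : ∀ F : (I → ℝ) → ℝ, Measurable F →
      ∫ g, F g * Real.exp (qf H g / 2) ∂(gau I) = p * ∫ g, F ((O * D) *ᵥ g) ∂(gau I) := by
    intro F hF
    have hm : Measurable fun g : I → ℝ => F g * Real.exp (qf H g / 2) :=
      hF.mul (measurable_expqf H)
    have h1 := gau_int_eq (A := (1 : Matrix I I ℝ)) (B := O)
      (by rw [Matrix.transpose_one, Matrix.mul_one, hO1]) hm
    simp only [Matrix.one_mulVec] at h1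
    rw [h1]
    have h2 : ∀ g : I → ℝ, F (O *ᵥ g) * Real.exp (qf H (O *ᵥ g) / 2) =
        p * (dnp a g * F (O *ᵥ g)) := by
      intro g
      rw [hq, hdn]
      ring
    simp only [h2]
    rw [integral_const_mul]
    congr 1
    rw [← gau_scale ha1 fun g : I → ℝ => F (O *ᵥ g)]
    refine integral_congr_ae (Filter.Eventually.of_forall fun g => ?_)
    simp only
    congr 1
    rw [← mulVec_mulVec]
    congr 1
    funext i
    rw [hD, mulVec_diagonal]
  have hc : ∫ g, Real.exp (qf H g / 2) ∂(gau I) = p := by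
    have h1 := key (fun _ => 1) measurable_const
    simp only [one_mul] at h1
    rw [h1]
    simp
  rw [key F hF, hc]
  congr 1
  refine gau_int_eq ?_ hF
  have h1 : (1 : Matrix I I ℝ) - H = O * diagonal (fun i => 1 - h i) * Oᵀ := by
    have : diagonal (fun i => 1 - h i) = 1 - diagonal h := by
      rw [← diagonal_one, diagonal_sub]
    rw [this, Matrix.mul_sub, Matrix.sub_mul, Matrix.mul_one, hO1, ← hH]
  have hDt : Dᵀ = D := by rw [hD, diagonal_transpose]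
  have hDD : D * (D * diagonal (fun i => 1 - h i)) = 1 := by
    rw [hD, diagonal_mul_diagonal, diagonal_mul_diagonal, ← diagonal_one]
    congr 1
    funext i
    have h4 : 0 < 1 - h i := by linarith [(hh i).2]
    rw [← mul_assoc, Real.mul_self_sqrt (ha1 i).le, ha0]
    field_simp
  have h2 : (O * D) * (O * D)ᵀ * (1 - H) = 1 := by
    rw [h1, transpose_mul, hDt]
    calc _ = O * (D * (D * ((Oᵀ * O) * (diagonal (fun i => 1 - h i) * Oᵀ)))) := by
          simp only [Matrix.mul_assoc]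
      _ = O * ((D * (D * diagonal (fun i => 1 - h i))) * Oᵀ) := by
          rw [hO2, Matrix.one_mul]
          simp only [Matrix.mul_assoc]
      _ = 1 := by rw [hDD, Matrix.one_mul, hO1]
  have h6 : ((O * D) * (O * D)ᵀ) * (1 - H) = (B * Bᵀ) * (1 - H) := by rw [h2, hB]
  have h7 : IsUnit ((1 : Matrix I I ℝ) - H) :=
    (Matrix.isUnit_iff_isUnit_det _).2 (Matrix.isUnit_det_of_left_inverse h2)
  exact h7.mul_left_injective h6

/-- measure form -/
theorem tilt_up_measure (hHs : Hᵀ = H) (hH0 : ∀ u, 0 ≤ qf H u)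
    (hi : Integrable (fun g : I → ℝ => Real.exp (qf H g / 2)) (gau I)) {B : Matrix I I' ℝ}
    (hB : B * Bᵀ * (1 - H) = 1) :
    (gau I).withDensity (fun g => ENNReal.ofReal (Real.exp (qf H g / 2))) =
      ENNReal.ofReal (∫ g, Real.exp (qf H g / 2) ∂(gau I)) • (gau I').map (fun g => B *ᵥ g) := by
  refine Measure.ext fun s hs => ?_
  have h1 := tilt_up hHs hH0 hi hB (F := s.indicator fun _ => (1 : ℝ))
    (measurable_const.indicator hs)
  have hm2 := meas_mulVec B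
  rw [Measure.smul_apply, Measure.map_apply hm2 hs, smul_eq_mul, withDensity_apply _ hs]
  have e1 : ∀ g : I → ℝ, s.indicator (fun _ => (1 : ℝ)) g * Real.exp (qf H g / 2) =
      s.indicator (fun g => Real.exp (qf H g / 2)) g := by
    intro g
    by_cases hg : g ∈ s
    · rw [Set.indicator_of_mem hg, Set.indicator_of_mem hg, one_mul]
    · rw [Set.indicator_of_notMem hg, Set.indicator_of_notMem hg, zero_mul]
  have e2 : ∀ g : I' → ℝ, s.indicator (fun _ => (1 : ℝ)) (B *ᵥ g) =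
      ((fun g : I' → ℝ => B *ᵥ g) ⁻¹' s).indicator (fun _ => 1) g := by
    intro g
    by_cases hg : B *ᵥ g ∈ s
    · rw [Set.indicator_of_mem hg, Set.indicator_of_mem (by exact hg)]
    · rw [Set.indicator_of_notMem hg, Set.indicator_of_notMem (by exact hg)]
  simp only [e1, e2] at h1
  rw [integral_indicator hs, integral_indicator (hm2 hs)] at h1
  rw [← ofReal_integral_eq_lintegral_ofReal hi.integrableOn
    (Filter.Eventually.of_forall fun g => (Real.exp_pos _).le), h1]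
  rw [setIntegral_const, smul_eq_mul, mul_one]
  rw [ENNReal.ofReal_mul (integral_nonneg fun g => (Real.exp_pos _).le), measureReal_def,
    ENNReal.ofReal_toReal (measure_ne_top _ _)]

lemma int_expqf_pos (hi : Integrable (fun g : I → ℝ => Real.exp (qf H g / 2)) (gau I)) :
    0 < ∫ g, Real.exp (qf H g / 2) ∂(gau I) := by
  rw [integral_pos_iff_support_of_nonneg (fun g => (Real.exp_pos _).le) hi]
  have : Function.support (fun g : I → ℝ => Real.exp (qf H g / 2)) = Set.univ := by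
    ext g
    simp [(Real.exp_pos _).ne']
  rw [this]
  simp

/-- integrability form -/
theorem tilt_up_integrable (hHs : Hᵀ = H) (hH0 : ∀ u, 0 ≤ qf H u)
    (hi : Integrable (fun g : I → ℝ => Real.exp (qf H g / 2)) (gau I)) {B : Matrix I I' ℝ}
    (hB : B * Bᵀ * (1 - H) = 1) {F : (I → ℝ) → ℝ} (hF : Measurable F) :
    Integrable (fun g => F g * Real.exp (qf H g / 2)) (gau I) ↔
      Integrable (fun g => F (B *ᵥ g)) (gau I') := by
  have h := tilt_up_measure hHs hH0 hi hB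
  have hc : ENNReal.ofReal (∫ g, Real.exp (qf H g / 2) ∂(gau I)) ≠ 0 := by
    rw [ne_eq, ENNReal.ofReal_eq_zero, not_le]
    exact int_expqf_pos hi
  have h1 : Integrable F ((gau I).withDensity fun g => ENNReal.ofReal (Real.exp (qf H g / 2))) ↔
      Integrable (fun g => F g * Real.exp (qf H g / 2)) (gau I) := by
    rw [integrable_withDensity_iff_integrable_smul' (measurable_expqf H).ennreal_ofReal
      (Filter.Eventually.of_forall fun x => ENNReal.ofReal_lt_top)]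
    refine integrable_congr (Filter.Eventually.of_forall fun g => ?_)
    simp only [smul_eq_mul]
    rw [ENNReal.toReal_ofReal (Real.exp_pos _).le, mul_comm]
  rw [← h1, h, integrable_smul_measure hc ENNReal.ofReal_ne_top,
    integrable_map_measure hF.aestronglyMeasurable (meas_mulVec B).aemeasurable]
  rfl

end gauss

/-! ### the channel law against its Gaussian reference -/

section law

open Vale.Agent.P159.TM.H104 (EM)
open Vale.Agent.P159.H114 (K1 dg EA)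

variable {V : Type*} [Fintype V] {I I' : Type*} [Fintype I] [Fintype I'] [DecidableEq I]
variable {μ' : (V → ℤ) → ℝ} {P : Matrix I V ℝ} {X : Matrix V I' ℝ}

/-- covariance of the observations -/
def Hm (μ : (V → ℤ) → ℝ) (P : Matrix I V ℝ) : Matrix I I ℝ := P * Gm μ * Pᵀ

lemma qf_Hm (μ : (V → ℤ) → ℝ) (P : Matrix I V ℝ) (g : I → ℝ) :
    qf (Hm μ P) g = qf (Gm μ) (Pᵀ *ᵥ g) := by
  unfold Hm
  rw [H37.qf_eq, H37.qf_eq, ← mulVec_mulVec, ← mulVec_mulVec, dotProduct_mulVec,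
    ← mulVec_transpose]

lemma Hm_symm (μ : (V → ℤ) → ℝ) (P : Matrix I V ℝ) : (Hm μ P)ᵀ = Hm μ P := by
  unfold Hm
  rw [transpose_mul, transpose_mul, transpose_transpose, Matrix.mul_assoc]
  congr 2
  exact H789.Cm_symm μ 0

lemma dg_eq (μ : (V → ℤ) → ℝ) (P : Matrix I V ℝ) (g : I → ℝ) :
    dg μ P g = Real.exp (qf (Hm μ P) g / 2) := by
  unfold H114.dg
  rw [qf_Hm]

/-- `X` realises the Gaussian reference law `N(0, Pᵀ (1 - P Gm Pᵀ)⁻¹ P)` of the source -/
structure RL (μ' : (V → ℤ) → ℝ) (P : Matrix I V ℝ) (X : Matrix V I' ℝ) : Prop where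
  em : EM μ'
  k1 : K1 (post μ' P)
  cov : X * Xᵀ = Pᵀ * (1 - Hm (post μ' P) P)⁻¹ * P

lemma Hm_nonneg {μ : (V → ℤ) → ℝ} (hμ : EM μ) (P : Matrix I V ℝ) (g : I → ℝ) :
    0 ≤ qf (Hm μ P) g := by
  rw [qf_Hm]
  exact H114.qf_Cm_nonneg hμ 0 _

lemma int_Hm (hμ' : EM μ') (hK : K1 (post μ' P)) :
    Integrable (fun g : I → ℝ => Real.exp (qf (Hm (post μ' P) P) g / 2)) (gau I) := by
  have h := H114.int_dg hμ' P hK
  refine h.congr (Filter.Eventually.of_forall fun g => ?_)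
  exact dg_eq _ _ _

lemma exists_B (hμ' : EM μ') (hK : K1 (post μ' P)) :
    ∃ B : Matrix I I ℝ, Bᵀ = B ∧ B * Bᵀ * (1 - Hm (post μ' P) P) = 1 :=
  exists_root (Hm_symm _ P) (Hm_nonneg (em_post hμ' P) P) (int_Hm hμ' hK)

/-- a realisation exists -/
theorem exists_RL (hμ' : EM μ') (hK : K1 (post μ' P)) : ∃ X : Matrix V I ℝ, RL μ' P X := by
  obtain ⟨B, _, hB⟩ := exists_B hμ' hK
  refine ⟨Pᵀ * B, hμ', hK, ?_⟩
  rw [Matrix.inv_eq_left_inv hB, transpose_mul, transpose_transpose]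
  simp only [Matrix.mul_assoc]

variable (hX : RL μ' P X)

include hX

lemma RL.root : ∃ B : Matrix I I ℝ, B * Bᵀ * (1 - Hm (post μ' P) P) = 1 ∧
    (Pᵀ * B) * (Pᵀ * B)ᵀ = X * Xᵀ := by
  obtain ⟨B, _, hB⟩ := exists_B hX.em hX.k1
  refine ⟨B, hB, ?_⟩
  rw [hX.cov, Matrix.inv_eq_left_inv hB, transpose_mul, transpose_transpose]
  simp only [Matrix.mul_assoc]

/-- the unnormalised identity -/
lemma RL.int_eq {F : (V → ℝ) → ℝ} (hF : Measurable F) :
    ∫ g, F (Pᵀ *ᵥ g) * dg (post μ' P) P g ∂(gau I) =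
      (∫ g, dg (post μ' P) P g ∂(gau I)) * ∫ g, F (X *ᵥ g) ∂(gau I') := by
  obtain ⟨B, hB, hBX⟩ := hX.root
  have hm : Measurable fun g : I → ℝ => F (Pᵀ *ᵥ g) := hF.comp (meas_mulVec Pᵀ)
  have h1 := tilt_up (Hm_symm _ P) (Hm_nonneg (em_post hX.em P) P) (int_Hm hX.em hX.k1) hB hm
  simp only [← dg_eq, mulVec_mulVec] at h1
  rw [h1, gau_int_eq hBX hF]

lemma RL.int_iff {F : (V → ℝ) → ℝ} (hF : Measurable F) :
    Integrable (fun g : I → ℝ => F (Pᵀ *ᵥ g) * dg (post μ' P) P g) (gau I) ↔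
      Integrable (fun g : I' → ℝ => F (X *ᵥ g)) (gau I') := by
  obtain ⟨B, hB, hBX⟩ := hX.root
  have hm : Measurable fun g : I → ℝ => F (Pᵀ *ᵥ g) := hF.comp (meas_mulVec Pᵀ)
  have h1 := tilt_up_integrable (Hm_symm _ P) (Hm_nonneg (em_post hX.em P) P)
    (int_Hm hX.em hX.k1) hB hm
  simp only [← dg_eq, mulVec_mulVec] at h1
  rw [h1, gau_integrable_iff hBX hF]

/-- the reference average -/
theorem RL.EA_eq {Φ : (V → ℝ) → ℝ} (hΦ : Measurable Φ) :
    EA (post μ' P) P Φ = ∫ g, Φ (X *ᵥ g) ∂(gau I') := by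
  unfold H114.EA
  rw [hX.int_eq hΦ]
  exact mul_div_cancel_left₀ _ (H114.int_dg_pos hX.em P hX.k1).ne'

lemma RL.meas_eR : Measurable fun J : V → ℝ => Real.exp (Rs (post μ' P) J) :=
  (Real.continuous_exp.comp (H114.continuous_Rs (em_post hX.em P))).measurable

/-- the density is integrable -/
lemma RL.int_eR : Integrable (fun g : I' → ℝ => Real.exp (Rs (post μ' P) (X *ᵥ g))) (gau I') :=
  (hX.int_iff hX.meas_eR).1 (H114.int_eR hX.em P)

/-- **the channel law is the Gaussian law tilted by `e^R`** -/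
theorem RL.Ech_eq {Φ : (V → ℝ) → ℝ} (hΦ : Measurable Φ) :
    Ech μ' 0 P Φ = (∫ g, Φ (X *ᵥ g) * Real.exp (Rs (post μ' P) (X *ᵥ g)) ∂(gau I')) /
      ∫ g, Real.exp (Rs (post μ' P) (X *ᵥ g)) ∂(gau I') := by
  rw [H114.Ech_ref hX.em P Φ]
  simp only [← mul_assoc]
  have hm : Measurable fun J : V → ℝ => Φ J * Real.exp (Rs (post μ' P) J) := hΦ.mul hX.meas_eR
  rw [hX.int_eq hm, hX.int_eq hX.meas_eR,
    mul_div_mul_left _ _ (H114.int_dg_pos hX.em P hX.k1).ne']

/-- integrability under the channel law -/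
theorem RL.chi_iff {Φ : (V → ℝ) → ℝ} (hΦ : Measurable Φ) :
    H663.ChI μ' 0 P Φ ↔
      Integrable (fun g : I' → ℝ => Φ (X *ᵥ g) * Real.exp (Rs (post μ' P) (X *ᵥ g))) (gau I') := by
  have hμ := em_post hX.em P
  have hm : Measurable fun J : V → ℝ => Φ J * Real.exp (Rs (post μ' P) J) := hΦ.mul hX.meas_eR
  rw [← hX.int_iff hm]
  unfold H663.ChI
  have e : (fun g : I → ℝ => Φ (0 + Pᵀ *ᵥ g) * Zs (post μ' P) (0 + Pᵀ *ᵥ g)) = fun g =>
      Zs (post μ' P) 0 * (Φ (Pᵀ *ᵥ g) * Real.exp (Rs (post μ' P) (Pᵀ *ᵥ g)) *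
        dg (post μ' P) P g) := by
    funext g
    rw [zero_add, H114.Zs_obs hμ]
    ring
  rw [e, integrable_const_mul_iff (Zs_pos hμ 0).ne'.isUnit]

/-- the normalisation `e^Θ` -/
lemma RL.one_le : 1 ≤ ∫ g, Real.exp (Rs (post μ' P) (X *ᵥ g)) ∂(gau I') := by
  have h := integral_mono (μ := gau I') (integrable_const (1 : ℝ)) hX.int_eR fun g =>
    Real.one_le_exp (hX.k1 (X *ᵥ g))
  simpa using h

lemma RL.pos : 0 < ∫ g, Real.exp (Rs (post μ' P) (X *ᵥ g)) ∂(gau I') :=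
  zero_lt_one.trans_le hX.one_le

lemma RL.chi_G {Φ : (V → ℝ) → ℝ} (hΦ : Measurable Φ) (hi : H663.ChI μ' 0 P Φ) :
    Integrable (fun g : I' → ℝ => Φ (X *ᵥ g)) (gau I') := by
  refine ((hX.chi_iff hΦ).1 hi).mono (hΦ.comp (meas_mulVec X)).aestronglyMeasurable
    (Filter.Eventually.of_forall fun g => ?_)
  rw [norm_mul, Real.norm_eq_abs, Real.norm_eq_abs, abs_of_pos (Real.exp_pos _)]
  have h1 := Real.one_le_exp (hX.k1 (X *ᵥ g))
  nlinarith [abs_nonneg (Φ (X *ᵥ g))]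

/-- **Gaussian averages from exact ones** -/
theorem RL.G_le {Φ : (V → ℝ) → ℝ} (hΦ : Measurable Φ) (h0 : ∀ J, 0 ≤ Φ J)
    (hi : H663.ChI μ' 0 P Φ) :
    ∫ g, Φ (X *ᵥ g) ∂(gau I') ≤
      (∫ g, Real.exp (Rs (post μ' P) (X *ᵥ g)) ∂(gau I')) * Ech μ' 0 P Φ := by
  rw [hX.Ech_eq hΦ, mul_div_cancel₀ _ hX.pos.ne']
  refine integral_mono (hX.chi_G hΦ hi) ((hX.chi_iff hΦ).1 hi) fun g => ?_
  have h1 := Real.one_le_exp (hX.k1 (X *ᵥ g))
  simp only
  nlinarith [h0 (X *ᵥ g)]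

variable {Gd : Set (V → ℝ)} {ρ p : ℝ}

lemma chi_ind' {Φ : (V → ℝ) → ℝ} (hΦ : Measurable Φ) (hi : H663.ChI μ' 0 P Φ)
    (hG : MeasurableSet Gd) : H663.ChI μ' 0 P (Gd.indicator Φ) := by
  rw [hX.chi_iff (hΦ.indicator hG)]
  refine ((hX.chi_iff hΦ).1 hi).mono (((hΦ.indicator hG).comp (meas_mulVec X)).mul
    (hX.meas_eR.comp (meas_mulVec X))).aestronglyMeasurable
    (Filter.Eventually.of_forall fun g => ?_)
  rw [norm_mul, norm_mul]
  refine mul_le_mul_of_nonneg_right ?_ (norm_nonneg _)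
  by_cases hg : X *ᵥ g ∈ Gd
  · rw [Set.indicator_of_mem hg]
  · rw [Set.indicator_of_notMem hg, norm_zero]
    exact norm_nonneg _

/-- **exact averages on the good set from Gaussian ones** -/
theorem RL.good_le (hG : MeasurableSet Gd) (hR : ∀ J ∈ Gd, Rs (post μ' P) J ≤ ρ)
    {Φ : (V → ℝ) → ℝ} (hΦ : Measurable Φ) (h0 : ∀ J, 0 ≤ Φ J) (hi : H663.ChI μ' 0 P Φ) :
    Ech μ' 0 P (Gd.indicator Φ) ≤ Real.exp ρ * ∫ g, Gd.indicator Φ (X *ᵥ g) ∂(gau I') := by
  have hm := hΦ.indicator hG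
  have hi' := chi_ind' hX hΦ hi hG
  rw [hX.Ech_eq hm]
  have hn : 0 ≤ ∫ g, Gd.indicator Φ (X *ᵥ g) * Real.exp (Rs (post μ' P) (X *ᵥ g)) ∂(gau I') :=
    integral_nonneg fun g => mul_nonneg (Set.indicator_nonneg (fun _ _ => h0 _) _)
      (Real.exp_pos _).le
  refine (div_le_self hn hX.one_le).trans ?_
  rw [← integral_const_mul]
  refine integral_mono ((hX.chi_iff hm).1 hi') ((hX.chi_G hm hi').const_mul _) fun g => ?_
  simp only
  by_cases hg : X *ᵥ g ∈ Gd
  · rw [Set.indicator_of_mem hg, mul_comm]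
    exact mul_le_mul_of_nonneg_right (Real.exp_le_exp.2 (hR _ hg)) (h0 _)
  · rw [Set.indicator_of_notMem hg, zero_mul, mul_zero]

lemma chi_one : H663.ChI μ' 0 P fun _ => (1 : ℝ) := by
  have h := H663.ChI.of_EGr hX.em 0 P (EGr.const (V := V) 1)
  exact h

/-- **the normalisation from a good set of the exact law** -/
theorem RL.norm_le (hG : MeasurableSet Gd) (hR : ∀ J ∈ Gd, Rs (post μ' P) J ≤ ρ)
    (hp : 1 - p ≤ Ech μ' 0 P (Gd.indicator fun _ => (1 : ℝ))) :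
    (1 - p) * ∫ g, Real.exp (Rs (post μ' P) (X *ᵥ g)) ∂(gau I') ≤ Real.exp ρ := by
  have hm : Measurable (Gd.indicator fun _ : V → ℝ => (1 : ℝ)) := measurable_const.indicator hG
  have hi' := chi_ind' hX measurable_const (chi_one hX) hG
  have h1 := mul_le_mul_of_nonneg_right hp hX.pos.le
  refine h1.trans ?_
  rw [hX.Ech_eq hm, div_mul_cancel₀ _ hX.pos.ne']
  have h2 : ∫ g, Gd.indicator (fun _ => (1 : ℝ)) (X *ᵥ g) *
      Real.exp (Rs (post μ' P) (X *ᵥ g)) ∂(gau I') ≤ ∫ _g : I' → ℝ, Real.exp ρ ∂(gau I') := by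
    refine integral_mono ((hX.chi_iff hm).1 hi') (integrable_const _) fun g => ?_
    simp only
    by_cases hg : X *ᵥ g ∈ Gd
    · rw [Set.indicator_of_mem hg, one_mul]
      exact Real.exp_le_exp.2 (hR _ hg)
    · rw [Set.indicator_of_notMem hg, zero_mul]
      exact (Real.exp_pos _).le
  simpa using h2

/-- **exact averages from below** -/
theorem RL.Ech_ge (hG : MeasurableSet Gd) (hR : ∀ J ∈ Gd, Rs (post μ' P) J ≤ ρ)
    (hp1 : p ≤ 1) (hp : 1 - p ≤ Ech μ' 0 P (Gd.indicator fun _ => (1 : ℝ)))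
    {Φ : (V → ℝ) → ℝ} (hΦ : Measurable Φ) (h0 : ∀ J, 0 ≤ Φ J) (hi : H663.ChI μ' 0 P Φ) :
    (1 - p) * Real.exp (-ρ) * ∫ g, Φ (X *ᵥ g) ∂(gau I') ≤ Ech μ' 0 P Φ := by
  have h1 := hX.G_le hΦ h0 hi
  have h2 := hX.norm_le hG hR hp
  have h3 : 0 ≤ Ech μ' 0 P Φ := Ech_nonneg hX.em _ _ h0
  have h4 : 0 < Real.exp (-ρ) := Real.exp_pos _
  have h5 : Real.exp (-ρ) * Real.exp ρ = 1 := by rw [← Real.exp_add]; simp
  calc (1 - p) * Real.exp (-ρ) * ∫ g, Φ (X *ᵥ g) ∂(gau I')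
      ≤ (1 - p) * Real.exp (-ρ) *
        ((∫ g, Real.exp (Rs (post μ' P) (X *ᵥ g)) ∂(gau I')) * Ech μ' 0 P Φ) :=
        mul_le_mul_of_nonneg_left h1 (mul_nonneg (by linarith) h4.le)
    _ = Real.exp (-ρ) * ((1 - p) * ∫ g, Real.exp (Rs (post μ' P) (X *ᵥ g)) ∂(gau I')) *
        Ech μ' 0 P Φ := by ring
    _ ≤ Real.exp (-ρ) * Real.exp ρ * Ech μ' 0 P Φ :=
        mul_le_mul_of_nonneg_right (mul_le_mul_of_nonneg_left h2 h4.le) h3
    _ = _ := by rw [h5, one_mul]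

omit hX in
/-- Cauchy-Schwarz in the channel -/
lemma Ech_cs (hμ : EM μ') {J₁ : V → ℝ} {Φ Ψ : (V → ℝ) → ℝ}
    (h1 : H663.ChI μ' J₁ P fun J => Φ J ^ 2) (h2 : H663.ChI μ' J₁ P fun J => Ψ J ^ 2)
    (h3 : H663.ChI μ' J₁ P fun J => Φ J * Ψ J) :
    (Ech μ' J₁ P fun J => Φ J * Ψ J) ^ 2 ≤
      (Ech μ' J₁ P fun J => Φ J ^ 2) * Ech μ' J₁ P fun J => Ψ J ^ 2 := by
  have key : ∀ x : ℝ, 0 ≤ (Ech μ' J₁ P fun J => Φ J ^ 2) * (x * x) +
      (-(2 * Ech μ' J₁ P fun J => Φ J * Ψ J)) * x + Ech μ' J₁ P fun J => Ψ J ^ 2 := by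
    intro x
    have h4 : 0 ≤ Ech μ' J₁ P fun J => (x * Φ J - Ψ J) ^ 2 :=
      Ech_nonneg hμ _ _ fun J => sq_nonneg _
    have e : (fun J => (x * Φ J - Ψ J) ^ 2) = fun J =>
        (x * x * Φ J ^ 2 - 2 * x * (Φ J * Ψ J)) + Ψ J ^ 2 := by
      funext J; ring
    rw [e, H663.Ech_add' ((h1.cmul _).sub (h3.cmul _)) h2, H663.Ech_sub' (h1.cmul _) (h3.cmul _),
      Ech_cmul, Ech_cmul] at h4
    linarith
  have h5 := discrim_le_zero key
  unfold discrim at h5
  nlinarith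

/-- the bad part by Cauchy-Schwarz -/
theorem RL.bad_le {A : Set (V → ℝ)} (hA : MeasurableSet A)
    (hp : Ech μ' 0 P (A.indicator fun _ => (1 : ℝ)) ≤ p) {Φ : (V → ℝ) → ℝ} (hΦ : Measurable Φ)
    (hi : H663.ChI μ' 0 P Φ) (hi2 : H663.ChI μ' 0 P fun J => Φ J ^ 2) :
    Ech μ' 0 P (A.indicator Φ) ≤ Real.sqrt ((Ech μ' 0 P fun J => Φ J ^ 2) * p) := by
  have e1 : (fun J => (A.indicator (fun _ => (1 : ℝ)) J) ^ 2) = A.indicator fun _ => (1 : ℝ) := by
    funext J
    by_cases hJ : J ∈ A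
    · rw [Set.indicator_of_mem hJ, one_pow]
    · rw [Set.indicator_of_notMem hJ]
      norm_num
  have e2 : (fun J => A.indicator (fun _ => (1 : ℝ)) J * Φ J) = A.indicator Φ := by
    funext J
    by_cases hJ : J ∈ A
    · rw [Set.indicator_of_mem hJ, Set.indicator_of_mem hJ, one_mul]
    · rw [Set.indicator_of_notMem hJ, Set.indicator_of_notMem hJ, zero_mul]
  have c1 := chi_ind' hX measurable_const (chi_one hX) hA
  have c3 := chi_ind' hX hΦ hi hA
  have hcs := Ech_cs hX.em (Φ := A.indicator fun _ => (1 : ℝ)) (Ψ := Φ)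
    (by rw [e1]; exact c1) hi2 (by rw [e2]; exact c3)
  rw [e1, e2] at hcs
  have h0 : 0 ≤ Ech μ' 0 P fun J => Φ J ^ 2 := Ech_nonneg hX.em _ _ fun J => sq_nonneg _
  refine Real.le_sqrt_of_sq_le (hcs.trans ?_)
  rw [mul_comm]
  exact mul_le_mul_of_nonneg_left hp h0

lemma split_good {Φ : (V → ℝ) → ℝ} (hΦ : Measurable Φ) (hi : H663.ChI μ' 0 P Φ)
    (hG : MeasurableSet Gd) :
    Ech μ' 0 P Φ = Ech μ' 0 P (Gd.indicator Φ) + Ech μ' 0 P (Gdᶜ.indicator Φ) := by
  rw [← H663.Ech_add' (chi_ind' hX hΦ hi hG) (chi_ind' hX hΦ hi hG.compl)]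
  congr 1
  funext J
  by_cases hJ : J ∈ Gd
  · have n2 : J ∉ Gdᶜ := fun h => h hJ
    rw [Set.indicator_of_mem hJ, Set.indicator_of_notMem n2, add_zero]
  · have n2 : J ∈ Gdᶜ := hJ
    rw [Set.indicator_of_notMem hJ, Set.indicator_of_mem n2, zero_add]

/-- **exact averages from above** -/
theorem RL.Ech_le (hG : MeasurableSet Gd) (hR : ∀ J ∈ Gd, Rs (post μ' P) J ≤ ρ)
    (hp : Ech μ' 0 P (Gdᶜ.indicator fun _ => (1 : ℝ)) ≤ p) {Φ : (V → ℝ) → ℝ} (hΦ : Measurable Φ)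
    (h0 : ∀ J, 0 ≤ Φ J) (hi : H663.ChI μ' 0 P Φ) (hi2 : H663.ChI μ' 0 P fun J => Φ J ^ 2) :
    Ech μ' 0 P Φ ≤ Real.exp ρ * (∫ g, Φ (X *ᵥ g) ∂(gau I')) +
      Real.sqrt ((Ech μ' 0 P fun J => Φ J ^ 2) * p) := by
  rw [split_good hX hΦ hi hG]
  refine add_le_add ((hX.good_le hG hR hΦ h0 hi).trans ?_) (hX.bad_le hG.compl hp hΦ hi hi2)
  refine mul_le_mul_of_nonneg_left ?_ (Real.exp_pos _).le
  refine integral_mono (hX.chi_G (hΦ.indicator hG) (chi_ind' hX hΦ hi hG)) (hX.chi_G hΦ hi)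
    fun g => ?_
  exact Set.indicator_le_self' (fun _ _ => h0 _) _

/-- **(LAW)** two-sided comparison of the exact law with the Gaussian reference -/
theorem RL.law (hG : MeasurableSet Gd) (hR : ∀ J ∈ Gd, Rs (post μ' P) J ≤ ρ) (hρ : 0 ≤ ρ)
    (hp0 : 0 ≤ p) (hp1 : p ≤ 1) (hp : Ech μ' 0 P (Gdᶜ.indicator fun _ => (1 : ℝ)) ≤ p)
    {Φ : (V → ℝ) → ℝ} (hΦ : Measurable Φ) (hi : H663.ChI μ' 0 P Φ)
    (hi2 : H663.ChI μ' 0 P fun J => Φ J ^ 2) :
    |Ech μ' 0 P Φ - ∫ g, Φ (X *ᵥ g) ∂(gau I')| ≤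
      (Real.exp ρ - 1 + p) * (∫ g, |Φ (X *ᵥ g)| ∂(gau I')) +
        Real.sqrt ((Ech μ' 0 P fun J => Φ J ^ 2) * p) := by
  have hp' : 1 - p ≤ Ech μ' 0 P (Gd.indicator fun _ => (1 : ℝ)) := by
    have h1 := split_good hX measurable_const (chi_one hX) hG
    rw [Ech_const hX.em] at h1
    linarith
  have hE : (1 - p) * Real.exp (-ρ) - 1 ≥ -(Real.exp ρ - 1 + p) := by
    have h1 : Real.exp (-ρ) ≤ 1 := Real.exp_le_one_iff.2 (by linarith)
    have h2 : -ρ + 1 ≤ Real.exp (-ρ) := Real.add_one_le_exp (-ρ)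
    have h3 : ρ + 1 ≤ Real.exp ρ := Real.add_one_le_exp ρ
    nlinarith
  have he1 : 0 ≤ Real.exp ρ - 1 := by
    have := Real.one_le_exp hρ
    linarith
  -- positive and negative parts
  have mp : Measurable fun J => max (Φ J) 0 := hΦ.max measurable_const
  have mn : Measurable fun J => max (-Φ J) 0 := hΦ.neg.max measurable_const
  have ab : ∀ J, |max (Φ J) 0| ≤ |Φ J| := fun J => by
    rw [abs_of_nonneg (le_max_right _ _)]
    exact max_le (le_abs_self _) (abs_nonneg _)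
  have ab' : ∀ J, |max (-Φ J) 0| ≤ |Φ J| := fun J => by
    rw [abs_of_nonneg (le_max_right _ _)]
    exact max_le (neg_le_abs _) (abs_nonneg _)
  have ip := H663.ChI.mono hX.em mp (H663.ChI.abs hX.em hi) ab
  have in' := H663.ChI.mono hX.em mn (H663.ChI.abs hX.em hi) ab'
  have ip2 : H663.ChI μ' 0 P fun J => (max (Φ J) 0) ^ 2 :=
    H663.ChI.mono hX.em (mp.pow_const 2) hi2 fun J => by
      rw [abs_of_nonneg (sq_nonneg _), ← sq_abs, ← sq_abs (Φ J)]
      exact pow_le_pow_left₀ (abs_nonneg _) (ab J) 2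
  have in2 : H663.ChI μ' 0 P fun J => (max (-Φ J) 0) ^ 2 :=
    H663.ChI.mono hX.em (mn.pow_const 2) hi2 fun J => by
      rw [abs_of_nonneg (sq_nonneg _), ← sq_abs, ← sq_abs (Φ J)]
      exact pow_le_pow_left₀ (abs_nonneg _) (ab' J) 2
  have up := hX.Ech_le hG hR hp mp (fun J => le_max_right _ _) ip ip2
  have un := hX.Ech_le hG hR hp mn (fun J => le_max_right _ _) in' in2
  have lp := hX.Ech_ge hG hR hp1 hp' mp (fun J => le_max_right _ _) ip
  have ln := hX.Ech_ge hG hR hp1 hp' mn (fun J => le_max_right _ _) in'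
  have gp := hX.chi_G mp ip
  have gn := hX.chi_G mn in'
  set a := ∫ g, max (Φ (X *ᵥ g)) 0 ∂(gau I') with ha
  set c := ∫ g, max (-Φ (X *ᵥ g)) 0 ∂(gau I') with hc
  set S := Ech μ' 0 P fun J => Φ J ^ 2 with hS
  have ha0 : 0 ≤ a := integral_nonneg fun g => le_max_right _ _
  have hc0 : 0 ≤ c := integral_nonneg fun g => le_max_right _ _
  have e1 : ∫ g, Φ (X *ᵥ g) ∂(gau I') = a - c := by
    rw [ha, hc, ← integral_sub gp gn]
    refine integral_congr_ae (Filter.Eventually.of_forall fun g => ?_)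
    simp only
    rcases le_total 0 (Φ (X *ᵥ g)) with h | h
    · rw [max_eq_left h, max_eq_right (by linarith), sub_zero]
    · rw [max_eq_right h, max_eq_left (by linarith)]
      ring
  have e2 : ∫ g, |Φ (X *ᵥ g)| ∂(gau I') = a + c := by
    rw [ha, hc, ← integral_add gp gn]
    refine integral_congr_ae (Filter.Eventually.of_forall fun g => ?_)
    simp only
    rcases le_total 0 (Φ (X *ᵥ g)) with h | h
    · rw [max_eq_left h, max_eq_right (by linarith), abs_of_nonneg h, add_zero]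
    · rw [max_eq_right h, max_eq_left (by linarith), abs_of_nonpos h]
      ring
  have e3 : Ech μ' 0 P Φ = (Ech μ' 0 P fun J => max (Φ J) 0) -
      Ech μ' 0 P fun J => max (-Φ J) 0 := by
    rw [← H663.Ech_sub' ip in']
    congr 1
    funext J
    rcases le_total 0 (Φ J) with h | h
    · rw [max_eq_left h, max_eq_right (by linarith), sub_zero]
    · rw [max_eq_right h, max_eq_left (by linarith)]
      ring
  have s1 : Real.sqrt ((Ech μ' 0 P fun J => (max (Φ J) 0) ^ 2) * p) ≤ Real.sqrt (S * p) := by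
    refine Real.sqrt_le_sqrt (mul_le_mul_of_nonneg_right ?_ hp0)
    refine H663.Ech_mono' hX.em ip2 hi2 fun J => ?_
    rw [← sq_abs, ← sq_abs (Φ J)]
    exact pow_le_pow_left₀ (abs_nonneg _) (ab J) 2
  have s2 : Real.sqrt ((Ech μ' 0 P fun J => (max (-Φ J) 0) ^ 2) * p) ≤ Real.sqrt (S * p) := by
    refine Real.sqrt_le_sqrt (mul_le_mul_of_nonneg_right ?_ hp0)
    refine H663.Ech_mono' hX.em in2 hi2 fun J => ?_
    rw [← sq_abs, ← sq_abs (Φ J)]
    exact pow_le_pow_left₀ (abs_nonneg _) (ab' J) 2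
  rw [e1, e2, e3]
  have q1 := mul_le_mul_of_nonneg_right hE ha0
  have q2 := mul_le_mul_of_nonneg_right hE hc0
  have q3 := mul_nonneg hp0 ha0
  have q4 := mul_nonneg hp0 hc0
  refine abs_le.2 ⟨?_, ?_⟩
  · nlinarith
  · nlinarith

omit hX in
/-- the reference law in the letters `((t - s)⁻¹ - Gc)⁻¹` (859's `Sg`) -/
theorem RL.of_smul {C : Matrix I V ℝ} {q : ℝ} (hq : 0 < q) (hμ' : EM μ')
    (hK : K1 (post μ' (Real.sqrt q • C))) {A : Matrix I I' ℝ}
    (hA : A * Aᵀ = (q⁻¹ • (1 : Matrix I I ℝ) - C * Gm (post μ' (Real.sqrt q • C)) * Cᵀ)⁻¹) :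
    RL μ' (Real.sqrt q • C) (Cᵀ * A) := by
  refine ⟨hμ', hK, ?_⟩
  obtain ⟨B, _, hB⟩ := exists_B hμ' hK
  set μ := post μ' (Real.sqrt q • C)
  set K := C * Gm μ * Cᵀ with hKd
  have e1 : Hm μ (Real.sqrt q • C) = q • K := by
    unfold Hm
    rw [transpose_smul, Matrix.smul_mul, Matrix.smul_mul, Matrix.mul_smul, smul_smul,
      Real.mul_self_sqrt hq.le]
  have e2 : (1 : Matrix I I ℝ) - q • K = q • (q⁻¹ • (1 : Matrix I I ℝ) - K) := by
    rw [smul_sub, smul_smul, mul_inv_cancel₀ hq.ne', one_smul]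
  have e3 : (q⁻¹ • (1 : Matrix I I ℝ) - K)⁻¹ = q • (B * Bᵀ) := by
    refine Matrix.inv_eq_left_inv ?_
    rw [Matrix.smul_mul, ← Matrix.mul_smul, ← e2, ← e1]
    exact hB
  rw [Matrix.inv_eq_left_inv hB, transpose_smul, transpose_mul, transpose_transpose,
    Matrix.smul_mul, Matrix.mul_smul, Matrix.smul_mul, smul_smul, Real.mul_self_sqrt hq.le]
  calc Cᵀ * A * (Aᵀ * C) = Cᵀ * (A * Aᵀ) * C := by simp only [Matrix.mul_assoc]
    _ = _ := by
      rw [hA, e3, Matrix.mul_smul, Matrix.smul_mul]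

end law

end

end Vale.Agent.P159.H730
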