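import Vale.Agent.P159.H730.Stiff

/-!
P159 (helper730): STIFF for every momentum (for helper846's PROF): the drop of the neutral self
energy is at most `dl EE (1 + EE / τ)`.
-/

namespace Vale.Agent.P159.H730

open Finset Matrix MeasureTheory
open Vale.Agent.P159.TM.H104 (EM Ex Cv K3 Lg li nh Gr nh_nonneg abs_li)
open Vale.Agent.P159.H37
open Vale.Agent.P159.H447 (K4S)

noncomputable section

set_option linter.unusedSectionVars false

open Vale.Agent.P159.TM.Spec (V)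
open Vale.Agent.P159.TM.SpecC (wT)
open Vale.Agent.P159.H864 (TI TInv tra sym Inv CT CInv MC cl up cobV Gc Gck PiCk)
open Vale.Agent.P159.TM.H764 (cN sN dt EE)
open Vale.Agent.P159.H963 (GrI Neu pin Pn nMC nM Gnc PinC obsN)
open Vale.Agent.P159.H447 (CN SN)

variable {N l : ℕ} [NeZero N] [NeZero (N / l)] {b t τ τ' θ e : ℝ} {Gd : ℝ → Set (V N → ℝ)}

lemma EE_scalar_all {L C τ θ K x q E a g : ℝ} (hx0 : 0 ≤ x) (hτ0 : 0 < τ) (hE0 : 0 ≤ E)
    (hC : 0 ≤ C) (hE : τ ≤ L ^ 2 / 4 * E) (hg : 0 < g) (hgA : g⁻¹ ≤ τ + C * E)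
    (ha : a ≤ 2 * ((Real.sqrt (θ / 2 * K) + x + q) / g ^ 2)) (hq : 0 ≤ q) :
    a ≤ 2 * (L ^ 2 / 4 + 2 * C + C ^ 2) * (τ * Real.sqrt (θ / 2 * K) + τ * x + τ * q) *
      (E * (1 + E / τ)) := by
  have h1 : 0 ≤ g⁻¹ := (inv_pos.2 hg).le
  have h2 : (g⁻¹) ^ 2 ≤ (τ + C * E) ^ 2 := pow_le_pow_left₀ h1 hgA 2
  have h3 : 0 ≤ Real.sqrt (θ / 2 * K) + x + q := by positivity
  have h4 : a ≤ 2 * ((Real.sqrt (θ / 2 * K) + x + q) * (τ + C * E) ^ 2) := by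
    refine ha.trans ?_
    rw [div_eq_mul_inv, ← inv_pow]
    have := mul_le_mul_of_nonneg_left h2 h3
    linarith
  have h5 : (τ + C * E) ^ 2 ≤ τ * ((L ^ 2 / 4 + 2 * C + C ^ 2) * (E * (1 + E / τ))) := by
    have e1 : (τ + C * E) ^ 2 = τ * (τ + 2 * C * E + C ^ 2 * (E ^ 2 / τ)) := by
      field_simp
      ring
    rw [e1]
    refine mul_le_mul_of_nonneg_left ?_ hτ0.le
    have h6 : 0 ≤ E ^ 2 / τ := by positivity
    have h7 : 0 ≤ L ^ 2 / 4 * (E ^ 2 / τ) := by positivity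
    have h8 : 0 ≤ 2 * C * (E ^ 2 / τ) := by positivity
    have h9 : 0 ≤ C ^ 2 * E := by positivity
    have e2 : (L ^ 2 / 4 + 2 * C + C ^ 2) * (E * (1 + E / τ)) =
        L ^ 2 / 4 * E + 2 * C * E + C ^ 2 * (E ^ 2 / τ) +
          (L ^ 2 / 4 * (E ^ 2 / τ) + 2 * C * (E ^ 2 / τ) + C ^ 2 * E) := by
      field_simp
      ring
    rw [e2]
    linarith
  refine h4.trans ?_
  calc 2 * ((Real.sqrt (θ / 2 * K) + x + q) * (τ + C * E) ^ 2)
      ≤ 2 * ((Real.sqrt (θ / 2 * K) + x + q) *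
        (τ * ((L ^ 2 / 4 + 2 * C + C ^ 2) * (E * (1 + E / τ))))) :=
        mul_le_mul_of_nonneg_left (mul_le_mul_of_nonneg_left h5 h3) (by norm_num)
    _ = _ := by ring

/-- **(PU14), every momentum**: `L = N/ξ`, `D = (1/2) τ² L⁻² K4S`, `PinC ≤ C EE` -/
theorem STN.stiff_all (h : STN N l b t τ' τ θ e Gd) (hθ : θ ≤ 1 / 2) {k : V (N / l)} (hk : k ≠ 0)
    {ξ C D : ℝ} (hξ : 0 < ξ) (hτ : τ ≤ 4 / ξ ^ 2) (hC0 : 0 ≤ C)
    (hC : PinC N l b t τ k ≤ C * (EE k / (l : ℝ) ^ 2))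
    (hD : 1 / 2 * τ ^ 2 * (ξ / N) ^ 2 * K4S (wN N l b t τ) (SN N l) (SN N l) ≤ D) :
    PinC N l b t τ k - PinC N l b t τ' k ≤
      2 * ((N / ξ) ^ 2 / 4 + 2 * C + C ^ 2) * ((N / ξ) * Real.sqrt (θ * D) + τ * Real.sqrt e +
        τ * ((τ - τ') * e)) * ((EE k / (l : ℝ) ^ 2) * (1 + (EE k / (l : ℝ) ^ 2) / τ)) := by
  have hτ0 : 0 < τ := h.pos.trans_le h.le
  have hg : 0 < gN N l b t τ k :=
    H963.sym_Gnc_pos (N := N) (l := l) (t := t) h.b0 h.dvd hτ0 h.le' hk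
  have hNp : (0 : ℝ) < N := by exact_mod_cast NeZero.pos N
  have hlp : (0 : ℝ) < l := by exact_mod_cast H864.l_pos h.dvd
  have hE0 : 0 ≤ EE k / (l : ℝ) ^ 2 := div_nonneg (H462.EE_nonneg k) (by positivity)
  have hA : (gN N l b t τ k)⁻¹ ≤ τ + C * (EE k / (l : ℝ) ^ 2) := by
    unfold PinC at hC
    unfold gN
    linarith
  have h1 := EE_scalar_all (L := N / ξ) (Real.sqrt_nonneg e) hτ0 hE0 hC0
    (mass_le_EE h.dvd hk hξ hτ) hg hA (h.stiff hθ hk)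
    (mul_nonneg (sub_nonneg.2 h.le) h.e0)
  refine h1.trans ?_
  refine mul_le_mul_of_nonneg_right (mul_le_mul_of_nonneg_left ?_ (by positivity)) ?_
  · have h2 : τ * Real.sqrt (θ / 2 * K4S (wN N l b t τ) (SN N l) (SN N l)) ≤
        (N / ξ) * Real.sqrt (θ * D) := by
      have e1 : τ * Real.sqrt (θ / 2 * K4S (wN N l b t τ) (SN N l) (SN N l)) =
          Real.sqrt (τ ^ 2 * (θ / 2 * K4S (wN N l b t τ) (SN N l) (SN N l))) := by
        rw [Real.sqrt_mul (sq_nonneg τ), Real.sqrt_sq hτ0.le]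
      have e2 : (N / ξ) * Real.sqrt (θ * D) = Real.sqrt ((N / ξ) ^ 2 * (θ * D)) := by
        rw [Real.sqrt_mul (sq_nonneg _), Real.sqrt_sq (by positivity)]
      rw [e1, e2]
      refine Real.sqrt_le_sqrt ?_
      have h3 := mul_le_mul_of_nonneg_left hD (mul_nonneg h.th0 (sq_nonneg ((N : ℝ) / ξ)))
      refine le_trans (le_of_eq ?_) (h3.trans (le_of_eq ?_))
      · field_simp
      · ring
    linarith
  · positivity

end

end Vale.Agent.P159.H730
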