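import Vale.Agent.P159.H730.Thd
import Vale.Agent.P159.H730.Stiff2

/-!
P159 (helper730): THETA ⇒ DROP on the cell torus, integer and neutral model.  A good set at the
TOP mass `τ` only (whole torus, `R ≤ ρ` with exact probability `≥ 1 - pb` under the zero source law
of the lower prior `τ'`) bounds the drop of the self energy on `(τ', τ]` at every momentum and on
every torus.
-/

namespace Vale.Agent.P159.H730

open Finset Matrix MeasureTheory
open Vale.Agent.P159.TM.H104 (EM Ex Cv K3 Lg li nh Gr nh_nonneg abs_li)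
open Vale.Agent.P159.H37
open Vale.Agent.P159.H447 (K4S)
open Vale.Agent.P159.H114 (K1)
open Vale.Agent.P159.TM.Spec (V)
open Vale.Agent.P159.TM.SpecC (wT)
open Vale.Agent.P159.H864 (TI TInv tra sym Inv CT CInv MC cl up cobV Gc Gck PiCk GM)
open Vale.Agent.P159.TM.H764 (cN sN dt EE)
open Vale.Agent.P159.H963 (GrI Neu pin Pn nMC nM Gnc PinC obsN)
open Vale.Agent.P159.H447 (CN SN)

noncomputable section

set_option linter.unusedSectionVars false

variable {N l : ℕ} [NeZero N] [NeZero (N / l)] {b t τ τ' σ ρ pb : ℝ}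

/-! ### integer model -/

lemma k1_wC (hb : 0 < b) (hl : l ∣ N) (hτ : 0 < τ) (h : τ ≤ t) : K1 (wC N l b t τ) := fun J =>
  H789.Rs_nonneg (H864.em_MC hb.le hl hτ h) (H864.ev_wTM _) (H864.dm_MC hb hl hτ h).pk J

/-- `Θ` for the cell channel from `τ'` to `τ` -/
def ThC (N l : ℕ) [NeZero N] [NeZero (N / l)] (b t τ' τ : ℝ) : ℝ :=
  Theta (wC N l b t τ') (cobV N l) (τ - τ') 0

theorem ThC_nonneg (hb : 0 < b) (hl : l ∣ N) (hτ' : 0 < τ') (h : τ' ≤ τ) (ht : τ ≤ t) :
    0 ≤ ThC N l b t τ' τ := by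
  refine Theta_nonneg (H864.em_MC hb.le hl hτ' (h.trans ht)) ?_ ⟨le_rfl, sub_nonneg.2 h⟩
  rw [ps_wC hl b t (sub_nonneg.2 h), add_sub_cancel]
  exact k1_wC hb hl (hτ'.trans_le h) ht

/-- `Θ` from a good set at the top mass -/
theorem ThC_le (hb : 0 < b) (hl : l ∣ N) (hτ' : 0 < τ') (h : τ' ≤ τ) (ht : τ ≤ t)
    {Gd : Set (V N → ℝ)} (hG : MeasurableSet Gd) (hR : ∀ J ∈ Gd, Rs (wC N l b t τ) J ≤ ρ)
    (hp : 1 - pb ≤ Ech (wC N l b t τ') 0 (Real.sqrt (τ - τ') • cobV N l)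
      (Gd.indicator fun _ => (1 : ℝ))) (hpb : pb < 1) :
    ThC N l b t τ' τ ≤ ρ - Real.log (1 - pb) := by
  have e := ps_wC (N := N) (l := l) hl b t (τ' := τ') (sub_nonneg.2 h)
  rw [add_sub_cancel] at e
  refine Theta_le (H864.em_MC hb.le hl hτ' (h.trans ht)) ?_ ⟨le_rfl, sub_nonneg.2 h⟩ hG ?_ ?_ hpb
  · rw [e]
    exact k1_wC hb hl (hτ'.trans_le h) ht
  · rw [e]
    exact hR
  · rw [ps_zero, sub_zero]
    exact hp

/-- **THETA ⇒ DROP, integer cell model** -/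
theorem thd_C (hb : 0 < b) (hl : l ∣ N) (hτ' : 0 < τ') (h : τ' < σ) (hσ : σ ≤ τ) (ht : τ ≤ t) :
    (σ - τ') * ∑ k, (PiCk N l b t τ k - PiCk N l b t σ k) / (σ + PiCk N l b t τ k) ^ 2 ≤
      2 * ThC N l b t τ' τ := by
  have hτ : 0 < τ := hτ'.trans (h.trans_le hσ)
  have hle : τ' ≤ τ := h.le.trans hσ
  have hp : 0 ≤ τ - τ' := sub_nonneg.2 hle
  have hps : ∀ s, 0 ≤ s → ps (wC N l b t τ') (cobV N l) s = wC N l b t (τ' + s) := fun s hs =>
    ps_wC hl b t hs
  have etop : ps (wC N l b t τ') (cobV N l) (τ - τ') = wC N l b t τ := by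
    rw [hps _ hp, add_sub_cancel]
  refine theta_drop_ti (g := fun s k => Gck N l b t (τ' + s) k)
    (H864.em_MC hb.le hl hτ' (hle.trans ht)) (H864.ev_wTM _) ?_ (sub_pos.2 h)
    (sub_le_sub_right hσ _) (fun s hs => ?_) (fun s hs k => ?_) (fun k => ?_) fun s hs k => ?_
  · rw [etop]
    exact k1_wC hb hl hτ ht
  · rw [hps s hs.1]
    exact H864.ti_Gc_GM hl b t (τ' + s)
  · rw [hps s hs.1]
    rfl
  · have h1 := H864.Gck_pos (N := N) (l := l) hb hl hτ ht k
    have h2 := H864.Gck_le (N := N) (l := l) hb hl hτ ht k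
    simp only [add_sub_cancel]
    refine ⟨h1.le, ?_⟩
    have h3 : (τ - τ') * Gck N l b t τ k ≤ (τ - τ') * τ⁻¹ := mul_le_mul_of_nonneg_left h2 hp
    refine h3.trans_lt ?_
    rw [← div_eq_mul_inv, div_lt_one hτ]
    linarith
  · simp only [add_sub_cancel]
    have hs1 : 0 < τ' + s := by linarith [hs.1]
    have hs2 : τ' + s ≤ σ := by linarith [hs.2]
    have m1 := H864.PiCk_mono (N := N) (l := l) hb hl hs1 hs2 (hσ.trans ht) k
    have m2 := H864.PiCk_mono (N := N) (l := l) hb hl (hτ'.trans h) hσ ht k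
    have m3 := H864.PiCk_nonneg (N := N) (l := l) hb hl hs1 (hs2.trans (hσ.trans ht)) k
    have h1 := inv_drop hs1 hs2 m3 m1 m2
    have hg := H864.Gck_pos (N := N) (l := l) hb hl hτ ht k
    have e1 : Gck N l b t τ k / (1 - (τ - τ' - s) * Gck N l b t τ k) =
        (τ' + s + PiCk N l b t τ k)⁻¹ := by
      have e2 : (Gck N l b t τ k)⁻¹ = τ + PiCk N l b t τ k := by
        unfold H864.PiCk
        ring
      have e3 : τ' + s + PiCk N l b t τ k = (Gck N l b t τ k)⁻¹ - (τ - τ' - s) := by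
        rw [e2]
        ring
      have e4 : (Gck N l b t τ k)⁻¹ - (τ - τ' - s) =
          (1 - (τ - τ' - s) * Gck N l b t τ k) / Gck N l b t τ k := by
        field_simp
      rw [e3, e4, inv_div]
    rw [e1, H864.Gck_eq_inv (N := N) (l := l) (τ := τ' + s) k]
    exact h1

/-! ### neutral model -/

lemma k1_wN (hb : 0 < b) (hl : l ∣ N) (hτ : 0 < τ) (h : τ ≤ t) : K1 (wN N l b t τ) := fun J =>
  H789.Rs_nonneg (H963.em_nMC hb.le hl hτ h 0) (H963.ev_nMC hb.le t τ 0)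
    (H963.pk_nMC hb.le hl hτ h 0) J

/-- `Θ` for the neutral cell channel from `τ'` to `τ` -/
def ThN (N l : ℕ) [NeZero N] [NeZero (N / l)] (b t τ' τ : ℝ) : ℝ :=
  Theta (wN N l b t τ') (CN N l) (τ - τ') 0

theorem ThN_nonneg (hb : 0 < b) (hl : l ∣ N) (hτ' : 0 < τ') (h : τ' ≤ τ) (ht : τ ≤ t) :
    0 ≤ ThN N l b t τ' τ := by
  refine Theta_nonneg (H963.em_nMC hb.le hl hτ' (h.trans ht) 0) ?_ ⟨le_rfl, sub_nonneg.2 h⟩
  rw [ps_wN hl b t (sub_nonneg.2 h), add_sub_cancel]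
  exact k1_wN hb hl (hτ'.trans_le h) ht

/-- `Θ` from a good set of neutral sources at the top mass -/
theorem ThN_le (hb : 0 < b) (hl : l ∣ N) (hτ' : 0 < τ') (h : τ' ≤ τ) (ht : τ ≤ t)
    {Gd : Set (V N → ℝ)} (hG : MeasurableSet Gd)
    (hR : ∀ J ∈ Gd, Neu J → Rs (wN N l b t τ) J ≤ ρ)
    (hp : 1 - pb ≤ Ech (wN N l b t τ') 0 (obsN N l (τ - τ')) (Gd.indicator fun _ => (1 : ℝ)))
    (hpb : pb < 1) : ThN N l b t τ' τ ≤ ρ - Real.log (1 - pb) := by
  have e := ps_wN (N := N) (l := l) hl b t (τ' := τ') (sub_nonneg.2 h)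
  rw [add_sub_cancel] at e
  refine Theta_le (Gd := Gd ∩ {J | Neu J}) (H963.em_nMC hb.le hl hτ' (h.trans ht) 0) ?_
    ⟨le_rfl, sub_nonneg.2 h⟩ (hG.inter (measurable_neu N)) ?_ ?_ hpb
  · rw [e]
    exact k1_wN hb hl (hτ'.trans_le h) ht
  · rw [e]
    exact fun J hJ => hR J hJ.1 hJ.2
  · rw [ps_zero, sub_zero]
    refine hp.trans (le_of_eq ?_)
    refine Ech_congr_neu _ (H963.obsN_row hl _) fun J hJ => ?_
    by_cases h1 : J ∈ Gd
    · rw [Set.indicator_of_mem h1, Set.indicator_of_mem (show J ∈ Gd ∩ {J | Neu J} from ⟨h1, hJ⟩)]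
    · rw [Set.indicator_of_notMem h1, Set.indicator_of_notMem fun h2 => h1 h2.1]

/-- **THETA ⇒ DROP, neutral cell model** -/
theorem thd_N (hb : 0 < b) (hl : l ∣ N) (hτ' : 0 < τ') (h : τ' < σ) (hσ : σ ≤ τ) (ht : τ ≤ t) :
    (σ - τ') * ∑ k ∈ univ.erase 0,
      (PinC N l b t τ k - PinC N l b t σ k) / (σ + PinC N l b t τ k) ^ 2 ≤
      2 * ThN N l b t τ' τ := by
  have hτ : 0 < τ := hτ'.trans (h.trans_le hσ)
  have hle : τ' ≤ τ := h.le.trans hσ
  have hp : 0 ≤ τ - τ' := sub_nonneg.2 hle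
  have hps : ∀ s, 0 ≤ s → ps (wN N l b t τ') (CN N l) s = wN N l b t (τ' + s) := fun s hs =>
    ps_wN hl b t hs
  have etop : ps (wN N l b t τ') (CN N l) (τ - τ') = wN N l b t τ := by
    rw [hps _ hp, add_sub_cancel]
  have hob : ∀ x, CN N l * Gm (wN N l b t x) * (CN N l)ᵀ = Gnc N l b t x := fun x =>
    H447.Gc_CN hl b t x
  have key := theta_drop_ti (n := N / l) (μ := wN N l b t τ') (Q := CN N l) (p := τ - τ')
    (g := fun s k => gN N l b t (τ' + s) k)
    (d := fun k => if k = 0 then 0 else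
      (PinC N l b t τ k - PinC N l b t σ k) / (σ + PinC N l b t τ k) ^ 2)
    (H963.em_nMC hb.le hl hτ' (hle.trans ht) 0) (H963.ev_nMC hb.le t τ' 0) (by
      rw [etop]
      exact k1_wN hb hl hτ ht) (sub_pos.2 h)
    (sub_le_sub_right hσ _) (fun s hs => by
      rw [hps s hs.1, hob]
      exact H963.ti_Gnc hb.le hl (by linarith [hs.1]) (by linarith [hs.2])) (fun s hs k => by
      rw [hps s hs.1, hob]) (fun k => by
      simp only [add_sub_cancel]
      have h2 := H963.sym_Gnc_le (N := N) (l := l) hb.le hl hτ ht k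
      have h1 : 0 ≤ gN N l b t τ k := by
        by_cases hk : k = 0
        · subst hk
          exact (H963.sym_Gnc_zero (N := N) (l := l) hl hb.le hτ ht).ge
        · exact (H963.sym_Gnc_pos (N := N) (l := l) hb hl hτ ht hk).le
      refine ⟨h1, ?_⟩
      have h3 : (τ - τ') * gN N l b t τ k ≤ (τ - τ') * τ⁻¹ := mul_le_mul_of_nonneg_left h2 hp
      refine h3.trans_lt ?_
      rw [← div_eq_mul_inv, div_lt_one hτ]
      linarith) fun s hs k => by
      simp only [add_sub_cancel]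
      have hs1 : 0 < τ' + s := by linarith [hs.1]
      have hs2 : τ' + s ≤ σ := by linarith [hs.2]
      by_cases hk : k = 0
      · subst hk
        rw [if_pos rfl]
        have z1 : gN N l b t (τ' + s) 0 = 0 :=
          H963.sym_Gnc_zero hl hb.le hs1 (hs2.trans (hσ.trans ht))
        have z2 : gN N l b t τ 0 = 0 := H963.sym_Gnc_zero hl hb.le hτ ht
        rw [z1, z2, zero_div, sub_zero]
      · rw [if_neg hk]
        have m1 := H447.PinC_mono (N := N) (l := l) hb hl hs1 hs2 (hσ.trans ht) hk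
        have m2 := H447.PinC_mono (N := N) (l := l) hb hl (hτ'.trans h) hσ ht hk
        have m3 := H963.PinC_nonneg (N := N) (l := l) hb hl hs1 (hs2.trans (hσ.trans ht)) hk
        have h1 := inv_drop hs1 hs2 m3 m1 m2
        have hg : 0 < gN N l b t τ k := H963.sym_Gnc_pos (N := N) (l := l) hb hl hτ ht hk
        have hg' : 0 < gN N l b t (τ' + s) k :=
          H963.sym_Gnc_pos (N := N) (l := l) hb hl hs1 (hs2.trans (hσ.trans ht)) hk
        have e0 : gN N l b t (τ' + s) k = (τ' + s + PinC N l b t (τ' + s) k)⁻¹ := by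
          unfold H963.PinC
          rw [add_sub_cancel, inv_inv]
        have e1 : gN N l b t τ k / (1 - (τ - τ' - s) * gN N l b t τ k) =
            (τ' + s + PinC N l b t τ k)⁻¹ := by
          have e2 : (gN N l b t τ k)⁻¹ = τ + PinC N l b t τ k := by
            unfold H963.PinC
            ring
          have e3 : τ' + s + PinC N l b t τ k = (gN N l b t τ k)⁻¹ - (τ - τ' - s) := by
            rw [e2]
            ring
          have e4 : (gN N l b t τ k)⁻¹ - (τ - τ' - s) =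
              (1 - (τ - τ' - s) * gN N l b t τ k) / gN N l b t τ k := by
            field_simp
          rw [e3, e4, inv_div]
        rw [e1, e0]
        exact h1
  have e : ∑ k : V (N / l), (if k = 0 then 0 else
      (PinC N l b t τ k - PinC N l b t σ k) / (σ + PinC N l b t τ k) ^ 2) =
      ∑ k ∈ univ.erase (0 : V (N / l)),
        (PinC N l b t τ k - PinC N l b t σ k) / (σ + PinC N l b t τ k) ^ 2 := by
    rw [← Finset.add_sum_erase _ _ (Finset.mem_univ (0 : V (N / l))), if_pos rfl, zero_add]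
    refine Finset.sum_congr rfl fun k hk => ?_
    rw [if_neg (Finset.ne_of_mem_erase hk)]
  rw [e] at key
  exact key

/-! ### one momentum -/

/-- drop of the neutral self energy at one momentum -/
theorem drop_N (hb : 0 < b) (hl : l ∣ N) (hτ' : 0 < τ') (h : τ' < σ) (hσ : σ ≤ τ) (ht : τ ≤ t)
    {k : V (N / l)} (hk : k ≠ 0) :
    PinC N l b t τ k - PinC N l b t σ k ≤
      2 * ThN N l b t τ' τ / (σ - τ') * (σ + PinC N l b t τ k) ^ 2 := by
  have h0 := thd_N (N := N) (l := l) hb hl hτ' h hσ ht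
  have hτ : 0 < τ := hτ'.trans (h.trans_le hσ)
  have hpos : 0 < σ - τ' := sub_pos.2 h
  have hP := H963.PinC_nonneg (N := N) (l := l) hb hl hτ ht hk
  have hq : 0 < (σ + PinC N l b t τ k) ^ 2 := by
    have : 0 < σ := hτ'.trans h
    positivity
  have h1 : (PinC N l b t τ k - PinC N l b t σ k) / (σ + PinC N l b t τ k) ^ 2 ≤
      ∑ k ∈ univ.erase (0 : V (N / l)),
        (PinC N l b t τ k - PinC N l b t σ k) / (σ + PinC N l b t τ k) ^ 2 := by
    refine Finset.single_le_sum (f := fun k => (PinC N l b t τ k - PinC N l b t σ k) /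
      (σ + PinC N l b t τ k) ^ 2) (fun j hj => ?_) (Finset.mem_erase.2 ⟨hk, Finset.mem_univ k⟩)
    have hm := H447.PinC_mono (N := N) (l := l) hb hl (hτ'.trans h) hσ ht
      (Finset.ne_of_mem_erase hj)
    exact div_nonneg (sub_nonneg.2 hm) (sq_nonneg _)
  have h2 : (PinC N l b t τ k - PinC N l b t σ k) / (σ + PinC N l b t τ k) ^ 2 ≤
      2 * ThN N l b t τ' τ / (σ - τ') := by
    rw [le_div_iff₀ hpos]
    have := mul_le_mul_of_nonneg_left h1 hpos.le
    linarith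
  rwa [div_le_iff₀ hq] at h2

/-- drop of the integer self energy at one momentum -/
theorem drop_C (hb : 0 < b) (hl : l ∣ N) (hτ' : 0 < τ') (h : τ' < σ) (hσ : σ ≤ τ) (ht : τ ≤ t)
    (k : V (N / l)) :
    PiCk N l b t τ k - PiCk N l b t σ k ≤
      2 * ThC N l b t τ' τ / (σ - τ') * (σ + PiCk N l b t τ k) ^ 2 := by
  have h0 := thd_C (N := N) (l := l) hb hl hτ' h hσ ht
  have hτ : 0 < τ := hτ'.trans (h.trans_le hσ)
  have hpos : 0 < σ - τ' := sub_pos.2 h
  have hP := H864.PiCk_nonneg (N := N) (l := l) hb hl hτ ht k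
  have hq : 0 < (σ + PiCk N l b t τ k) ^ 2 := by
    have : 0 < σ := hτ'.trans h
    positivity
  have h1 : (PiCk N l b t τ k - PiCk N l b t σ k) / (σ + PiCk N l b t τ k) ^ 2 ≤
      ∑ k, (PiCk N l b t τ k - PiCk N l b t σ k) / (σ + PiCk N l b t τ k) ^ 2 := by
    refine Finset.single_le_sum (f := fun k => (PiCk N l b t τ k - PiCk N l b t σ k) /
      (σ + PiCk N l b t τ k) ^ 2) (fun j _ => ?_) (Finset.mem_univ k)
    have hm := H864.PiCk_mono (N := N) (l := l) hb hl (hτ'.trans h) hσ ht j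
    exact div_nonneg (sub_nonneg.2 hm) (sq_nonneg _)
  have h2 : (PiCk N l b t τ k - PiCk N l b t σ k) / (σ + PiCk N l b t τ k) ^ 2 ≤
      2 * ThC N l b t τ' τ / (σ - τ') := by
    rw [le_div_iff₀ hpos]
    have := mul_le_mul_of_nonneg_left h1 hpos.le
    linarith
  rwa [div_le_iff₀ hq] at h2

/-- **(PU14) / (I1) from the top mass only**: every momentum, every torus; `L = N / ξ` -/
theorem drop_N_EE (hb : 0 < b) (hl : l ∣ N) (hτ' : 0 < τ') (h : 2 * τ' ≤ σ) (hσ : σ ≤ τ)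
    (ht : τ ≤ t) {k : V (N / l)} (hk : k ≠ 0) {ξ C : ℝ} (hξ : 0 < ξ) (hσξ : σ ≤ 4 / ξ ^ 2)
    (hC0 : 0 ≤ C) (hC : PinC N l b t τ k ≤ C * (EE k / (l : ℝ) ^ 2)) :
    PinC N l b t τ k - PinC N l b t σ k ≤
      4 * ((N / ξ) ^ 2 / 4 + 2 * C + C ^ 2) * ThN N l b t τ' τ *
        ((EE k / (l : ℝ) ^ 2) * (1 + (EE k / (l : ℝ) ^ 2) / σ)) := by
  have hσ0 : 0 < σ := by linarith
  have hlt : τ' < σ := by linarith
  have h0 := drop_N (N := N) (l := l) hb hl hτ' hlt hσ ht hk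
  have hTh := ThN_nonneg (N := N) (l := l) hb hl hτ' (hlt.le.trans hσ) ht
  have hP := H963.PinC_nonneg (N := N) (l := l) hb hl (hσ0.trans_le hσ) ht hk
  have hlp : (0 : ℝ) < l := by exact_mod_cast H864.l_pos hl
  set E := EE k / (l : ℝ) ^ 2 with hE
  have hE0 : 0 ≤ E := div_nonneg (H462.EE_nonneg k) (by positivity)
  have hE1 : σ ≤ ((N : ℝ) / ξ) ^ 2 / 4 * E := mass_le_EE hl hk hξ hσξ
  have h1 : 2 * ThN N l b t τ' τ / (σ - τ') ≤ 4 * ThN N l b t τ' τ / σ := by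
    rw [div_le_div_iff₀ (sub_pos.2 hlt) hσ0]
    nlinarith
  have h5 : (σ + C * E) ^ 2 ≤ σ * ((((N : ℝ) / ξ) ^ 2 / 4 + 2 * C + C ^ 2) *
      (E * (1 + E / σ))) := by
    have e1 : (σ + C * E) ^ 2 = σ * (σ + 2 * C * E + C ^ 2 * (E ^ 2 / σ)) := by
      field_simp
      ring
    rw [e1]
    refine mul_le_mul_of_nonneg_left ?_ hσ0.le
    have h6 : 0 ≤ E ^ 2 / σ := by positivity
    have h7 : 0 ≤ ((N : ℝ) / ξ) ^ 2 / 4 * (E ^ 2 / σ) := by positivity
    have h8 : 0 ≤ 2 * C * (E ^ 2 / σ) := by positivity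
    have h9 : 0 ≤ C ^ 2 * E := by positivity
    have e2 : (((N : ℝ) / ξ) ^ 2 / 4 + 2 * C + C ^ 2) * (E * (1 + E / σ)) =
        ((N : ℝ) / ξ) ^ 2 / 4 * E + 2 * C * E + C ^ 2 * (E ^ 2 / σ) +
          (((N : ℝ) / ξ) ^ 2 / 4 * (E ^ 2 / σ) + 2 * C * (E ^ 2 / σ) + C ^ 2 * E) := by
      field_simp
      ring
    rw [e2]
    linarith
  have h6 : (σ + PinC N l b t τ k) ^ 2 ≤ (σ + C * E) ^ 2 :=
    pow_le_pow_left₀ (by linarith) (by linarith) 2
  calc PinC N l b t τ k - PinC N l b t σ k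
      ≤ 2 * ThN N l b t τ' τ / (σ - τ') * (σ + PinC N l b t τ k) ^ 2 := h0
    _ ≤ 4 * ThN N l b t τ' τ / σ * (σ * ((((N : ℝ) / ξ) ^ 2 / 4 + 2 * C + C ^ 2) *
        (E * (1 + E / σ)))) :=
        mul_le_mul h1 (h6.trans h5) (sq_nonneg _) (by positivity)
    _ = _ := by
        field_simp

end

end Vale.Agent.P159.H730
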