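import Vale.Agent.P159.H730.Bad
import Vale.Agent.P159.H447.MassH

/-!
P159 (helper730): (*) and saturation on the cell torus for the NEUTRAL model, in the letters of
helper963 / helper447 (`nMC`, `CN`, `Gnc`, `PinC`), momentum by momentum, `k ≠ 0`.
-/

namespace Vale.Agent.P159.H730

open Finset Matrix MeasureTheory
open Vale.Agent.P159.TM.H104 (EM Ex Cv K3 Lg li nh Gr nh_nonneg abs_li)
open Vale.Agent.P159.H37
open Vale.Agent.P159.TM.Spec (V)
open Vale.Agent.P159.TM.SpecC (wT)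
open Vale.Agent.P159.H864 (TI TInv tra sym Inv CT CInv MC cl up cobV)
open Vale.Agent.P159.TM.H764 (cN sN dt)
open Vale.Agent.P159.H963 (GrI Neu pin Pn nMC nM Gnc PinC obsN)
open Vale.Agent.P159.H447 (CN SN)

noncomputable section

set_option linter.unusedSectionVars false

/-! ### the channel law of a pinned weight -/

section pinned

variable {V' : Type*} [Fintype V'] [DecidableEq V'] {I : Type*} [Fintype I]
variable {μ : (V' → ℤ) → ℝ} {P : Matrix I V' ℝ}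

/-- the source is neutral -/
lemma Ech_congr_neu (μ : (V' → ℤ) → ℝ) (hP : ∀ i, ∑ x, P i x = 0) {Φ Ψ : (V' → ℝ) → ℝ}
    (h : ∀ J, Neu J → Φ J = Ψ J) : Ech μ 0 P Φ = Ech μ 0 P Ψ := by
  unfold Ech
  have e : ∀ g : I → ℝ, Φ (0 + Pᵀ *ᵥ g) = Ψ (0 + Pᵀ *ᵥ g) := fun g =>
    h _ (Neu.add Neu.zero (Neu.obs hP g))
  simp_rw [e]

/-- permutation invariance of the source law -/
theorem Ech_pin_perm (hμ : GrI μ) {e : Equiv.Perm V'} (hi : Inv μ e) {e' : Equiv.Perm I}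
    (hPe : ∀ i x, P (e' i) (e x) = P i x) (hP : ∀ i, ∑ x, P i x = 0) (x₀ : V')
    (Φ : (V' → ℝ) → ℝ) :
    Ech (pin μ x₀) 0 P (fun J => Φ (J ∘ e)) = Ech (pin μ x₀) 0 P Φ := by
  have h1 : ∀ g : I → ℝ, (0 : V' → ℝ) + Pᵀ *ᵥ (g ∘ e') = (0 + Pᵀ *ᵥ g) ∘ e := by
    intro g
    funext x
    simp only [Pi.add_apply, Function.comp_apply, Matrix.mulVec, dotProduct,
      Matrix.transpose_apply]
    congr 1
    rw [← Equiv.sum_comp e' (fun i => P i (e x) * g i)]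
    refine Finset.sum_congr rfl fun i _ => ?_
    rw [hPe]
  have h2 : Inv (post μ P) e := H864.inv_post hi (H864.gram_perm hPe)
  have h3 : GrI (post μ P) := H963.grI_post hμ hP
  have h4 : ∀ g : I → ℝ, Zs (post (pin μ x₀) P) ((0 + Pᵀ *ᵥ g) ∘ e) =
      Zs (post (pin μ x₀) P) (0 + Pᵀ *ᵥ g) := by
    intro g
    rw [H963.post_pin]
    exact H963.Zs_pin_perm h3 h2 (Neu.add Neu.zero (Neu.obs hP g)) x₀
  unfold Ech
  rw [← H864.gau_perm e' (fun g => Φ (0 + Pᵀ *ᵥ g) * Zs (post (pin μ x₀) P) (0 + Pᵀ *ᵥ g)),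
    ← H864.gau_perm e' (fun g => Zs (post (pin μ x₀) P) (0 + Pᵀ *ᵥ g))]
  simp_rw [h1, h4]

/-- the mean posterior covariance of a pinned weight on neutral vectors is invariant -/
theorem bf_Cbar_pin_perm (hμ : GrI μ) {e : Equiv.Perm V'} (hi : Inv μ e) {e' : Equiv.Perm I}
    (hPe : ∀ i x, P (e' i) (e x) = P i x) (hP : ∀ i, ∑ x, P i x = 0) {x₀ : V'}
    (hE : EM (pin μ x₀)) {a c : V' → ℝ} (ha : Neu a) (hc : Neu c) :
    bf (Cbar (pin μ x₀) 0 P) (a ∘ e) (c ∘ e) = bf (Cbar (pin μ x₀) 0 P) a c := by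
  have h2 : Inv (post μ P) e := H864.inv_post hi (H864.gram_perm hPe)
  have h3 : GrI (post μ P) := H963.grI_post hμ hP
  have hp := em_post hE P
  rw [bf_Cbar hE, bf_Cbar hE, ← Ech_pin_perm hμ hi hPe hP]
  refine Ech_congr_neu _ hP fun J hJ => ?_
  have h5 := H963.bf_Cm_pin_perm (x₀ := x₀) h3 h2 (by rw [← H963.post_pin]; exact hp) hJ ha hc
  rw [← H963.post_pin, H789.bf_Cm hp, H789.bf_Cm hp] at h5
  exact h5

end pinned

/-! ### the torus -/

section torus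

variable {N l : ℕ} [NeZero N] [NeZero (N / l)] {b t τ τ' : ℝ}

/-- neutral weight with cell mass `τ` -/
abbrev wN (N l : ℕ) [NeZero N] (b t τ : ℝ) : (V N → ℤ) → ℝ := nMC N l b t τ 0

lemma CN_row (hl : l ∣ N) (c : V (N / l)) : ∑ x, CN N l c x = 0 := by
  have h := H963.obsN_row (N := N) hl 1 c
  unfold H963.obsN at h
  rw [Real.sqrt_one, one_smul] at h
  exact h

lemma neu_CN (hl : l ∣ N) (c : V (N / l)) : Neu (CN N l c) := CN_row hl c

lemma sCN_row (hl : l ∣ N) (s : ℝ) (c : V (N / l)) : ∑ x, (s • CN N l) c x = 0 := by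
  simp only [Matrix.smul_apply, smul_eq_mul]
  rw [← Finset.mul_sum, CN_row hl, mul_zero]

lemma CN_apply (c : V (N / l)) (x : V N) : CN N l c x = cobV N l c x -
    (∑ c', cobV N l c' x) / Fintype.card (V (N / l)) := by
  have h := congrFun (H963.Pn_mulVec (V := V (N / l)) fun c' => cobV N l c' x) c
  unfold CN
  rw [Matrix.mul_apply]
  exact h

lemma CN_perm {e : Equiv.Perm (V N)} {e' : Equiv.Perm (V (N / l))}
    (hc : ∀ x : V N, cl (e x) = e' (cl x)) (c : V (N / l)) (x : V N) :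
    CN N l (e' c) (e x) = CN N l c x := by
  rw [CN_apply, CN_apply, H864.cobV_perm hc, ← Equiv.sum_comp e']
  simp only [H864.cobV_perm hc]

lemma ps_wN (hl : l ∣ N) (b t : ℝ) {τ' s : ℝ} (hs : 0 ≤ s) :
    ps (wN N l b t τ') (CN N l) s = wN N l b t (τ' + s) := by
  have h := H963.post_nMC (N := N) (l := l) (t := t) hl b (show τ' ≤ τ' + s by linarith) 0
  rw [add_sub_cancel_left] at h
  exact h

lemma nq_CN (hl : l ∣ N) (h : V N → ℤ) : nq (CN N l) h = qf (SN N l) (re h) := by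
  rw [← H447.CN_gram hl, qf_gram]
  rfl

/-- Gaussian moments -/
theorem gm_wN (hb : 0 ≤ b) (hl : l ∣ N) (hτ : 0 < τ) (h : τ ≤ t) :
    H730.GM (wN N l b t τ) (CN N l) (τ / 4) := by
  refine ⟨H963.em_nMC hb hl hτ h 0, by linarith, ?_⟩
  have h1 := H963.em_nMC (t := t) (τ := τ / 2) hb hl (by linarith) (by linarith) (0 : V N)
  have e : (fun k => wN N l b t τ k * Real.exp (τ / 4 * nq (CN N l) k)) =
      wN N l b t (τ / 2) := by
    funext k
    unfold wN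
    rw [← H447.w_cellN N l b t τ, ← H447.w_cellN N l b t (τ / 2)]
    unfold wM
    rw [mul_assoc, ← Real.exp_add, nq_CN hl, H864.qf_smul_mat, H864.qf_smul_mat]
    congr 2
    ring
  rw [e]
  exact h1

/-- **the mean posterior neutral covariance is translation invariant** -/
theorem ti_CbarN (hb : 0 ≤ b) (hl : l ∣ N) (hτ' : 0 < τ') (h : τ' ≤ t) (s : ℝ) :
    TI (CN N l * Cbar (wN N l b t τ') 0 (s • CN N l) * (CN N l)ᵀ) := by
  have hE : EM (pin (wM (wT b N) (H963.ntr (MC N l t τ') τ')) 0) := H963.em_nMC hb hl hτ' h 0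
  have hg := (H963.gw_wT (N := N) hb).grI_wM (H963.mf_MC hl hτ' h)
  refine ⟨fun a x y => ?_, fun x y => ?_⟩
  · rw [QAQ_apply, QAQ_apply]
    have h1 := bf_Cbar_pin_perm hg (H963.cinv_ntr hl b t τ' a) (e' := tra a) (P := s • CN N l)
      (fun c z => by
        rw [Matrix.smul_apply, Matrix.smul_apply, CN_perm (H864.cl_tra hl a)])
      (sCN_row hl s) hE (neu_CN hl (x + a)) (neu_CN hl (y + a))
    have e : ∀ c : V (N / l), (CN N l (c + a)) ∘ tra (up a) = CN N l c := by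
      intro c
      funext z
      exact CN_perm (H864.cl_tra hl a) c z
    rw [e, e] at h1
    exact h1.symm
  · rw [QAQ_apply, QAQ_apply]
    refine bf_comm ?_ _ _
    ext u v
    exact H864.Ech_symm_cm _ 0 _ v u

/-- symbol of the mean posterior neutral cell covariance (`k ≠ 0`) -/
def CbNk (N l : ℕ) [NeZero N] [NeZero (N / l)] (b t τ' τ : ℝ) (k : V (N / l)) : ℝ :=
  sym (CN N l * Cbar (wN N l b t τ') 0 (obsN N l (τ - τ')) * (CN N l)ᵀ) k

/-- symbol of the neutral cell covariance -/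
abbrev gN (N l : ℕ) [NeZero N] [NeZero (N / l)] (b t τ : ℝ) (k : V (N / l)) : ℝ :=
  sym (Gnc N l b t τ) k

/-- **the waves are modes of the neutral model** -/
theorem mode_wvN (hb : 0 < b) (hl : l ∣ N) (hτ' : 0 < τ') (h : τ' ≤ τ) (ht : τ ≤ t)
    {k : V (N / l)} (hk : k ≠ 0) :
    Mode (wN N l b t τ') (CN N l) (wv k) (τ - τ') ∧
      (∀ s ∈ Set.Icc 0 (τ - τ'), gz (wN N l b t τ') (CN N l) ((CN N l)ᵀ *ᵥ wv k) s =
        gN N l b t (τ' + s) k * ∑ x, wv (N := N) (l := l) k x ^ 2) ∧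
      ∀ s ∈ Set.Icc 0 (τ - τ'), cz (wN N l b t τ') (CN N l) ((CN N l)ᵀ *ᵥ wv k) s =
        CbNk N l b t τ' (τ' + s) k * ∑ x, wv (N := N) (l := l) k x ^ 2 := by
  refine mode_of_eig (H963.em_nMC hb.le hl hτ' (h.trans ht) 0) (wv_pos k) (fun s hs => ?_)
    (fun s hs => ?_) fun s hs => ?_
  · rw [ps_wN hl b t hs.1]
    have h1 := (H963.ti_Gnc (N := N) (l := l) hb.le hl (by linarith [hs.1] : 0 < τ' + s)
      (by linarith [hs.2] : τ' + s ≤ t)).mulVec_cN k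
    rw [← H447.Gc_CN hl] at h1
    unfold gN
    rw [← H447.Gc_CN hl]
    exact h1
  · have h1 := (ti_CbarN (N := N) (l := l) hb.le hl hτ' (h.trans ht) (Real.sqrt s)).mulVec_cN k
    unfold CbNk
    rw [add_sub_cancel_left]
    exact h1
  · exact H963.sym_Gnc_pos hb hl (by linarith [hs.1]) (by linarith [hs.2]) hk

/-- the data of **(*)** for the neutral model -/
structure STN (N l : ℕ) [NeZero N] [NeZero (N / l)] (b t τ' τ θ e : ℝ)
    (Gd : ℝ → Set (V N → ℝ)) : Prop where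
  b0 : 0 < b
  dvd : l ∣ N
  pos : 0 < τ'
  le : τ' ≤ τ
  le' : τ ≤ t
  th0 : 0 ≤ θ
  e0 : 0 ≤ e
  meas : ∀ σ ∈ Set.Icc τ' τ, MeasurableSet (Gd σ)
  th : ∀ σ ∈ Set.Icc τ' τ, ∀ J ∈ Gd σ, Neu J → Real.exp (Tq (wN N l b t σ) J) - 1 ≤ θ
  err : ∀ σ ∈ Set.Icc τ' τ, Ech (wN N l b t τ') 0 (obsN N l (σ - τ'))
    ((Gd σ)ᶜ.indicator (hs2 (wN N l b t τ') (CN N l) (σ - τ'))) ≤ e

variable {θ e : ℝ} {Gd : ℝ → Set (V N → ℝ)}

lemma measurable_neu (N : ℕ) [NeZero N] : MeasurableSet {J : V N → ℝ | Neu J} := by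
  have h : Measurable fun J : V N → ℝ => ∑ x, J x := by fun_prop
  exact h (measurableSet_singleton (0 : ℝ))

/-- the hypotheses of the abstract theorem -/
theorem STN.sh (h : STN N l b t τ' τ θ e Gd) {k : V (N / l)} (hk : k ≠ 0) :
    SH (wN N l b t τ') (CN N l) (wv k) (τ - τ') θ
      ((∑ x, wv (N := N) (l := l) k x ^ 2) * e) (fun s => Gd (τ' + s) ∩ {J | Neu J}) where
  gm := ⟨_, gm_wN h.b0.le h.dvd h.pos (h.le.trans h.le')⟩
  ev := H963.ev_nMC h.b0.le t τ' 0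
  p0 := sub_nonneg.2 h.le
  pk s hs := by
    rw [ps_wN h.dvd b t hs.1]
    exact H963.pk_nMC h.b0.le h.dvd (by linarith [h.pos, hs.1]) (by linarith [h.le', hs.2]) 0
  mode := (mode_wvN h.b0 h.dvd h.pos h.le h.le' hk).1
  th0 := h.th0
  e0 := mul_nonneg (wv_pos k).le h.e0
  meas s hs := (h.meas _ ⟨by linarith [hs.1], by linarith [hs.2]⟩).inter (measurable_neu N)
  th s hs J hJ := by
    rw [ps_wN h.dvd b t hs.1]
    exact h.th _ ⟨by linarith [hs.1], by linarith [hs.2]⟩ J hJ.1 hJ.2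
  err s hs := by
    have hμ := H963.em_nMC (N := N) (l := l) (t := t) h.b0.le h.dvd h.pos (h.le.trans h.le') 0
    have h1 := h.err (τ' + s) ⟨by linarith [hs.1], by linarith [hs.2]⟩
    rw [add_sub_cancel_left] at h1
    have hm := (h.meas (τ' + s) ⟨by linarith [hs.1], by linarith [hs.2]⟩).compl
    have hm' := ((h.meas (τ' + s) ⟨by linarith [hs.1], by linarith [hs.2]⟩).inter
      (measurable_neu N)).compl
    have h0 : Es (wN N l b t τ') (CN N l) s ((Gd (τ' + s) ∩ {J | Neu J})ᶜ.indicator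
        (dev (wN N l b t τ') (CN N l) ((CN N l)ᵀ *ᵥ wv k) s)) =
        Es (wN N l b t τ') (CN N l) s ((Gd (τ' + s))ᶜ.indicator
        (dev (wN N l b t τ') (CN N l) ((CN N l)ᵀ *ᵥ wv k) s)) := by
      refine Ech_congr_neu _ (sCN_row h.dvd _) fun J hJ => ?_
      by_cases hG : J ∈ Gd (τ' + s)
      · have n1 : J ∉ (Gd (τ' + s) ∩ {J | Neu J})ᶜ := fun h => h ⟨hG, hJ⟩
        have n2 : J ∉ (Gd (τ' + s))ᶜ := fun h => h hG
        rw [Set.indicator_of_notMem n1, Set.indicator_of_notMem n2]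
      · have n1 : J ∈ (Gd (τ' + s) ∩ {J | Neu J})ᶜ := fun h => hG h.1
        have n2 : J ∈ (Gd (τ' + s))ᶜ := hG
        rw [Set.indicator_of_mem n1, Set.indicator_of_mem n2]
    rw [h0]
    have h2 : Es (wN N l b t τ') (CN N l) s ((Gd (τ' + s))ᶜ.indicator
        (dev (wN N l b t τ') (CN N l) ((CN N l)ᵀ *ᵥ wv k) s)) ≤
        Es (wN N l b t τ') (CN N l) s fun J => (∑ x, wv (N := N) (l := l) k x ^ 2) *
          (Gd (τ' + s))ᶜ.indicator (hs2 (wN N l b t τ') (CN N l) s) J := by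
      refine H663.Ech_mono' hμ (chi_ind hμ (measurable_dev hμ _ s) (dev_nonneg _ _ _ _)
        (chi_dev hμ _ s) hm)
        ((chi_ind hμ (measurable_hs2 hμ s) (hs2_nonneg _ _ _) (chi_hs2 hμ s) hm).cmul _)
        fun J => ?_
      by_cases hJ : J ∈ (Gd (τ' + s))ᶜ
      · rw [Set.indicator_of_mem hJ, Set.indicator_of_mem hJ]
        exact dev_le_hs hμ _ _ _
      · rw [Set.indicator_of_notMem hJ, Set.indicator_of_notMem hJ, mul_zero]
    refine h2.trans ?_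
    unfold Es
    rw [Ech_cmul]
    exact mul_le_mul_of_nonneg_left h1 (wv_pos k).le

lemma STN.cb_ge (h : STN N l b t τ' τ θ e Gd) {k : V (N / l)} (hk : k ≠ 0) :
    gN N l b t τ k ≤ CbNk N l b t τ' τ k := by
  obtain ⟨_, h2, h3⟩ := mode_wvN h.b0 h.dvd h.pos h.le h.le' hk
  have i : τ - τ' ∈ Set.Icc 0 (τ - τ') := ⟨sub_nonneg.2 h.le, le_rfl⟩
  have h4 := (h.sh hk).gz_le i
  rw [h2 _ i, h3 _ i, add_sub_cancel] at h4
  exact le_of_mul_le_mul_right h4 (wv_pos k)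

lemma PiZ_torN (h : STN N l b t τ' τ θ e Gd) {k : V (N / l)} (hk : k ≠ 0) {s : ℝ}
    (hs : s ∈ Set.Icc 0 (τ - τ')) :
    PiZ (wN N l b t τ') (CN N l) (wv k) s = PinC N l b t (τ' + s) k + τ' := by
  obtain ⟨_, h2, _⟩ := mode_wvN h.b0 h.dvd h.pos h.le h.le' hk
  unfold PiZ PinC
  rw [h2 s hs]
  have hn := (wv_pos (N := N) (l := l) k).ne'
  have hg := (H963.sym_Gnc_pos h.b0 h.dvd (by linarith [h.pos, hs.1]) (by linarith [h.le', hs.2]) hk :
    0 < sym (Gnc N l b t (τ' + s)) k).ne'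
  field_simp
  ring

/-- **(*) on the cell torus, neutral model** -/
theorem STN.star (h : STN N l b t τ' τ θ e Gd) {k : V (N / l)} (hk : k ≠ 0) :
    (1 - θ) * (PinC N l b t τ k - PinC N l b t τ' k) - (τ - τ') * (e / gN N l b t τ k ^ 2) ≤
      (gN N l b t τ k)⁻¹ - (CbNk N l b t τ' τ k)⁻¹ ∧
    (gN N l b t τ k)⁻¹ - (CbNk N l b t τ' τ k)⁻¹ ≤ PinC N l b t τ k - PinC N l b t τ' k := by
  obtain ⟨_, h2, h3⟩ := mode_wvN h.b0 h.dvd h.pos h.le h.le' hk
  have i0 : (0 : ℝ) ∈ Set.Icc 0 (τ - τ') := ⟨le_rfl, sub_nonneg.2 h.le⟩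
  have i : τ - τ' ∈ Set.Icc 0 (τ - τ') := ⟨sub_nonneg.2 h.le, le_rfl⟩
  have h4 := (h.sh hk).star
  rw [PiZ_torN h hk i, PiZ_torN h hk i0, h2 _ i, h3 _ i, add_zero, add_sub_cancel] at h4
  have hn := wv_pos (N := N) (l := l) k
  have hg : 0 < gN N l b t τ k :=
    H963.sym_Gnc_pos (N := N) (l := l) (t := t) h.b0 h.dvd (h.pos.trans_le h.le) h.le' hk
  have hc := hg.trans_le (h.cb_ge hk)
  set n := ∑ x, wv (N := N) (l := l) k x ^ 2
  set g := gN N l b t τ k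
  set c := CbNk N l b t τ' τ k
  have e1 : n / (g * n) - n / (c * n) = g⁻¹ - c⁻¹ := by
    field_simp
  have e2 : (τ - τ') * (n * (n * e) / (g * n) ^ 2) = (τ - τ') * (e / g ^ 2) := by
    field_simp
  have e3 : PinC N l b t τ k + τ' - (PinC N l b t τ' k + τ') =
      PinC N l b t τ k - PinC N l b t τ' k := by ring
  rw [e1, e2, e3] at h4
  exact h4

/-- **SATURATION on the cell torus, neutral model.** -/
theorem sat_torN {τ'' e' e'' : ℝ} {Gd' Gd'' : ℝ → Set (V N → ℝ)}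
    (h' : STN N l b t τ' τ θ e' Gd') (h'' : STN N l b t τ'' τ θ e'' Gd'') (hθ2 : θ ≤ 1 / 2)
    {ε r : ℝ} (hε : 0 ≤ ε) (hr : 0 ≤ r) {k : V (N / l)} (hk : k ≠ 0)
    (hN : CbNk N l b t τ'' τ k - gN N l b t τ k ≤
      (1 + ε) * (CbNk N l b t τ' τ k - gN N l b t τ k) + r) :
    PinC N l b t τ' k - PinC N l b t τ'' k ≤
      2 * (θ + ε) * (PinC N l b t τ k - PinC N l b t τ' k) +
        2 * (((τ - τ'') * e'' + r) / gN N l b t τ k ^ 2) := by
  have hg : 0 < gN N l b t τ k :=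
    H963.sym_Gnc_pos (N := N) (l := l) (t := t) h'.b0 h'.dvd (h'.pos.trans_le h'.le) h'.le' hk
  have hc' := h'.cb_ge hk
  have hc'' := h''.cb_ge hk
  have s1 := (h'.star hk).2
  have s2 := (h''.star hk).1
  set g := gN N l b t τ k
  set x1 := CbNk N l b t τ' τ k - g with hx1
  set x2 := CbNk N l b t τ'' τ k - g with hx2
  have e1 : CbNk N l b t τ' τ k = g + x1 := by rw [hx1]; ring
  have e2 : CbNk N l b t τ'' τ k = g + x2 := by rw [hx2]; ring
  have hE : 0 ≤ (τ - τ'') * (e'' / g ^ 2) :=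
    mul_nonneg (sub_nonneg.2 h''.le) (div_nonneg h''.e0 (sq_nonneg _))
  have h := sat_real (n := 1) (g := g) (x1 := x1) (x2 := x2) h'.th0 hθ2 hε zero_le_one hg
    (sub_nonneg.2 hc') (sub_nonneg.2 hc'') hE hr hN
    (D := PinC N l b t τ k - PinC N l b t τ'' k) (D1 := PinC N l b t τ k - PinC N l b t τ' k)
    (by rw [one_div, one_div, ← e2]; exact s2) (by rw [one_div, one_div, ← e1]; exact s1)
  have e3 : PinC N l b t τ k - PinC N l b t τ'' k - (PinC N l b t τ k - PinC N l b t τ' k) =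
      PinC N l b t τ' k - PinC N l b t τ'' k := by ring
  rw [e3] at h
  refine h.trans (le_of_eq ?_)
  ring

/-! ### the bad set -/

/-- neutral cell averages are sub-Gaussian with proxy `1/τ` -/
lemma sg1_wN (hb : 0 ≤ b) (hl : l ∣ N) (hτ : 0 < τ) (h : τ ≤ t) :
    SG1 (wN N l b t τ) (CN N l) τ⁻¹ := by
  intro i lam
  have hu : Neu (lam • CN N l i) := (neu_CN hl i).smul lam
  have h1 := (H963.gw_wT (N := N) hb).Lg_nM_le_inv (H963.mf_MC hl hτ h) (0 : V N) hu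
  refine h1.trans ?_
  have e0 : lam • CN N l i = (cobV N l)ᵀ *ᵥ (lam • ((Pn : Matrix (V (N / l)) (V (N / l)) ℝ) i)) := by
    rw [mulVec_smul]
    congr 1
    funext x
    unfold CN
    rw [Matrix.mul_apply]
    simp only [Matrix.mulVec, dotProduct, Matrix.transpose_apply]
    exact Finset.sum_congr rfl fun c _ => mul_comm _ _
  have e1 : ((cobV N l)ᵀ *ᵥ (lam • ((Pn : Matrix (V (N / l)) (V (N / l)) ℝ) i))) ⬝ᵥ
      ((cobV N l)ᵀ *ᵥ (lam • ((Pn : Matrix (V (N / l)) (V (N / l)) ℝ) i))) ≤ lam ^ 2 := by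
    rw [dotProduct_mulVec, vecMul_transpose, mulVec_mulVec, H864.cobV_mul_tr hl, one_mulVec,
      smul_dotProduct, dotProduct_smul]
    have h3 : ((Pn : Matrix (V (N / l)) (V (N / l)) ℝ) i) ⬝ᵥ
        ((Pn : Matrix (V (N / l)) (V (N / l)) ℝ) i) = (Pn : Matrix (V (N / l)) (V (N / l)) ℝ) i i := by
      have h4 := congrFun (congrFun (H963.Pn_mul_Pn (V := V (N / l))) i) i
      rw [Matrix.mul_apply] at h4
      rw [← h4]
      unfold dotProduct
      refine Finset.sum_congr rfl fun j _ => ?_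
      congr 1
      exact (congrFun (congrFun (H963.Pn_transpose (V := V (N / l))) i) j).symm
    have h5 : (Pn : Matrix (V (N / l)) (V (N / l)) ℝ) i i ≤ 1 := by
      unfold Pn
      rw [H963.ntr_apply, Matrix.one_apply_eq]
      have : 0 ≤ (1 : ℝ) / Fintype.card (V (N / l)) := by positivity
      linarith
    rw [h3]
    simp only [smul_eq_mul]
    nlinarith [sq_nonneg lam]
  rw [H864.MC_inv hl (hτ.trans_le h).ne' hτ.ne', e0, qf_eq, H864.MC_mulVec_tr hl,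
    dotProduct_smul, smul_eq_mul]
  have h2 := mul_le_mul_of_nonneg_left e1 (inv_pos.2 hτ).le
  linarith

/-- **the bad set, neutral model** -/
theorem bad_torN (hb : 0 ≤ b) (hl : l ∣ N) (hτ' : 0 < τ') {σ : ℝ} (h : τ' ≤ σ) (ht : σ ≤ t)
    {A : Set (V N → ℝ)} (hA : MeasurableSet A) :
    Ech (wN N l b t τ') 0 (obsN N l (σ - τ'))
        (A.indicator (hs2 (wN N l b t τ') (CN N l) (σ - τ'))) ≤
      1500 * (((N / l : ℕ) : ℝ) ^ 2 / τ') ^ 2 *
        Real.sqrt (Ech (wN N l b t τ') 0 (obsN N l (σ - τ')) (A.indicator fun _ => (1 : ℝ))) := by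
  have hμ := H963.em_nMC (N := N) (l := l) (t := t) hb hl hτ' (h.trans ht) (0 : V N)
  have h1 := sg1_wN (N := N) (l := l) (t := t) hb hl hτ' (h.trans ht)
  have h2 : SG1 (ps (wN N l b t τ') (CN N l) (σ - τ')) (CN N l) τ'⁻¹ := by
    rw [ps_wN hl b t (sub_nonneg.2 h), add_sub_cancel]
    intro i lam
    refine (sg1_wN (N := N) (l := l) (t := t) hb hl (hτ'.trans_le h) ht i lam).trans ?_
    have h3 : σ⁻¹ ≤ τ'⁻¹ := inv_anti₀ hτ' h
    nlinarith [mul_le_mul_of_nonneg_left h3 (sq_nonneg lam)]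
  have h3 := bad_le hμ (inv_pos.2 hτ') h1 h2 hA
  have hc : (Fintype.card (V (N / l)) : ℝ) = ((N / l : ℕ) : ℝ) ^ 2 := TM.H764.card_V
  rw [hc, ← div_eq_mul_inv] at h3
  exact h3

end torus

end

end Vale.Agent.P159.H730
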