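import Vale.Agent.P159.H276.Eta3
import Vale.Agent.P159.H663.GsA
import Vale.Agent.P159.H789.LgH

/-!
P159 / module APT (helper730), part 2: **(S1)(S2)(S3) + crude bound ==> `Rs` is small**, deterministic.

* `Bc N l n q β` : the cells of the block `β` (side `ξ = q l`);
* `bfl_cob`, `bm_cob` : 789's block fluctuation and block mean of `c • cobVᵀ u`;
* `AptB` : the block conditions (S1)(S2)(S4) on a cell source;
* `apt_t` : the bound at the natural mass for `c₀ • cobVᵀ T j + const` (789's `lgt_good`);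
* `apt_tau` : `Rs (nwt N b τ 0) (Q • cobVᵀ j) ≤ e^(1/16) / 2 + Q² <j, Wt j>` at the posterior mass
  (276's `eta2`); `apt_one` : the bound at the natural mass, neutral model.
-/

set_option linter.unusedSectionVars false

namespace Vale.Agent.P159.H730

open Finset Matrix MeasureTheory
open Vale.Agent.P159.TM.H104 (EM Ex Cv K3 Lg li nh Gr)
open Vale.Agent.P159.H37
open Vale.Agent.P159.TM.Spec (V Rng)
open Vale.Agent.P159.TM.SpecC (wT)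
open Vale.Agent.P159.TM.H459 (sd sn bk bk1 blk mem_blk)
open Vale.Agent.P159.H864 (TI sym cobV cl cl1 cl1_val l_pos cobV_tr_mulVec)
open Vale.Agent.P159.H963 (Neu nwt Gnc)
open Vale.Agent.P159.H859 (dB)
open Vale.Agent.P159.H663 (TC bE rsC)
open Vale.Agent.P159.H789 (ib bm bfl)
open Vale.Agent.P159.H276 (Eop Wt)
open Vale.Agent.P159.H972 (AP RNG Par tn)

noncomputable section

section geo

variable {N l : ℕ} [NeZero N] [NeZero (N / l)] {n : ℕ} [NeZero n] {ξ q : ℕ}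

/-- the cells of the block `β` -/
def Bc (N l n q : ℕ) [NeZero N] [NeZero (N / l)] (β : ZMod n × ZMod n) : Finset (V (N / l)) :=
  blk (N / l) n q β

lemma mem_Bc {β : ZMod n × ZMod n} {w : V (N / l)} : w ∈ Bc N l n q β ↔ bk n q w = β := by
  unfold Bc
  exact mem_blk

lemma cells_eq (hN : N = n * ξ) (hξ : ξ = q * l) (hl : 0 < l) : N / l = n * q := by
  rw [hN, hξ, ← mul_assoc, Nat.mul_div_cancel _ hl]

/-- the block of a site is the block of its cell -/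
lemma bk_cl (hl : l ∣ N) (hξ : ξ = q * l) (x : V N) :
    bk n ξ x = bk n q (cl x : V (N / l)) := by
  have key : ∀ z : ZMod N, bk1 n ξ z = bk1 n q (cl1 z : ZMod (N / l)) := by
    intro z
    unfold TM.H459.bk1
    rw [cl1_val hl, Nat.div_div_eq_div_mul, hξ, mul_comm q l]
  unfold TM.H459.bk H864.cl
  exact Prod.ext (key x.1) (key x.2)

/-- two sites of the cell torus are in the same block -/
lemma cl_iff_bk {M : ℕ} [NeZero M] [NeZero (M / q)] (hq : q ∣ M) (hM : M = n * q) (w w' : V M) :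
    (cl w : V (M / q)) = cl w' ↔ bk n q w = bk n q w' := by
  have hq0 : 0 < q := l_pos hq
  have hn : M / q = n := by rw [hM, Nat.mul_div_cancel _ hq0]
  have key : ∀ z z' : ZMod M, (cl1 z : ZMod (M / q)) = cl1 z' ↔ bk1 n q z = bk1 n q z' := by
    intro z z'
    have h1 : ∀ z : ZMod M, (bk1 n q z).val = z.val / q := by
      intro z
      unfold TM.H459.bk1
      rw [ZMod.val_natCast, Nat.mod_eq_of_lt]
      have := Nat.div_lt_div_of_lt_of_dvd hq (ZMod.val_lt z)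
      rwa [hn] at this
    constructor
    · intro h
      apply ZMod.val_injective
      rw [h1, h1, ← cl1_val hq, ← cl1_val hq, h]
    · intro h
      apply ZMod.val_injective
      rw [cl1_val hq, cl1_val hq, ← h1, ← h1, h]
  unfold TM.H459.bk H864.cl
  simp only [Prod.mk.injEq, key]

/-- sums over a block of cell functions -/
lemma sum_ib_cob (hl : l ∣ N) (hξ : ξ = q * l) (u : V (N / l) → ℝ) (β : ZMod n × ZMod n) :
    ∑ z : V N, ib n ξ β z * ((cobV N l)ᵀ *ᵥ u) z = l * ∑ w ∈ Bc N l n q β, u w := by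
  have hlR : (0 : ℝ) < l := by exact_mod_cast l_pos hl
  have e1 : ∀ z : V N, ib n ξ β z * ((cobV N l)ᵀ *ᵥ u) z =
      ∑ w : V (N / l), (if cl z = w then (l : ℝ)⁻¹ * (if bk n q w = β then u w else 0) else 0) := by
    intro z
    rw [Finset.sum_ite_eq, if_pos (Finset.mem_univ _), cobV_tr_mulVec]
    unfold ib
    rw [bk_cl hl hξ z]
    split_ifs
    · rw [one_mul]
    · rw [zero_mul, mul_zero]
  rw [Finset.sum_congr rfl fun z _ => e1 z, Finset.sum_comm]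
  have e2 : ∀ w : V (N / l), ∑ z : V N, (if cl z = w then
      (l : ℝ)⁻¹ * (if bk n q w = β then u w else 0) else 0) =
      l * (if bk n q w = β then u w else 0) := by
    intro w
    rw [← Finset.sum_filter, Finset.sum_const, nsmul_eq_mul, H864.card_cell hl]
    field_simp
  rw [Finset.sum_congr rfl fun w _ => e2 w, ← Finset.mul_sum, ← Finset.sum_filter]
  rfl

/-- 789's block mean -/
lemma bm_cob (hl : l ∣ N) (hξ : ξ = q * l) (c : ℝ) (u : V (N / l) → ℝ) (β : ZMod n × ZMod n) :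
    bm n ξ (c • ((cobV N l)ᵀ *ᵥ u)) β = c * (l / (ξ : ℝ) ^ 2 * ∑ w ∈ Bc N l n q β, u w) := by
  unfold H789.bm
  have e : ∑ z : V N, ib n ξ β z * (c • ((cobV N l)ᵀ *ᵥ u)) z =
      c * ∑ z : V N, ib n ξ β z * ((cobV N l)ᵀ *ᵥ u) z := by
    rw [Finset.mul_sum]
    exact Finset.sum_congr rfl fun z _ => by rw [Pi.smul_apply, smul_eq_mul]; ring
  rw [e, sum_ib_cob hl hξ]
  ring

/-- 789's block fluctuation -/
lemma bfl_cob (hl : l ∣ N) (hN : N = n * ξ) (hξ : ξ = q * l) (c : ℝ) (u : V (N / l) → ℝ)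
    (β : ZMod n × ZMod n) :
    bfl n ξ (c • ((cobV N l)ᵀ *ᵥ u)) β =
      (cobV N l)ᵀ *ᵥ (c • (dB (Bc N l n q β) *ᵥ ((1 - cellP (N / l) q) *ᵥ u))) := by
  have hl0 : 0 < l := l_pos hl
  have hξ0 : 0 < ξ := by
    rcases Nat.eq_zero_or_pos ξ with h | h
    · rw [h, mul_zero] at hN
      exact absurd hN (NeZero.ne N)
    · exact h
  have hq0 : 0 < q := by
    rcases Nat.eq_zero_or_pos q with h | h
    · rw [h, zero_mul] at hξ
      omega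
    · exact h
  have hM := cells_eq (n := n) hN hξ hl0
  have hq : q ∣ N / l := ⟨n, by rw [hM, mul_comm]⟩
  have : NeZero (N / l / q) := H864.ne_div hq
  have hlR : (0 : ℝ) < l := by exact_mod_cast hl0
  have hqR : (0 : ℝ) < q := by exact_mod_cast hq0
  funext z
  rw [cobV_tr_mulVec, Pi.smul_apply, smul_eq_mul]
  unfold H789.bfl H859.dB
  rw [mulVec_diagonal, bm_cob hl hξ, Matrix.sub_mulVec, Matrix.one_mulVec, Pi.sub_apply,
    H864.cellP_mulVec hq, Pi.smul_apply, smul_eq_mul, cobV_tr_mulVec]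
  unfold ib
  rw [bk_cl hl hξ z]
  by_cases h : bk n q (cl z : V (N / l)) = β
  · rw [if_pos h, if_pos (mem_Bc.2 h)]
    have e1 : (univ.filter fun y : V (N / l) => (cl y : V (N / l / q)) = cl (cl z : V (N / l))) =
        Bc N l n q β := by
      ext w
      rw [Finset.mem_filter, mem_Bc, cl_iff_bk hq hM, h]
      simp
    rw [e1, hξ]
    push_cast
    field_simp
  · rw [if_neg h, if_neg (fun h1 => h (mem_Bc.1 h1))]
    ring

end geo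

section cond

/-- amplitude of the block conditions -/
def QD (D : ℕ) : ℝ := 8 * (4 * (D : ℝ) + 1) ^ 2

lemma QD_pos (D : ℕ) : 0 < QD D := by
  unfold QD
  positivity

/-- the block conditions on a cell source `j`: `T` a contraction, `Q₁` the amplitude of (S1) -/
structure AptB (N l n q : ℕ) [NeZero N] [NeZero (N / l)] [NeZero n] (b t : ℝ)
    (T : Matrix (V (N / l)) (V (N / l)) ℝ) (Q₁ δ L Lam : ℝ) (j : V (N / l) → ℝ) : Prop where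
  neu : Neu j
  S1 : ∀ β : ZMod n × ZMod n, rsC N l b t (Q₁ • (bE (Bc N l n q β) q T *ᵥ j)) ≤ δ
  S2 : ∀ β β' : ZMod n × ZMod n, sd β β' ≤ 1 →
    |l / ((q : ℝ) * l) ^ 2 * (∑ w ∈ Bc N l n q β, (T *ᵥ j) w -
      ∑ w ∈ Bc N l n q β', (T *ᵥ j) w)| ≤ t * L
  S4 : ∑ w, (T *ᵥ j) w ^ 2 ≤ Lam ^ 2

/-- `E = 1 - (τ - t) G_τ` is a contraction -/
theorem tc_Eop {N l : ℕ} [NeZero N] [NeZero (N / l)] {b : ℝ} (hb : 0 < b) (hl : l ∣ N) {t τ : ℝ}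
    (ht : 0 < t) (h : t ≤ τ) : TC (Eop N l b t τ) := by
  have hτ : 0 < τ := ht.trans_le h
  have hlR : (0 : ℝ) < l := by exact_mod_cast l_pos hl
  refine TC.of_nonneg (H276.ti_Eop hb hl t hτ) (fun k => ?_) (fun k => ?_)
  · rw [H276.sym_Eop, sub_nonneg]
    have h1 := H859.Gnck_dom hb.le hl hτ le_rfl (κ := 1 / b) (by positivity)
      (by rw [mul_one_div_cancel hb.ne']) k
    have h2 : 0 ≤ 1 / b / (l : ℝ) ^ 2 * TM.H764.EE k :=
      mul_nonneg (by positivity) (TM.H764.EE_nonneg k)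
    have h3 : (τ + 1 / b / (l : ℝ) ^ 2 * TM.H764.EE k)⁻¹ ≤ τ⁻¹ :=
      inv_anti₀ hτ (by linarith)
    calc (τ - t) * sym (Gnc N l b τ τ) k ≤ τ * τ⁻¹ := by
          refine mul_le_mul (by linarith) (h1.trans h3)
            (H963.sym_Gnc_nonneg hb.le hl hτ le_rfl k) hτ.le
      _ = 1 := mul_inv_cancel₀ hτ.ne'
  · rw [H276.sym_Eop]
    have h1 := mul_nonneg (sub_nonneg.2 h) (H963.sym_Gnc_nonneg hb.le hl hτ le_rfl k)
    linarith

end cond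

/-- the numeric conditions at the scale `e`: torus `2 ^ r`, `ξ = 2 ^ n`, cells `2 ^ s`; `c₀` the
amplitude, `L` the Lipschitz number, `X` the amplitude of AP -/
structure AptN (K2 K3 e : ℝ) (n r s D : ℕ) (c₀ L Lam δ X : ℝ) : Prop where
  c0 : 0 < c₀
  D0 : K2 * Real.log (1 / e) ≤ D
  L0 : 0 ≤ L
  Lam0 : 0 ≤ Lam
  R : c₀ * Lam * (4 : ℝ) ^ n / 2 ^ s ≤ e ^ (-K3)
  νL : (2 ^ (r - n) : ℝ) ^ 2 * (c₀ * L * 2 ^ (r - n) + 3) ≤ e ^ (-(1 / 40) : ℝ)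
  δ0 : 0 ≤ δ
  δe : δ ≤ 2 * e ^ (1 / 8 : ℝ)
  X : 2 * QD D * max 1 (c₀ * L * D) ≤ X

/-- **the bound at the natural mass**, any contraction `T` -/
def AptH (P : Par) (b K2 K3 e₀ : ℝ) : Prop :=
  ∀ (n r s : ℕ) (e : ℝ), 0 < e → e ≤ e₀ → RNG P b n r e → n ≤ r → s ≤ n →
    ∀ [NeZero (2 ^ r / 2 ^ s)] (T : Matrix (V (2 ^ r / 2 ^ s)) (V (2 ^ r / 2 ^ s)) ℝ), TC T →
    ∀ (D : ℕ) (c₀ L Lam δ X : ℝ), AptN K2 K3 e n r s D c₀ L Lam δ X →
      AP b n r s X (tn n) δ → ∀ j : V (2 ^ r / 2 ^ s) → ℝ,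
      AptB (2 ^ r) (2 ^ s) (2 ^ (r - n)) (2 ^ (n - s)) b (tn n) T (c₀ * QD D) δ L Lam j →
      ∀ a' : ℝ, |a'| ≤ 1 →
        Rs (wt (2 ^ r) b (tn n)) (c₀ • ((cobV (2 ^ r) (2 ^ s))ᵀ *ᵥ (T *ᵥ j)) +
          fun _ => tn n * a') ≤ e ^ (1 / 16 : ℝ)

theorem apt_t {b1 : ℝ} (hb1 : 0 < b1) (b2 : ℝ) (hA6 : TM.Spec.ThmA6 b1 b2 (5 / 2)) :
    ∃ W₀ : ℝ, ∀ W : ℝ, W₀ ≤ W → ∃ ys : ℝ, ∃ X0 : ℕ, 0 < ys ∧ ∀ K3 : ℝ, 0 < K3 →
      ∃ K2 e₀ : ℝ, 0 < K2 ∧ 0 < e₀ ∧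
      ∀ P : Par, P.b1 = b1 → P.b2 = b2 → P.W = W → P.ys ≤ ys → X0 ≤ P.X0 →
      ∀ b : ℝ, AptH P b K2 K3 e₀ := by
  obtain ⟨W₀, hW₀⟩ := H789.lgt_good hb1 b2 hA6
  refine ⟨W₀, fun W hW => ?_⟩
  obtain ⟨ys, X0, hys, h⟩ := hW₀ W hW
  refine ⟨ys, X0, hys, fun K3 hK3 => ?_⟩
  obtain ⟨K2, e₀, hK2, he₀, h⟩ := h K3 hK3
  refine ⟨K2, e₀, hK2, he₀, ?_⟩
  intro P hP1 hP2 hPW hPy hPX b n r s e he hee hR hnr hsn _ T hT D c₀ L Lam δ X hn hAP j hj a' ha'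
  have ht0 : 0 < tn n := H789.tn_pos n
  have hl : 2 ^ s ∣ 2 ^ r := pow_dvd_pow 2 (hsn.trans hnr)
  have hξ : 2 ^ n = 2 ^ (n - s) * 2 ^ s := by
    rw [← pow_add]
    congr 1
    omega
  have hN : 2 ^ r = 2 ^ (r - n) * 2 ^ n := by
    rw [← pow_add]
    congr 1
    omega
  have htn : tn n = 1 / ((2 ^ n : ℕ) : ℝ) ^ 2 := H789.tn_eq' n
  have hTn : Neu (T *ᵥ j) := by
    have h1 := hj.neu
    unfold H963.Neu at h1 ⊢
    rw [H663.ti_sum hT.ti, h1, mul_zero]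
  have hc₀ := hn.c0
  have h4n : (0 : ℝ) < 4 ^ n := by positivity
  have h2s : (0 : ℝ) < 2 ^ s := by positivity
  refine h P hP1 hP2 hPW hPy hPX b n r s e he hee hR hnr hsn D (c₀ * L)
    (c₀ * Lam * (4 : ℝ) ^ n / 2 ^ s) X δ (c₀ • ((cobV (2 ^ r) (2 ^ s))ᵀ *ᵥ (T *ᵥ j))) hn.D0
    (mul_nonneg hc₀.le hn.L0) (div_nonneg (mul_nonneg (mul_nonneg hc₀.le hn.Lam0) h4n.le) h2s.le)
    hn.R hn.νL hn.δ0 hn.δe hAP ?_ ?_ ?_ ?_ ?_ a' ha'
  · refine le_trans (le_of_eq ?_) hn.X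
    unfold QD
    ring
  · intro β
    have h1 := hj.S1 β
    unfold H663.rsC at h1
    refine le_trans (le_of_eq ?_) h1
    rw [bfl_cob hl hN hξ]
    unfold H663.bE
    rw [← mulVec_smul, smul_smul, mul_comm (8 * (4 * (D : ℝ) + 1) ^ 2) c₀, ← mulVec_mulVec,
      ← mulVec_mulVec]
    rfl
  · intro β β' hs
    rw [bm_cob hl hξ, bm_cob hl hξ]
    have h1 := hj.S2 β β' hs
    have et : (((2 ^ s : ℕ)) : ℝ) / (((2 ^ (n - s) : ℕ) : ℝ) * ((2 ^ s : ℕ) : ℝ)) ^ 2 =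
        ((2 ^ s : ℕ) : ℝ) / ((2 ^ n : ℕ) : ℝ) ^ 2 := by
      rw [hξ]
      push_cast
      rfl
    rw [et] at h1
    have e : c₀ * (((2 ^ s : ℕ) : ℝ) / ((2 ^ n : ℕ) : ℝ) ^ 2 *
        ∑ w ∈ Bc (2 ^ r) (2 ^ s) (2 ^ (r - n)) (2 ^ (n - s)) β, (T *ᵥ j) w) -
        c₀ * (((2 ^ s : ℕ) : ℝ) / ((2 ^ n : ℕ) : ℝ) ^ 2 *
          ∑ w ∈ Bc (2 ^ r) (2 ^ s) (2 ^ (r - n)) (2 ^ (n - s)) β', (T *ᵥ j) w) =
        c₀ * (((2 ^ s : ℕ) : ℝ) / ((2 ^ n : ℕ) : ℝ) ^ 2 *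
          (∑ w ∈ Bc (2 ^ r) (2 ^ s) (2 ^ (r - n)) (2 ^ (n - s)) β, (T *ᵥ j) w -
            ∑ w ∈ Bc (2 ^ r) (2 ^ s) (2 ^ (r - n)) (2 ^ (n - s)) β', (T *ᵥ j) w)) := by ring
    rw [e, abs_mul, abs_of_pos hc₀]
    have h2 := mul_le_mul_of_nonneg_left h1 hc₀.le
    linarith
  · have e : ∑ z, (c₀ • ((cobV (2 ^ r) (2 ^ s))ᵀ *ᵥ (T *ᵥ j))) z = 0 := by
      have h1 : Neu (c₀ • ((cobV (2 ^ r) (2 ^ s))ᵀ *ᵥ (T *ᵥ j))) :=
        (H963.neu_cobV_tr hl hTn).smul _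
      exact h1
    rw [e, abs_zero]
    positivity
  · intro z
    have hlR : (0 : ℝ) < ((2 ^ s : ℕ) : ℝ) := by positivity
    rw [Pi.smul_apply, smul_eq_mul, cobV_tr_mulVec, abs_mul, abs_of_pos hc₀, abs_mul,
      abs_of_pos (inv_pos.2 hlR)]
    have h1 : |(T *ᵥ j) (cl z)| ≤ Lam := by
      refine abs_le_of_sq_le_sq ?_ hn.Lam0
      exact (Finset.single_le_sum (f := fun w => (T *ᵥ j) w ^ 2) (fun w _ => sq_nonneg _)
        (Finset.mem_univ (cl z))).trans hj.S4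
    have h2 : c₀ * ((((2 ^ s : ℕ) : ℝ))⁻¹ * |(T *ᵥ j) (cl z)|) ≤
        c₀ * ((((2 ^ s : ℕ) : ℝ))⁻¹ * Lam) :=
      mul_le_mul_of_nonneg_left (mul_le_mul_of_nonneg_left h1 (inv_pos.2 hlR).le) hc₀.le
    refine h2.trans (le_of_eq ?_)
    unfold H972.tn
    push_cast
    field_simp

section post

variable {P : Par} {b K2 K3 e₀ e : ℝ} {n r s : ℕ} [NeZero (2 ^ r / 2 ^ s)]

/-- **the bound at the posterior mass** `τ >= t`, amplitude `Q` -/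
theorem apt_tau (hb : 0 < b) (H : AptH P b K2 K3 e₀) (he : 0 < e) (hee : e ≤ e₀)
    (hR : RNG P b n r e) (hnr : n ≤ r) (hsn : s ≤ n) {τ : ℝ} (h : tn n ≤ τ) {D : ℕ}
    {Q L Lam δ X : ℝ} (hn : AptN K2 K3 e n r s D (2 * Q) L Lam δ X) (hAP : AP b n r s X (tn n) δ)
    {j : V (2 ^ r / 2 ^ s) → ℝ}
    (hj : AptB (2 ^ r) (2 ^ s) (2 ^ (r - n)) (2 ^ (n - s)) b (tn n)
      (Eop (2 ^ r) (2 ^ s) b (tn n) τ) (2 * Q * QD D) δ L Lam j) :
    Rs (nwt (2 ^ r) b τ 0) (Q • ((cobV (2 ^ r) (2 ^ s))ᵀ *ᵥ j)) ≤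
      e ^ (1 / 16 : ℝ) / 2 + Q ^ 2 * qf (Wt (2 ^ r) (2 ^ s) b (tn n) τ) j := by
  have ht0 : 0 < tn n := H789.tn_pos n
  have hl : 2 ^ s ∣ 2 ^ r := pow_dvd_pow 2 (hsn.trans hnr)
  have hT := tc_Eop (N := 2 ^ r) (l := 2 ^ s) hb hl ht0 h
  have hjn : Neu (Q • j) := hj.neu.smul _
  have hen : Neu (Eop (2 ^ r) (2 ^ s) b (tn n) τ *ᵥ (Q • j)) := by
    unfold H963.Neu at hjn ⊢
    rw [H663.ti_sum hT.ti, hjn, mul_zero]
  have h1 := H276.eta2 hb hl ht0 h hjn hen (η := e ^ (1 / 16 : ℝ))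
    (fun a' h0 h1 => by
      have h2 := H n r s e he hee hR hnr hsn (Eop (2 ^ r) (2 ^ s) b (tn n) τ) hT D (2 * Q) L Lam
        δ X hn hAP j hj a' (abs_le.2 ⟨by linarith, h1⟩)
      refine le_trans (le_of_eq ?_) h2
      congr 1
      funext x
      rw [Pi.add_apply, Pi.smul_apply, smul_eq_mul, mulVec_smul, mulVec_smul, Pi.smul_apply,
        smul_eq_mul, mul_assoc])
  rw [mulVec_smul, H37.qf_smul] at h1
  exact h1

/-- **the bound at the natural mass**, neutral model, amplitude `Q` -/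
theorem apt_one (hb : 0 < b) (H : AptH P b K2 K3 e₀) (he : 0 < e) (hee : e ≤ e₀)
    (hR : RNG P b n r e) (hnr : n ≤ r) (hsn : s ≤ n) {D : ℕ} {Q L Lam δ X : ℝ}
    (hn : AptN K2 K3 e n r s D Q L Lam δ X) (hAP : AP b n r s X (tn n) δ)
    {j : V (2 ^ r / 2 ^ s) → ℝ}
    (hj : AptB (2 ^ r) (2 ^ s) (2 ^ (r - n)) (2 ^ (n - s)) b (tn n) 1 (Q * QD D) δ L Lam j) :
    Rs (nwt (2 ^ r) b (tn n) 0) (Q • ((cobV (2 ^ r) (2 ^ s))ᵀ *ᵥ j)) ≤ e ^ (1 / 16 : ℝ) := by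
  have ht0 : 0 < tn n := H789.tn_pos n
  have hl : 2 ^ s ∣ 2 ^ r := pow_dvd_pow 2 (hsn.trans hnr)
  have hn' : Neu ((cobV (2 ^ r) (2 ^ s))ᵀ *ᵥ j) := H963.neu_cobV_tr hl hj.neu
  have h2 := H30.Rs_nwt_le (N := 2 ^ r) hb.le ht0 0
    (F := (Q / tn n) • ((cobV (2 ^ r) (2 ^ s))ᵀ *ᵥ j)) (hn'.smul _) (η := e ^ (1 / 16 : ℝ)) (by
      intro a' h0 h1
      have h3 := H n r s e he hee hR hnr hsn 1 TC.one D Q L Lam δ X hn hAP j hj a'
        (abs_le.2 ⟨by linarith, h1⟩)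
      refine le_trans (le_of_eq ?_) h3
      congr 1
      funext x
      rw [Matrix.one_mulVec]
      simp only [Pi.smul_apply, Pi.add_apply, smul_eq_mul]
      field_simp)
  have e1 : tn n • ((Q / tn n) • ((cobV (2 ^ r) (2 ^ s))ᵀ *ᵥ j)) =
      Q • ((cobV (2 ^ r) (2 ^ s))ᵀ *ᵥ j) := by
    rw [smul_smul, mul_div_cancel₀ _ ht0.ne']
  rw [e1] at h2
  exact h2

end post

end

end Vale.Agent.P159.H730
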