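import Vale.Agent.P159.H730.Apt0
import Vale.Agent.P159.H447.Cg9

/-!
P159 / module APT (helper730), part 1: the step of AP with closure on the neutral cell torus,
posterior `nwt N b T 0`, prior `wN N l b T s` (cells of side `l`, mass `s` on the cells).

* `bsrc` : the linear source `b` of the posterior, `e = b - Q G b`, `e = CNᵀ e0`;
* `apT` : any neutral source `CNᵀ e0`; `apT0` : source `0`; `gauT` : Gaussian reference.
The good set `S` only has to control NEUTRAL sources.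
-/

set_option linter.unusedSectionVars false

namespace Vale.Agent.P159.H730

open Finset Matrix MeasureTheory ProbabilityTheory
open Vale.Agent.P159.TM.H104 (EM Ex Cv K3 Lg li nh Gr)
open Vale.Agent.P159.H37
open Vale.Agent.P159.H663 (GC ind EGr.ind ind_nonneg ind_le_one Gm_ge)
open Vale.Agent.P159.H447 (K4S SN CN Gs cl K4S_cs K4S_rank K4_diag_nonneg K4_meas K4_tail_exp K4_smul4
  cl_mono cl_nonneg Ful)
open Vale.Agent.P159.TM.Spec (V)
open Vale.Agent.P159.TM.SpecC (wT)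
open Vale.Agent.P159.H963 (GrI Neu pin Pn nwt nMC obsN Gnc gw_wT mf_smul)
open Vale.Agent.P159.H859 (Sgn)

noncomputable section

/-- the source is neutral if the prior source is -/
lemma Ech_congr_neu' {V' I : Type*} [Fintype V'] [Fintype I] {P : Matrix I V' ℝ}
    (μ : (V' → ℤ) → ℝ) (hP : ∀ i, ∑ x, P i x = 0) {e : V' → ℝ} (he : Neu e)
    {Φ Ψ : (V' → ℝ) → ℝ} (h : ∀ J, Neu J → Φ J = Ψ J) : Ech μ e P Φ = Ech μ e P Ψ := by
  unfold Ech
  have e1 : ∀ g : I → ℝ, Φ (e + Pᵀ *ᵥ g) = Ψ (e + Pᵀ *ᵥ g) := fun g =>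
    h _ (Neu.add he (H963.Neu.obs hP g))
  simp_rw [e1]

lemma meas_neu {V' : Type*} [Fintype V'] : MeasurableSet {J : V' → ℝ | Neu J} := by
  have h1 : Measurable fun J : V' → ℝ => ∑ x, J x := by fun_prop
  exact measurableSet_eq_fun h1 measurable_const

section tor

variable {N l : ℕ} [NeZero N] [NeZero (N / l)] {b T s : ℝ}

/-- the linear source of the posterior of the prior source `CNᵀ e0` -/
def bsrc (N l : ℕ) [NeZero N] [NeZero (N / l)] (b T s : ℝ) (e0 : V (N / l) → ℝ) : V N → ℝ :=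
  (CN N l)ᵀ *ᵥ ((T - s)⁻¹ • (Sgn N l b T s *ᵥ e0))

lemma obs_CN (N l : ℕ) [NeZero N] [NeZero (N / l)] (q : ℝ) : obsN N l q = √q • CN N l := rfl

/-- `e = b - Q G b` -/
theorem bsrc_eq (hb : 0 < b) (hl : l ∣ N) (hs : 0 < s) (hsT : s < T) (e0 : V (N / l) → ℝ) :
    (CN N l)ᵀ *ᵥ e0 = bsrc N l b T s e0 - (obsN N l (T - s))ᵀ *ᵥ
      (obsN N l (T - s) *ᵥ (Gm (nwt N b T 0) *ᵥ bsrc N l b T s e0)) := by
  have hT : 0 < T := hs.trans hsT
  have hq : 0 < T - s := sub_pos.2 hsT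
  have hG : CN N l * Gm (nwt N b T 0) * (CN N l)ᵀ = Gnc N l b T T := H447.gm_CN hl
  set β : V (N / l) → ℝ := (T - s)⁻¹ • (Sgn N l b T s *ᵥ e0) with hβ
  have e1 : (obsN N l (T - s))ᵀ *ᵥ (obsN N l (T - s) *ᵥ (Gm (nwt N b T 0) *ᵥ bsrc N l b T s e0)) =
      (CN N l)ᵀ *ᵥ ((T - s) • (Gnc N l b T T *ᵥ β)) := by
    rw [obs_CN, transpose_smul, smul_mulVec, smul_mulVec, mulVec_smul, smul_smul,
      Real.mul_self_sqrt hq.le, mulVec_smul]
    unfold bsrc
    rw [← hβ, ← hG]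
    simp only [mulVec_mulVec, Matrix.mul_assoc]
  rw [e1]
  unfold bsrc
  rw [← hβ, ← mulVec_sub]
  congr 1
  -- `e0 = β - (T - s) G β`
  have hpd := (H859.dat_neu' (N := N) (l := l) hb hl hT).inv_pd hs hsT
  have hu := H859.pd_unit hpd
  have h2 : ((T - s)⁻¹ • (1 : Matrix (V (N / l)) (V (N / l)) ℝ) - Gnc N l b T T) *ᵥ
      (Sgn N l b T s *ᵥ e0) = e0 := by
    unfold Sgn H859.As
    rw [mulVec_mulVec, Matrix.mul_nonsing_inv _ hu, one_mulVec]
  conv_lhs => rw [← h2]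
  rw [Matrix.sub_mulVec, smul_mulVec, one_mulVec, hβ, mulVec_smul, smul_smul,
    mul_inv_cancel₀ hq.ne', one_smul]

/-- fourth cumulant of the reference law in terms of the cell functional -/
lemma K4S_ref (hb : 0 < b) (hl : l ∣ N) (hs : 0 < s) (hsT : s < T) {I : Type*} [Fintype I]
    {A : Matrix (V (N / l)) I ℝ} (hA : A * Aᵀ = Sgn N l b T s) :
    K4S (nwt N b T 0) (((CN N l)ᵀ * A) * ((CN N l)ᵀ * A)ᵀ)
      (((CN N l)ᵀ * A) * ((CN N l)ᵀ * A)ᵀ) ≤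
      (T ^ 2 / s) ^ 2 * K4S (nwt N b T 0) (SN N l) (SN N l) :=
  (Ful.mk hb hl hs hsT hA : Ful N l b T s A).K4

/-- a root of the covariance of the reference law -/
lemma exists_rt (hb : 0 < b) (hl : l ∣ N) (hs : 0 < s) (hsT : s < T) :
    ∃ A : Matrix (V (N / l)) (V (N / l)) ℝ, A * Aᵀ = Sgn N l b T s := by
  have hT : 0 < T := hs.trans hsT
  have h1 := ((H859.dat_neu' (N := N) (l := l) hb hl hT).pd hs hsT).posSemidef
  exact H859.exists_gram h1

lemma neu_src (hl : l ∣ N) (r : ℝ) (e0 : V (N / l) → ℝ) : Neu (r • ((CN N l)ᵀ *ᵥ e0)) := by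
  refine H963.Neu.smul _ ?_
  have h := H963.Neu.obs (P := CN N l) (fun c => CN_row hl c) e0
  exact h

lemma obs_row (hl : l ∣ N) (q : ℝ) (c : V (N / l)) : ∑ x, obsN N l q c x = 0 :=
  H963.obsN_row hl q c

/-- intersecting a set with the neutral sources does not change its exact probability -/
lemma Ech_neu_compl (hl : l ∣ N) (q r : ℝ) (e0 : V (N / l) → ℝ) (μ : (V N → ℤ) → ℝ)
    (S : Set (V N → ℝ)) :
    Ech μ (r • ((CN N l)ᵀ *ᵥ e0)) (obsN N l q) (ind (S ∩ {J | Neu J})ᶜ) =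
      Ech μ (r • ((CN N l)ᵀ *ᵥ e0)) (obsN N l q) (ind Sᶜ) := by
  refine Ech_congr_neu' μ (fun c => obs_row hl q c) (neu_src hl r e0) fun J hJ => ?_
  unfold ind
  by_cases hS : J ∈ S
  · have n1 : J ∉ (S ∩ {J | Neu J})ᶜ := fun h => h ⟨hS, hJ⟩
    have n2 : J ∉ Sᶜ := fun h => h hS
    rw [Set.indicator_of_notMem n1, Set.indicator_of_notMem n2]
  · have n1 : J ∈ (S ∩ {J | Neu J})ᶜ := fun h => hS h.1
    have n2 : J ∈ Sᶜ := hS
    rw [Set.indicator_of_mem n1, Set.indicator_of_mem n2]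

/-- **AP with closure at the neutral source `CNᵀ e0`** -/
theorem apT (hb : 0 < b) (hl : l ∣ N) (hs : 0 < s) (hsT : s < T) {S : Set (V N → ℝ)}
    (hS : MeasurableSet S) {n : ℕ}
    (hη : ∀ J ∈ S, Neu J → Rs (nwt N b T 0) ((2 : ℝ) ^ (n + 1) • J) ≤ 1) {D lam p q : ℝ}
    (e0 : V (N / l) → ℝ)
    (hpS : ∀ r ∈ Set.Icc (0 : ℝ) 1, Rs (wN N l b T s) (r • ((CN N l)ᵀ *ᵥ e0)) ≤ 1 →
      Ech (wN N l b T s) (r • ((CN N l)ᵀ *ᵥ e0)) (obsN N l (T - s)) (ind Sᶜ) ≤ p)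
    (hD : 0 < D) (hKS : (T ^ 2 / s) ^ 2 * K4S (nwt N b T 0) (SN N l) (SN N l) ≤ D)
    (hlam : 0 ≤ lam)
    (hb4 : K4 (nwt N b T 0) (bsrc N l b T s e0) (bsrc N l b T s e0) (bsrc N l b T s e0)
      (bsrc N l b T s e0) ≤ lam * D / 16)
    (hq : p + Real.exp 1 * (6 * Real.exp (-(√(lam / 16) / 10))) ≤ q) (hq1 : q ≤ 1 / 4)
    (hcl : cl n (8 * (lam * D)) ≤ 1 / 4) :
    ∀ r ∈ Set.Icc (0 : ℝ) 1,
      Rs (wN N l b T s) (r • ((CN N l)ᵀ *ᵥ e0)) ≤ cl n (8 * (lam * D)) + 2 * q ∧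
      Ech (wN N l b T s) (r • ((CN N l)ᵀ *ᵥ e0)) (obsN N l (T - s))
        (ind (Gs (nwt N b T 0) n (lam * D))ᶜ) ≤ q := by
  classical
  have hT : 0 < T := hs.trans hsT
  obtain ⟨A, hA⟩ := exists_rt (N := N) (l := l) hb hl hs hsT
  have hX := H447.rl_tor (N := N) hb.le hl hs hsT hA
  have hp := H447.post_wN (N := N) (l := l) (b := b) hl hsT.le
  have hmaj := H447.maj_nwt (N := N) hb.le hT 0
  have hE : Ev (post (wN N l b T s) (obsN N l (T - s))) := by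
    rw [hp]
    exact hmaj.ev
  have hK : PK (post (wN N l b T s) (obsN N l (T - s))) := by
    rw [hp]
    exact hmaj.pk
  have h1 := ap4s hX hE hK (b := bsrc N l b T s e0) (e := (CN N l)ᵀ *ᵥ e0)
    (by rw [hp]; exact bsrc_eq hb hl hs hsT e0) (hS.inter meas_neu) (n := n)
    (by
      intro J hJ
      rw [hp]
      exact hη J hJ.1 hJ.2)
    (D := D) (lam := lam) (p := p) (q := q)
    (by
      intro r hr hR
      rw [Ech_neu_compl hl]
      exact hpS r hr hR)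
    hD (by rw [hp]; exact (K4S_ref hb hl hs hsT hA).trans hKS) hlam (by rw [hp]; exact hb4) hq hq1
    hcl
  rw [hp] at h1
  exact h1

/-- **source `0`** -/
theorem apT0 (hb : 0 < b) (hl : l ∣ N) (hs : 0 < s) (hsT : s < T) {S : Set (V N → ℝ)}
    (hS : MeasurableSet S) {n : ℕ}
    (hη : ∀ J ∈ S, Neu J → Rs (nwt N b T 0) ((2 : ℝ) ^ (n + 1) • J) ≤ 1) {D lam p : ℝ}
    (hpS : Ech (wN N l b T s) 0 (obsN N l (T - s)) (ind Sᶜ) ≤ p)
    (hD : 0 < D) (hKS : (T ^ 2 / s) ^ 2 * K4S (nwt N b T 0) (SN N l) (SN N l) ≤ D)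
    (hlam : 0 ≤ lam) :
    Ech (wN N l b T s) 0 (obsN N l (T - s)) (ind (Gs (nwt N b T 0) n (lam * D))ᶜ) ≤
      p + Real.exp 1 * (6 * Real.exp (-(√(lam / 16) / 10))) := by
  classical
  have hT : 0 < T := hs.trans hsT
  obtain ⟨A, hA⟩ := exists_rt (N := N) (l := l) hb hl hs hsT
  have hX := H447.rl_tor (N := N) hb.le hl hs hsT hA
  have hp := H447.post_wN (N := N) (l := l) (b := b) hl hsT.le
  have hmaj := H447.maj_nwt (N := N) hb.le hT 0
  have hE : Ev (post (wN N l b T s) (obsN N l (T - s))) := by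
    rw [hp]
    exact hmaj.ev
  have hK : PK (post (wN N l b T s) (obsN N l (T - s))) := by
    rw [hp]
    exact hmaj.pk
  have h0 := Ech_neu_compl (N := N) (l := l) hl (T - s) 0 0 (wN N l b T s) S
  rw [zero_smul] at h0
  have h1 := ap0s hX hE hK (hS.inter meas_neu) (n := n)
    (by
      intro J hJ
      rw [hp]
      exact hη J hJ.1 hJ.2)
    (D := D) (lam := lam) (p := p) (by rw [h0]; exact hpS) hD
    (by rw [hp]; exact (K4S_ref hb hl hs hsT hA).trans hKS) hlam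
  rw [hp] at h1
  exact h1

/-- **the Gaussian reference law**: every set of exact probability `q` has Gaussian probability
at most `2 e^ρ q` -/
theorem gauT (hb : 0 < b) (hl : l ∣ N) (hs : 0 < s) (hsT : s < T) {I : Type*} [Fintype I]
    {A : Matrix (V (N / l)) I ℝ} (hA : A * Aᵀ = Sgn N l b T s) {G B : Set (V N → ℝ)}
    (hG : MeasurableSet G) (hB : MeasurableSet B) {ρ q : ℝ} (hR : ∀ J ∈ G, Rs (nwt N b T 0) J ≤ ρ)
    (hG2 : Ech (wN N l b T s) 0 (obsN N l (T - s)) (ind Gᶜ) ≤ 1 / 2)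
    (hq : Ech (wN N l b T s) 0 (obsN N l (T - s)) (ind B) ≤ q) :
    (gau I).real {g | ((CN N l)ᵀ * A) *ᵥ g ∈ B} ≤ 2 * Real.exp ρ * q := by
  have hX := H447.rl_tor (N := N) hb.le hl hs hsT hA
  have hp := H447.post_wN (N := N) (l := l) (b := b) hl hsT.le
  refine gau_of_exact hX hG hB (fun J hJ => ?_) hG2 hq
  rw [hp]
  exact hR J hJ

end tor

end

end Vale.Agent.P159.H730
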