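import Vale.Agent.P159.H730.Apt2
import Vale.Agent.P159.H816.Zs3
import Vale.Agent.P159.H276.Te4
import Vale.Agent.P159.H239.Typ

/-!
P159 / module APT (helper730), part 3: **TYP** = the class `clsG` (816) implies the bound (Apt2), and
its complement is unlikely under the exact law at zero source (816's `zs_good`), every prior `a`.

* `typ_tau` : `TypE` at the posterior mass `τ ∈ [t_n, 4 t_n]`, bound `e^(1/16) / 2 + Q² u`;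
* `typ_one` : `TypE` at the posterior mass `t_n`, bound `e^(1/16)`.
-/

set_option linter.unusedSectionVars false

namespace Vale.Agent.P159.H730

open Finset Matrix MeasureTheory
open Vale.Agent.P159.TM.H104 (EM Ex Cv K3 Lg li nh Gr)
open Vale.Agent.P159.H37
open Vale.Agent.P159.TM.Spec (V Rng)
open Vale.Agent.P159.TM.SpecC (wT)
open Vale.Agent.P159.TM.H459 (sd sn bk bk1 blk mem_blk)
open Vale.Agent.P159.H864 (TI sym cobV cl l_pos)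
open Vale.Agent.P159.H963 (Neu nwt nMC Gnc obsN Pn)
open Vale.Agent.P159.H859 (dB)
open Vale.Agent.P159.H663 (TC bE rsC)
open Vale.Agent.P159.H789 (ib bm bfl)
open Vale.Agent.P159.H276 (Eop Wt sqW)
open Vale.Agent.P159.H972 (AP RNG Par tn)
open Vale.Agent.P159.H816 (bS av clsG Cz)
open Vale.Agent.P159.H239 (TypE)

noncomputable section

section cls

variable {N l nb q : ℕ} [NeZero N] [NeZero (N / l)] [NeZero nb] {b t Q₁ δ L u Λ : ℝ}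
  {T W₃ : Matrix (V (N / l)) (V (N / l)) ℝ} {J : V N → ℝ}

lemma Bc_eq (β : ZMod nb × ZMod nb) : Bc N l nb q β = bS (N / l) nb q β := rfl

lemma neu_clsG (hl : l ∣ N) {Lip : ℝ} (h : J ∈ clsG N l b t Q₁ δ nb q T W₃ Lip u Λ) :
    Neu (cobV N l *ᵥ J) := by
  unfold H963.Neu
  have h6 := H816.clsG_rng h
  have h7 : ∑ x, J x = l * ∑ c, (cobV N l *ᵥ J) c := by
    conv_lhs => rw [← h6.1]
    exact H963.sum_cobV_tr hl _
  rw [h6.2] at h7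
  have hl0 : (l : ℝ) ≠ 0 := by exact_mod_cast (l_pos hl).ne'
  rcases mul_eq_zero.1 h7.symm with h8 | h8
  · exact absurd h8 hl0
  · exact h8

lemma av_dot (β : V nb) (v : V (N / l) → ℝ) :
    av (N / l) nb q β ⬝ᵥ v = 1 / (q : ℝ) ^ 2 * ∑ w ∈ bS (N / l) nb q β, v w := by
  unfold dotProduct H816.av
  simp only [H816.ib_eq]
  rw [Finset.mul_sum, ← Finset.sum_filter_add_sum_filter_not univ
    (fun c => c ∈ bS (N / l) nb q β)]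
  have h1 : ∑ x ∈ univ.filter (fun c => ¬ c ∈ bS (N / l) nb q β),
      1 / (q : ℝ) ^ 2 * (if x ∈ bS (N / l) nb q β then (1 : ℝ) else 0) * v x = 0 := by
    refine Finset.sum_eq_zero fun x hx => ?_
    rw [if_neg (Finset.mem_filter.1 hx).2]
    ring
  rw [h1, add_zero, Finset.filter_mem_eq_inter, Finset.univ_inter]
  refine Finset.sum_congr rfl fun x hx => ?_
  rw [if_pos hx]
  ring

/-- the class gives the block conditions -/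
theorem AptB.of_cls (hl : l ∣ N) (hq : 0 < q) (hT : TC T) (ht : 0 ≤ t) (hL : 0 ≤ L)
    (h : J ∈ clsG N l b t Q₁ δ nb q T W₃ (l * t * L) u Λ) :
    AptB N l nb q b t T Q₁ δ L Λ (cobV N l *ᵥ J) where
  neu := neu_clsG hl h
  S1 β := H816.clsG_rs h β
  S2 β β' hβ := by
    have hlR : (0 : ℝ) < l := by exact_mod_cast l_pos hl
    have hqR : (0 : ℝ) < q := by exact_mod_cast hq
    have h1 := H816.clsG_dif hT (by positivity) h hβ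
    rw [sub_dotProduct, av_dot, av_dot] at h1
    rw [Bc_eq, Bc_eq]
    set A := ∑ w ∈ bS (N / l) nb q β, (T *ᵥ (cobV N l *ᵥ J)) w
    set B := ∑ w ∈ bS (N / l) nb q β', (T *ᵥ (cobV N l *ᵥ J)) w
    have e1 : l / ((q : ℝ) * l) ^ 2 * (A - B) =
        (l : ℝ)⁻¹ * (1 / (q : ℝ) ^ 2 * A - 1 / (q : ℝ) ^ 2 * B) := by
      field_simp
    rw [e1, abs_mul, abs_of_pos (inv_pos.2 hlR)]
    calc (l : ℝ)⁻¹ * |1 / (q : ℝ) ^ 2 * A - 1 / (q : ℝ) ^ 2 * B| ≤ (l : ℝ)⁻¹ * (l * t * L) :=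
          mul_le_mul_of_nonneg_left h1 (inv_pos.2 hlR).le
      _ = t * L := by field_simp
  S4 := H816.clsG_nrm hl h

end cls

section typ

variable {P : Par} {b K2 K3 e₀ e : ℝ} {n r s : ℕ} [NeZero (2 ^ r / 2 ^ s)]

/-- the class lies in the good set, posterior mass `τ` -/
theorem cls_tau (hb : 0 < b) (H : AptH P b K2 K3 e₀) (he : 0 < e) (hee : e ≤ e₀)
    (hR : RNG P b n r e) (hnr : n ≤ r) (hsn : s ≤ n) {τ : ℝ} (h1 : tn n ≤ τ) {D : ℕ}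
    {Q L Λ δ X u : ℝ} (hn : AptN K2 K3 e n r s D (2 * Q) L Λ δ X) (hAP : AP b n r s X (tn n) δ)
    {J : V (2 ^ r) → ℝ}
    (hJ : J ∈ clsG (2 ^ r) (2 ^ s) b (tn n) (2 * Q * QD D) δ (2 ^ (r - n)) (2 ^ (n - s))
      (Eop (2 ^ r) (2 ^ s) b (tn n) τ) (sqW (2 ^ r) (2 ^ s) b (tn n) τ) (2 ^ s * tn n * L) u Λ) :
    Rs (nwt (2 ^ r) b τ 0) (Q • J) ≤ e ^ (1 / 16 : ℝ) / 2 + Q ^ 2 * u := by
  have ht0 : 0 < tn n := H789.tn_pos n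
  have hl : 2 ^ s ∣ 2 ^ r := pow_dvd_pow 2 (hsn.trans hnr)
  have hT := tc_Eop (N := 2 ^ r) (l := 2 ^ s) hb hl ht0 h1
  have hJ' : J ∈ clsG (2 ^ r) (2 ^ s) b (tn n) (2 * Q * QD D) δ (2 ^ (r - n)) (2 ^ (n - s))
      (Eop (2 ^ r) (2 ^ s) b (tn n) τ) (sqW (2 ^ r) (2 ^ s) b (tn n) τ)
      (((2 ^ s : ℕ) : ℝ) * tn n * L) u Λ := by
    push_cast
    exact hJ
  have h2 := AptB.of_cls hl (by positivity) hT ht0.le hn.L0 hJ'
  have h3 := apt_tau hb H he hee hR hnr hsn h1 hn hAP h2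
  rw [(H816.clsG_rng hJ).1] at h3
  refine h3.trans ?_
  have h4 : qf (Wt (2 ^ r) (2 ^ s) b (tn n) τ) (cobV (2 ^ r) (2 ^ s) *ᵥ J) ≤ u := by
    rw [← H276.sq_sqW hb hl ht0 h1]
    exact H816.clsG_quad hJ
  have h5 := mul_le_mul_of_nonneg_left h4 (sq_nonneg Q)
  linarith

/-- the class lies in the good set, natural mass -/
theorem cls_one (hb : 0 < b) (H : AptH P b K2 K3 e₀) (he : 0 < e) (hee : e ≤ e₀)
    (hR : RNG P b n r e) (hnr : n ≤ r) (hsn : s ≤ n) {D : ℕ}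
    {Q L Λ δ X u : ℝ} (hn : AptN K2 K3 e n r s D Q L Λ δ X) (hAP : AP b n r s X (tn n) δ)
    {W₃ : Matrix (V (2 ^ r / 2 ^ s)) (V (2 ^ r / 2 ^ s)) ℝ} {J : V (2 ^ r) → ℝ}
    (hJ : J ∈ clsG (2 ^ r) (2 ^ s) b (tn n) (Q * QD D) δ (2 ^ (r - n)) (2 ^ (n - s)) 1 W₃
      (2 ^ s * tn n * L) u Λ) :
    Rs (nwt (2 ^ r) b (tn n) 0) (Q • J) ≤ e ^ (1 / 16 : ℝ) := by
  have ht0 : 0 < tn n := H789.tn_pos n
  have hl : 2 ^ s ∣ 2 ^ r := pow_dvd_pow 2 (hsn.trans hnr)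
  have hJ' : J ∈ clsG (2 ^ r) (2 ^ s) b (tn n) (Q * QD D) δ (2 ^ (r - n)) (2 ^ (n - s)) 1 W₃
      (((2 ^ s : ℕ) : ℝ) * tn n * L) u Λ := by
    push_cast
    exact hJ
  have h2 := AptB.of_cls hl (by positivity) TC.one ht0.le hn.L0 hJ'
  have h3 := apt_one hb H he hee hR hnr hsn hn hAP h2
  rwa [(H816.clsG_rng hJ).1] at h3

/-- the numeric hypotheses of 816's `zs_good` -/
structure ZsN (b : ℝ) (n r s : ℕ) (X Q₁ L u w Λ Y : ℝ) : Prop where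
  w0 : 0 < w
  Q1 : 1 ≤ Q₁
  QX : 6 * Q₁ ≤ X
  Y0 : 0 ≤ Y
  u0 : 0 ≤ u
  X2 : Cz b * Q₁ ^ 2 * (Y + 1 + ((r - s : ℕ) : ℝ)) ≤ X ^ 2
  L2 : Cz b * (1 + ((r - s : ℕ) : ℝ)) * (Y + 1) ≤ L ^ 2
  u2 : Cz b * ((2 : ℝ) ^ (r - n)) ^ 2 * (tn n * w) * (Y + 1) ≤ u
  Λ2 : Cz b * (((2 : ℝ) ^ (r - n)) ^ 2 * (Y + 1 + ((r - s : ℕ) : ℝ)) +
    ((2 : ℝ) ^ (r - s)) ^ 2) ≤ Λ ^ 2
  s1 : Cz b * (3 + r) * ((2 : ℝ) ^ (r - n)) ^ 4 * (X ^ 2 + ((2 : ℝ) ^ (r - s)) ^ 2) ≤ 4 ^ n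
  s2 : Cz b * (3 + r) * ((2 : ℝ) ^ (r - n)) ^ 4 * (L ^ 2 + 1) ≤ 4 ^ s
  s3 : Cz b * (3 + r) * ((2 : ℝ) ^ (r - n)) ^ 4 *
    (u / (tn n * w) + Λ ^ 2 + ((2 : ℝ) ^ (r - s)) ^ 2) ≤ 4 ^ r

/-- **TYP at the posterior mass `τ`, every prior** -/
theorem typ_tau (hb : 0 < b) (H : AptH P b K2 K3 e₀) (he : 0 < e) (hee : e ≤ e₀)
    (hR : RNG P b n r e) (hnr : n ≤ r) (hsn : s ≤ n) {τ : ℝ} (h1 : tn n ≤ τ) (h4 : τ ≤ 4 * tn n)
    {D : ℕ} {Q L Λ δ X u w Y a : ℝ} (hn : AptN K2 K3 e n r s D (2 * Q) L (√(tn n) * Λ) δ X)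
    (hz : ZsN b n r s X (2 * Q * QD D) L u w Λ Y) (hAP : AP b n r s X (tn n) δ)
    (hw : (Wt (2 ^ r) (2 ^ s) b (tn n) τ).trace ≤ w) (ha : 0 < a) (haτ : a < τ) :
    TypE (2 ^ r) (2 ^ s) b τ a Q (e ^ (1 / 16 : ℝ) / 2 + Q ^ 2 * u)
      (13 * ((2 : ℝ) ^ (r - n)) ^ 4 * Real.exp (-Y)) := by
  have ht0 : 0 < tn n := H789.tn_pos n
  have hτ : 0 < τ := ha.trans haτ
  have hl : 2 ^ s ∣ 2 ^ r := pow_dvd_pow 2 (hsn.trans hnr)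
  have hT := tc_Eop (N := 2 ^ r) (l := 2 ^ s) hb hl ht0 h1
  have h2 := H816.zs_good (n := n) (r := r) (s := s) hb.le hsn hnr h1 h4 ha haτ 0 hT
    (W₃ := sqW (2 ^ r) (2 ^ s) b (tn n) τ) (H276.neu_sqW hb hl ht0 h1) hz.w0
    (by rw [H276.tr_sqW hb hl ht0 h1]; exact hw) hn.δ0 hz.Q1 hz.QX hz.Y0 hz.u0 hAP hz.X2 hz.L2
    hz.u2 hz.Λ2 hz.s1 hz.s2 hz.s3
  have hE : EM (wN (2 ^ r) (2 ^ s) b τ a) := H963.em_nMC hb.le hl ha haτ.le 0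
  have hM : MeasurableSet (clsG (2 ^ r) (2 ^ s) b (tn n) (2 * Q * QD D) δ (2 ^ (r - n))
      (2 ^ (n - s)) (Eop (2 ^ r) (2 ^ s) b (tn n) τ) (sqW (2 ^ r) (2 ^ s) b (tn n) τ)
      (2 ^ s * tn n * L) u (√(tn n) * Λ)) := H816.clsG_meas hb.le ht0
  unfold H239.TypE
  refine (H239.Ech_set_mono hE 0 _ (H239.typ_meas hb.le hτ _ _).compl hM.compl
    (Set.compl_subset_compl.2 fun J hJ => ?_)).trans h2
  exact cls_tau hb H he hee hR hnr hsn h1 hn hAP hJ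

/-- **TYP at the natural mass, every prior** -/
theorem typ_one (hb : 0 < b) (H : AptH P b K2 K3 e₀) (he : 0 < e) (hee : e ≤ e₀)
    (hR : RNG P b n r e) (hnr : n ≤ r) (hsn : s ≤ n)
    {D : ℕ} {Q L Λ δ X u w Y a : ℝ} (hn : AptN K2 K3 e n r s D Q L (√(tn n) * Λ) δ X)
    (hz : ZsN b n r s X (Q * QD D) L u w Λ Y) (hAP : AP b n r s X (tn n) δ)
    (ha : 0 < a) (haτ : a < tn n) :
    TypE (2 ^ r) (2 ^ s) b (tn n) a Q (e ^ (1 / 16 : ℝ))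
      (13 * ((2 : ℝ) ^ (r - n)) ^ 4 * Real.exp (-Y)) := by
  have ht0 : 0 < tn n := H789.tn_pos n
  have hl : 2 ^ s ∣ 2 ^ r := pow_dvd_pow 2 (hsn.trans hnr)
  have h2 := H816.zs_good (n := n) (r := r) (s := s) hb.le hsn hnr le_rfl
    (by linarith) ha haτ 0 TC.one (W₃ := 0) (fun x => by
      unfold H963.Neu
      simp) hz.w0 (by
      rw [Matrix.zero_mul, Matrix.trace_zero]
      exact hz.w0.le) hn.δ0 hz.Q1 hz.QX hz.Y0 hz.u0 hAP hz.X2 hz.L2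
    hz.u2 hz.Λ2 hz.s1 hz.s2 hz.s3
  have hE : EM (wN (2 ^ r) (2 ^ s) b (tn n) a) := H963.em_nMC hb.le hl ha haτ.le 0
  have hM : MeasurableSet (clsG (2 ^ r) (2 ^ s) b (tn n) (Q * QD D) δ (2 ^ (r - n))
      (2 ^ (n - s)) 1 (0 : Matrix (V (2 ^ r / 2 ^ s)) (V (2 ^ r / 2 ^ s)) ℝ)
      (2 ^ s * tn n * L) u (√(tn n) * Λ)) := H816.clsG_meas hb.le ht0
  unfold H239.TypE
  refine (H239.Ech_set_mono hE 0 _ (H239.typ_meas hb.le ht0 _ _).compl hM.compl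
    (Set.compl_subset_compl.2 fun J hJ => ?_)).trans h2
  exact cls_one hb H he hee hR hnr hsn hn hAP hJ

end typ

end

end Vale.Agent.P159.H730
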