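import Vale.Agent.P159.H859.NeuE
import Vale.Agent.P159.H513.Cor2
import Vale.Agent.P159.H963.NeuI

/-!
P159 / LINKW# (helper730): the pointwise lower bound of the neutral self energy by the block
stiffness (neutral form of helper513's `pik_ge`).
-/

open Finset Matrix

namespace Vale.Agent.P159.H730

open Vale.Agent.P159.TM.Spec (V)
open Vale.Agent.P159.TM.SpecC (Tor wT)
open Vale.Agent.P159.TM.H764 (EE cN sN dt)
open Vale.Agent.P159.TM.H859 (dirE)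
open Vale.Agent.P159.H37 (qf Gm)
open Vale.Agent.P159.H864 (lapM TI sym)
open Vale.Agent.P159.H963 (Pin Gnh nwt ntr Neu MF nM)
open Vale.Agent.P159.H513 (Sl)

variable {N n l : ℕ} [NeZero N] {b : ℝ}

/-- the covariance of the neutral model on a gradient source -/
theorem gmn_grad (hN : N = n * l) (hb : 0 ≤ b) (hl : 1 ≤ l) {M : Matrix (Tor N) (Tor N) ℝ}
    {m : ℝ} (hM : MF M m) (x₀ : Tor N) (J ψ : Tor N → ℝ) (hψ : Neu ψ) (a : ℝ)
    (hJ : J = M *ᵥ ψ + a • (lapM *ᵥ ψ)) {η : ℝ} (hη : 0 < η) :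
    qf (Gm (nM (wT b N) M m x₀)) J ≤ qf M ψ + (1 + η) * (stiff l b * (a ^ 2 * dirE ψ)) +
      (1 + 1 / η) * (16 * b * (l : ℝ) ^ 2 * (a ^ 2 * ∑ x, (lapM *ᵥ ψ) x ^ 2)) := by
  have h := H859.gmn_blocks hN hb hl hM x₀ J ψ (fun x t => a * H513.gF ψ x t) (fun x => by
    rw [hJ, H963.ntr_of_neu M m hψ, H513.dvT_smul, H513.dvT_gF]
    rfl) hη
  rw [H963.qf_ntr_neu M m hψ] at h
  refine h.trans ?_
  have h1 : H513.nC (fun x t => a * H513.gF ψ x t) = a ^ 2 * dirE ψ := by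
    rw [← H513.nC_gF]
    unfold H513.nC
    rw [Finset.mul_sum]
    exact Finset.sum_congr rfl fun x _ => by ring
  have h2 := H513.sum_oK_le hN hl (fun x t => a * H513.gF ψ x t)
  have h3 : ∀ t, dirE (fun x => a * H513.gF ψ x t) = a ^ 2 * dirE (fun x => H513.gF ψ x t) := by
    intro t
    unfold TM.H859.dirE
    rw [Finset.mul_sum]
    exact Finset.sum_congr rfl fun x _ => by ring
  rw [h3, h3, ← mul_add, H513.dirE_gF] at h2
  rw [h1]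
  have h4 : 0 ≤ 1 + 1 / η := by positivity
  have h5 := mul_le_mul_of_nonneg_left (mul_le_mul_of_nonneg_left h2 hb) h4
  linarith

/-- **the pointwise block bound, neutral model** -/
theorem pin_stiff (hN : N = n * l) (hb : 0 < b) (hl : 1 ≤ l) {t : ℝ} (ht : 0 < t) {η : ℝ}
    (hη : 0 < η) {k : V N} (hk : k ≠ 0) :
    EE k / ((1 + η) * stiff l b + (1 + 1 / η) * (16 * b * (l : ℝ) ^ 2 * EE k)) ≤ Pin N b t k := by
  have hN2 : (0 : ℝ) < (N : ℝ) ^ 2 := H864.N_pos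
  have hstiff : 0 ≤ stiff l b := UJ.h3_stiff_nonneg hb hl
  have hl0 : (0 : ℝ) < l := by exact_mod_cast hl
  rcases (TM.H764.EE_nonneg k).eq_or_lt with hE | hE
  · rw [← hE, zero_div]
    exact H963.Pin_nonneg hb ht hk
  obtain ⟨S, hSd⟩ : ∃ S : ℝ, S = (1 + η) * stiff l b + (1 + 1 / η) *
    (16 * b * (l : ℝ) ^ 2 * EE k) := ⟨_, rfl⟩
  have hS : 0 < S := by rw [hSd]; positivity
  rw [← hSd]
  obtain ⟨r, hr⟩ : ∃ r : ℝ, r = t + EE k / S := ⟨_, rfl⟩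
  have hr0 : 0 < r := by rw [hr]; positivity
  have key : ∀ v : V N → ℝ, Neu v → lapM *ᵥ v = EE k • v →
      qf (Gm (nwt N b t 0)) v ≤ r⁻¹ * ∑ x, v x ^ 2 := by
    intro v hv hv2
    have h := gmn_grad hN hb.le hl (H963.mf_smul (N := N) ht) 0 v (r⁻¹ • v)
      (H963.Neu.smul _ hv) S⁻¹ (by
      rw [Matrix.mulVec_smul, Matrix.mulVec_smul, Matrix.smul_mulVec, Matrix.one_mulVec, hv2,
        smul_smul, smul_smul, smul_smul, ← add_smul]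
      have : r⁻¹ * t + S⁻¹ * r⁻¹ * EE k = 1 := by
        rw [hr]
        field_simp
      rw [this, one_smul]) hη
    refine h.trans (le_of_eq ?_)
    have e1 : qf (t • (1 : Matrix (Tor N) (Tor N) ℝ)) (r⁻¹ • v) =
        r⁻¹ ^ 2 * (t * ∑ x, v x ^ 2) := by
      rw [H37.qf_smul, H37.qf_smul_one]
    have e2 : dirE (r⁻¹ • v) = r⁻¹ ^ 2 * (EE k * ∑ x, v x ^ 2) := by
      rw [← H513.qf_lapM', H37.qf_smul, H37.qf_eq, hv2, dotProduct_smul, smul_eq_mul]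
      congr 2
      unfold dotProduct
      exact Finset.sum_congr rfl fun x _ => by ring
    have e3 : ∑ x, (lapM *ᵥ (r⁻¹ • v)) x ^ 2 = r⁻¹ ^ 2 * (EE k ^ 2 * ∑ x, v x ^ 2) := by
      rw [Matrix.mulVec_smul, hv2, Finset.mul_sum, Finset.mul_sum]
      refine Finset.sum_congr rfl fun x _ => ?_
      simp only [Pi.smul_apply, smul_eq_mul]
      ring
    rw [e1, e2, e3]
    have e4 : (1 + η) * (stiff l b * (S⁻¹ ^ 2 * (r⁻¹ ^ 2 * (EE k * ∑ x, v x ^ 2)))) +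
        (1 + 1 / η) * (16 * b * (l : ℝ) ^ 2 * (S⁻¹ ^ 2 * (r⁻¹ ^ 2 *
          (EE k ^ 2 * ∑ x, v x ^ 2)))) =
        S * (S⁻¹ ^ 2 * (r⁻¹ ^ 2 * (EE k * ∑ x, v x ^ 2))) := by
      rw [hSd]
      ring
    have e5 : t + S⁻¹ * EE k = r := by
      rw [hr]
      ring
    have e6 : S * (S⁻¹ ^ 2 * (r⁻¹ ^ 2 * (EE k * ∑ x, v x ^ 2))) =
        r⁻¹ ^ 2 * (S⁻¹ * EE k) * ∑ x, v x ^ 2 := by
      field_simp
    rw [add_assoc, e4, e6]
    have e7 : r⁻¹ ^ 2 * (t * ∑ x, v x ^ 2) + r⁻¹ ^ 2 * (S⁻¹ * EE k) * ∑ x, v x ^ 2 =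
        r⁻¹ ^ 2 * (t + S⁻¹ * EE k) * ∑ x, v x ^ 2 := by ring
    rw [e7, e5]
    field_simp
  have h1 := H963.qf_Gnh_wave (N := N) hb.le ht hk
  have h6 := key (fun x => cN (dt k x)) (H963.neu_cN hk) (by
    rw [H864.ti_lapM.mulVec_cN k, H864.sym_lapM])
  have h7 := key (fun x => sN (dt k x)) (H963.neu_sN k) (by
    rw [H864.ti_lapM.mulVec_sN k, H864.sym_lapM])
  have h4 := TM.H764.sq_wave k
  have h8 : (N : ℝ) ^ 2 * Gnh N b t k ≤ (N : ℝ) ^ 2 * r⁻¹ := by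
    rw [h1]
    calc _ ≤ r⁻¹ * ∑ x, cN (dt k x) ^ 2 + r⁻¹ * ∑ x, sN (dt k x) ^ 2 := add_le_add h6 h7
      _ = (N : ℝ) ^ 2 * r⁻¹ := by rw [← mul_add, h4]; ring
  have h9 : Gnh N b t k ≤ r⁻¹ := le_of_mul_le_mul_left h8 hN2
  have h0 := H963.Gnh_pos (N := N) hb ht hk
  have h2 : r ≤ (Gnh N b t k)⁻¹ := by
    rw [le_inv_comm₀ hr0 h0]
    exact h9
  unfold H963.Pin
  linarith

end Vale.Agent.P159.H730
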