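import Vale.Agent.P159.H972.Lk2
import Vale.Agent.P159.H730.Pst

/-!
P159 / LINKW# (helper730): the lower half: the block stiffness of side `2 ^ i` from one mode of the
flat profile at the level `n = i + 3 log i`.
-/

open Filter Topology

namespace Vale.Agent.P159.H730

open Vale.Agent.P159.TM.Spec (V)
open Vale.Agent.P159.TM.H764 (EE cN)
open Vale.Agent.P159.H972 (Par Good YBn FL tn tn_pos Chn)
open Vale.Agent.P159.H963 (Pin)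

/-- one mode at the mass of the level -/
lemma mode_ex {n r : ℕ} (hn : 1 ≤ n) (hr : n ≤ r) :
    ∃ k : V (2 ^ r), k ≠ 0 ∧ 16 * tn n ≤ EE k ∧ EE k ≤ 40 * tn n := by
  have hlt : 2 ^ (r - n) < 2 ^ r := Nat.pow_lt_pow_right (by norm_num) (by omega)
  have hval : (((2 ^ (r - n) : ℕ) : ZMod (2 ^ r))).val = 2 ^ (r - n) := by
    rw [ZMod.val_natCast, Nat.mod_eq_of_lt hlt]
  have hne : ((2 ^ (r - n) : ℕ) : ZMod (2 ^ r)) ≠ 0 := by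
    intro h0
    rw [h0, ZMod.val_zero] at hval
    have : 0 < 2 ^ (r - n) := by positivity
    omega
  obtain ⟨x, hx⟩ : ∃ x : ℝ, x = Real.pi / 2 ^ n := ⟨_, rfl⟩
  have h2n : (2 : ℝ) ≤ 2 ^ n := by
    calc (2 : ℝ) = 2 ^ 1 := (pow_one _).symm
      _ ≤ 2 ^ n := pow_le_pow_right₀ one_le_two hn
  have hpi := Real.pi_pos
  have hx0 : 0 ≤ x := by rw [hx]; positivity
  have hx1 : x ≤ Real.pi / 2 := by
    rw [hx]
    exact div_le_div_of_nonneg_left hpi.le two_pos h2n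
  have ht : tn n = 1 / (2 ^ n) ^ 2 := by
    unfold H972.tn
    rw [← pow_mul, mul_comm, pow_mul]
    norm_num
  have hE : EE (((2 ^ (r - n) : ℕ) : ZMod (2 ^ r)), (0 : ZMod (2 ^ r))) = 4 * Real.sin x ^ 2 := by
    unfold EE TM.H764.cN
    rw [hval, ZMod.val_zero]
    have e1 : 2 * Real.pi * ((2 ^ (r - n) : ℕ) : ℝ) / ((2 ^ r : ℕ) : ℝ) = 2 * x := by
      have e2 : (2 : ℝ) ^ r = 2 ^ (r - n) * 2 ^ n := by
        rw [← pow_add, Nat.sub_add_cancel hr]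
      rw [hx]
      push_cast
      rw [e2]
      field_simp
    rw [e1, Real.cos_two_mul, Real.cos_sq']
    simp
    ring
  refine ⟨(((2 ^ (r - n) : ℕ) : ZMod (2 ^ r)), (0 : ZMod (2 ^ r))), ?_, ?_, ?_⟩
  · intro h0
    exact hne (congrArg Prod.fst h0)
  · rw [hE, ht]
    have h1 := Real.mul_le_sin hx0 hx1
    have h3 : 2 / Real.pi * x = 2 / 2 ^ n := by
      rw [hx]
      field_simp
    rw [h3] at h1
    have h4 : (0 : ℝ) ≤ 2 / 2 ^ n := by positivity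
    have h5 : (2 / 2 ^ n : ℝ) ^ 2 ≤ Real.sin x ^ 2 := pow_le_pow_left₀ h4 h1 2
    have e : 16 * (1 / (2 ^ n) ^ 2 : ℝ) = 4 * (2 / 2 ^ n) ^ 2 := by
      rw [div_pow]
      ring
    rw [e]
    linarith
  · rw [hE, ht]
    have h1 := Real.sin_le hx0
    have h2 : 0 ≤ Real.sin x := Real.sin_nonneg_of_nonneg_of_le_pi hx0 (by linarith)
    have h3 : Real.sin x ^ 2 ≤ x ^ 2 := pow_le_pow_left₀ h2 h1 2
    have h4 : x ^ 2 = Real.pi ^ 2 * (1 / (2 ^ n) ^ 2) := by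
      rw [hx, div_pow]
      ring
    have h5 : Real.pi ^ 2 ≤ 10 := by
      have := Real.pi_lt_d2
      nlinarith
    have h6 : (0 : ℝ) < 1 / (2 ^ n) ^ 2 := by positivity
    nlinarith

/-- numbers -/
lemma low_num {S a a' η z E t h δ P : ℝ} (hS : 0 ≤ S) (ha : 1 ≤ a) (ht : 0 < t) (hη : 0 ≤ η)
    (hh : 0 ≤ h) (hδ : 0 < δ) (hlow : E / ((1 + h) * S + δ) ≤ P)
    (hup : |P - z - a' * E| ≤ η * E ^ 2 / t) (haa : |a' - a| ≤ η) (hz : z ≤ η * t)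
    (h1 : 16 * t ≤ E) (h2 : E ≤ 40 * t) : a⁻¹ - (42 * η + δ + h) ≤ S := by
  have hE : 0 < E := by linarith
  have h3 : η * E ^ 2 / t ≤ 40 * η * E := by
    rw [div_le_iff₀ ht]
    have : η * E * E ≤ η * E * (40 * t) := mul_le_mul_of_nonneg_left h2 (by positivity)
    nlinarith
  have h4 : P ≤ (a + 42 * η) * E := by
    have h5 := (abs_le.1 hup).2
    have h6 := (abs_le.1 haa).2
    have h7 : (a' - a) * E ≤ η * E := mul_le_mul_of_nonneg_right h6 hE.le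
    have h8 : η * t ≤ η * E := mul_le_mul_of_nonneg_left (by linarith) hη
    nlinarith
  have ha0 : 0 < a := by linarith
  have hA : 0 < a + 42 * η := by positivity
  have h0 : 0 < (1 + h) * S + δ := by positivity
  have h5 : E ≤ (a + 42 * η) * E * ((1 + h) * S + δ) := by
    rw [div_le_iff₀ h0] at hlow
    exact hlow.trans (mul_le_mul_of_nonneg_right h4 h0.le)
  have h6 : 1 ≤ (a + 42 * η) * ((1 + h) * S + δ) := by
    have h7 : E * 1 ≤ E * ((a + 42 * η) * ((1 + h) * S + δ)) := by linarith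
    exact le_of_mul_le_mul_left h7 hE
  have h8 : a⁻¹ ≤ 1 := inv_le_one_of_one_le₀ ha
  have h9 : a⁻¹ * a = 1 := inv_mul_cancel₀ ha0.ne'
  have hi : 0 < a⁻¹ := inv_pos.2 ha0
  obtain ⟨T, hT⟩ : ∃ T, T = (1 + h) * S + δ := ⟨_, rfl⟩
  rw [← hT] at h6 h0
  -- a⁻¹ ≤ T + 42 η
  have h10 : a⁻¹ ≤ T + 42 * η := by
    by_cases hT1 : T ≤ 1
    · have h11 : a⁻¹ * 1 ≤ a⁻¹ * ((a + 42 * η) * T) := mul_le_mul_of_nonneg_left h6 hi.le
      have h12 : a⁻¹ * ((a + 42 * η) * T) = T + a⁻¹ * (42 * η * T) := by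
        rw [add_mul, mul_add, ← mul_assoc a⁻¹ a T, h9, one_mul]
      have h13 : a⁻¹ * (42 * η * T) ≤ 1 * (42 * η * 1) := by
        gcongr
      linarith
    · push Not at hT1
      have : 0 ≤ 42 * η := by positivity
      linarith
  by_cases hS1 : S ≤ 1
  · have : h * S ≤ h * 1 := mul_le_mul_of_nonneg_left hS1 hh
    nlinarith
  · push Not at hS1
    nlinarith

/-- **the lower half of LINKW#** from the pointwise block bound `hpin` -/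
theorem stiff_lo {P : Par} {b s : ℝ} {N0 : ℕ} {ε Y a : ℕ → ℝ} (h : Chn P b s N0 ε Y a)
    (hpf : 4 / 5 ≤ s * P.pf)
    (hpin : ∀ (N n l : ℕ) [NeZero N], N = n * l → 1 ≤ l → ∀ t h : ℝ, 0 < t → 0 < h →
      ∀ k : V N, k ≠ 0 →
        EE k / ((1 + h) * stiff l b + (1 + 1 / h) * (16 * b * (l : ℝ) ^ 2 * EE k)) ≤ Pin N b t k) :
    ∃ q : ℕ, ∀ᶠ u : ℕ in atTop,
      1 / a (u + q * Nat.clog 2 u) - (u : ℝ) ^ (-(11 / 10 : ℝ)) ≤ stiff (2 ^ u) b := by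
  have hb := h.hb
  have hs := h.s1
  have hpf0 : 0 < P.pf := by
    by_contra h0
    have h1 : s * P.pf ≤ 0 := mul_nonpos_of_nonneg_of_nonpos (by linarith) (not_lt.1 h0)
    linarith
  refine ⟨3, ?_⟩
  -- the error is small
  have hlim : Tendsto (fun u : ℕ => 714 * (u : ℝ) ^ (-(1 / 2 : ℝ)) +
      1280 * b * (u : ℝ) ^ (-(1 : ℝ)) + (u : ℝ) ^ (-(1 / 2 : ℝ))) atTop (𝓝 0) := by
    have e1 : Tendsto (fun u : ℕ => (u : ℝ) ^ (-(1 / 2 : ℝ))) atTop (𝓝 0) :=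
      (tendsto_rpow_neg_atTop (by norm_num)).comp tendsto_natCast_atTop_atTop
    have e2 : Tendsto (fun u : ℕ => (u : ℝ) ^ (-(1 : ℝ))) atTop (𝓝 0) :=
      (tendsto_rpow_neg_atTop (by norm_num)).comp tendsto_natCast_atTop_atTop
    have := ((e1.const_mul 714).add (e2.const_mul (1280 * b))).add e1
    simpa using this
  filter_upwards [eventually_ge_atTop N0, eventually_ge_atTop 4,
    hlim.eventually (gt_mem_nhds (show (0 : ℝ) < 1 by norm_num))] with u hu0 hu4 hsm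
  obtain ⟨n, hn⟩ : ∃ n, n = u + 3 * Nat.clog 2 u := ⟨_, rfl⟩
  rw [← hn]
  have hun : u ≤ n := by omega
  have hn0 : N0 ≤ n := hu0.trans hun
  have hu1 : (1 : ℝ) ≤ u := by exact_mod_cast (by omega : 1 ≤ u)
  have hu0' : (0 : ℝ) < u := by linarith
  have hnR : (u : ℝ) ≤ n := by exact_mod_cast hun
  have hε := h.εpos hn0
  -- the torus
  obtain ⟨r, hr⟩ : ∃ r, r = n + P.kE (ε n) := ⟨_, rfl⟩
  have hTT : P.TT n (ε n) r := ⟨hr.ge, by rw [hr]; exact Nat.le_add_right _ _⟩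
  have hnr : n ≤ r := by omega
  obtain ⟨z, a', hz0, hzN, haa, hfl⟩ := h.fl n hn0 r hTT
  obtain ⟨k, hk, hk1, hk2⟩ := mode_ex (n := n) (r := r) (by omega) hnr
  have htn := tn_pos n
  obtain ⟨η, hη⟩ : ∃ η, η = 17 * ε n ^ P.pf := ⟨_, rfl⟩
  rw [← hη] at hzN haa hfl
  have hη0 : 0 ≤ η := by rw [hη]; positivity
  have hη1 : η ≤ 17 * (u : ℝ) ^ (-(8 / 5 : ℝ)) := by
    rw [hη]
    have h1 : ε n ^ P.pf ≤ ((n : ℝ) ^ (-(2 * s))) ^ P.pf :=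
      Real.rpow_le_rpow hε.le (h.e1 n hn0) hpf0.le
    have h2 : ((n : ℝ) ^ (-(2 * s))) ^ P.pf = (n : ℝ) ^ (-(2 * (s * P.pf))) := by
      rw [← Real.rpow_mul (by positivity)]
      congr 1
      ring
    have h3 : (n : ℝ) ^ (-(2 * (s * P.pf))) ≤ (n : ℝ) ^ (-(8 / 5 : ℝ)) :=
      Real.rpow_le_rpow_of_exponent_le (hu1.trans hnR) (by linarith)
    have h4 : (n : ℝ) ^ (-(8 / 5 : ℝ)) ≤ (u : ℝ) ^ (-(8 / 5 : ℝ)) :=
      Real.rpow_le_rpow_of_nonpos hu0' hnR (by norm_num)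
    linarith
  -- the block bound
  have hNl : 2 ^ r = 2 ^ (r - u) * 2 ^ u := by
    rw [← pow_add, Nat.sub_add_cancel (hun.trans hnr)]
  have hh : (0 : ℝ) < ((u : ℝ) ^ 2)⁻¹ := by positivity
  have hlow := hpin (2 ^ r) (2 ^ (r - u)) (2 ^ u) hNl Nat.one_le_two_pow (tn n) ((u : ℝ) ^ 2)⁻¹
    htn hh k hk
  have hEpos : 0 < EE k := by linarith
  obtain ⟨δ, hδ⟩ : ∃ δ, δ = (1 + 1 / ((u : ℝ) ^ 2)⁻¹) *
    (16 * b * (((2 ^ u : ℕ) : ℝ)) ^ 2 * EE k) := ⟨_, rfl⟩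
  rw [← hδ] at hlow
  have hδ0 : 0 < δ := by rw [hδ]; positivity
  -- size of the error of the block bound
  have hclog : (u : ℝ) ≤ 2 ^ (Nat.clog 2 u) := by
    exact_mod_cast Nat.le_pow_clog (by norm_num) u
  have hlE : (((2 ^ u : ℕ) : ℝ)) ^ 2 * tn n ≤ ((u : ℝ) ^ 6)⁻¹ := by
    unfold H972.tn
    have e1 : (4 : ℝ) ^ n = (2 ^ u) ^ 2 * (2 ^ (Nat.clog 2 u)) ^ 6 := by
      rw [hn, show (4 : ℝ) = 2 ^ 2 by norm_num, ← pow_mul, ← pow_mul, ← pow_mul, ← pow_add]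
      congr 1
      ring
    have e2 : (((2 ^ u : ℕ) : ℝ)) ^ 2 = (2 ^ u) ^ 2 := by push_cast; ring
    rw [e1, e2, mul_inv, ← mul_assoc, mul_inv_cancel₀ (by positivity), one_mul]
    exact inv_anti₀ (by positivity) (pow_le_pow_left₀ hu0'.le hclog 6)
  have hδ1 : δ ≤ 1280 * b * ((u : ℝ) ^ 4)⁻¹ := by
    rw [hδ]
    have e1 : 1 + 1 / ((u : ℝ) ^ 2)⁻¹ ≤ 2 * (u : ℝ) ^ 2 := by
      rw [one_div, inv_inv]
      nlinarith
    have e2 : 16 * b * (((2 ^ u : ℕ) : ℝ)) ^ 2 * EE k ≤ 16 * b * (40 * ((u : ℝ) ^ 6)⁻¹) := by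
      have e3 : (((2 ^ u : ℕ) : ℝ)) ^ 2 * EE k ≤ (((2 ^ u : ℕ) : ℝ)) ^ 2 * (40 * tn n) :=
        mul_le_mul_of_nonneg_left hk2 (by positivity)
      have e4 : (((2 ^ u : ℕ) : ℝ)) ^ 2 * EE k ≤ 40 * ((u : ℝ) ^ 6)⁻¹ := by linarith
      calc 16 * b * (((2 ^ u : ℕ) : ℝ)) ^ 2 * EE k =
            16 * b * ((((2 ^ u : ℕ) : ℝ)) ^ 2 * EE k) := by ring
        _ ≤ _ := mul_le_mul_of_nonneg_left e4 (by positivity)
    calc (1 + 1 / ((u : ℝ) ^ 2)⁻¹) * (16 * b * (((2 ^ u : ℕ) : ℝ)) ^ 2 * EE k)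
        ≤ (2 * (u : ℝ) ^ 2) * (16 * b * (40 * ((u : ℝ) ^ 6)⁻¹)) :=
          mul_le_mul e1 e2 (by positivity) (by positivity)
      _ = 1280 * b * ((u : ℝ) ^ 4)⁻¹ := by
          field_simp
          ring
  have hS : 0 ≤ stiff (2 ^ u) b := UJ.h3_stiff_nonneg hb Nat.one_le_two_pow
  have hzt : z ≤ η * tn n := by
    have e1 : (1 : ℝ) ≤ (((2 ^ r : ℕ) : ℝ)) ^ 2 * tn n := by
      unfold H972.tn
      have e2 : (4 : ℝ) ^ n ≤ 4 ^ r := pow_le_pow_right₀ (by norm_num) hnr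
      have e3 : (((2 ^ r : ℕ) : ℝ)) ^ 2 = 4 ^ r := by
        push_cast
        rw [← pow_mul, mul_comm, pow_mul]
        norm_num
      rw [e3, ← div_eq_mul_inv, one_le_div (by positivity)]
      exact e2
    calc z = z * 1 := (mul_one z).symm
      _ ≤ z * ((((2 ^ r : ℕ) : ℝ)) ^ 2 * tn n) := mul_le_mul_of_nonneg_left e1 hz0
      _ = z * (((2 ^ r : ℕ) : ℝ)) ^ 2 * tn n := by ring
      _ ≤ η * tn n := mul_le_mul_of_nonneg_right hzN htn.le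
  have key := low_num hS (h.a1 n hn0).1 htn hη0 hh.le hδ0 hlow (hfl k hk) haa hzt hk1 hk2
  -- the sum of the errors
  have f1 : (u : ℝ) ^ (-(8 / 5 : ℝ)) = (u : ℝ) ^ (-(1 / 2 : ℝ)) * (u : ℝ) ^ (-(11 / 10 : ℝ)) := by
    rw [← Real.rpow_add hu0']
    norm_num
  have f2 : ((u : ℝ) ^ 4)⁻¹ ≤ (u : ℝ) ^ (-(1 : ℝ)) * (u : ℝ) ^ (-(11 / 10 : ℝ)) := by
    rw [← Real.rpow_add hu0', ← Real.rpow_natCast, ← Real.rpow_neg hu0'.le]
    exact Real.rpow_le_rpow_of_exponent_le hu1 (by norm_num)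
  have f3 : ((u : ℝ) ^ 2)⁻¹ ≤ (u : ℝ) ^ (-(1 / 2 : ℝ)) * (u : ℝ) ^ (-(11 / 10 : ℝ)) := by
    rw [← Real.rpow_add hu0', ← Real.rpow_natCast, ← Real.rpow_neg hu0'.le]
    exact Real.rpow_le_rpow_of_exponent_le hu1 (by norm_num)
  have hX : 0 < (u : ℝ) ^ (-(11 / 10 : ℝ)) := Real.rpow_pos_of_pos hu0' _
  have f4 : 42 * η + δ + ((u : ℝ) ^ 2)⁻¹ ≤ (714 * (u : ℝ) ^ (-(1 / 2 : ℝ)) +
      1280 * b * (u : ℝ) ^ (-(1 : ℝ)) + (u : ℝ) ^ (-(1 / 2 : ℝ))) *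
        (u : ℝ) ^ (-(11 / 10 : ℝ)) := by
    have g1 : 42 * η ≤ 714 * ((u : ℝ) ^ (-(1 / 2 : ℝ)) * (u : ℝ) ^ (-(11 / 10 : ℝ))) := by
      rw [← f1]
      linarith
    have g2 : δ ≤ 1280 * b * ((u : ℝ) ^ (-(1 : ℝ)) * (u : ℝ) ^ (-(11 / 10 : ℝ))) :=
      hδ1.trans (mul_le_mul_of_nonneg_left f2 (by positivity))
    calc _ ≤ 714 * ((u : ℝ) ^ (-(1 / 2 : ℝ)) * (u : ℝ) ^ (-(11 / 10 : ℝ))) +
          1280 * b * ((u : ℝ) ^ (-(1 : ℝ)) * (u : ℝ) ^ (-(11 / 10 : ℝ))) +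
          (u : ℝ) ^ (-(1 / 2 : ℝ)) * (u : ℝ) ^ (-(11 / 10 : ℝ)) := by linarith
      _ = _ := by ring
  have f5 : 42 * η + δ + ((u : ℝ) ^ 2)⁻¹ ≤ (u : ℝ) ^ (-(11 / 10 : ℝ)) := by
    refine f4.trans ?_
    calc _ ≤ 1 * (u : ℝ) ^ (-(11 / 10 : ℝ)) := mul_le_mul_of_nonneg_right hsm.le hX.le
      _ = _ := one_mul _
  rw [one_div]
  linarith

/-- **the lower half of LINKW#** -/
theorem hLl {P : Par} {b s : ℝ} {N0 : ℕ} {ε Y a : ℕ → ℝ} (h : Chn P b s N0 ε Y a)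
    (hpf : 4 / 5 ≤ s * P.pf) :
    ∃ q : ℕ, ∀ᶠ u : ℕ in atTop,
      1 / a (u + q * Nat.clog 2 u) - (u : ℝ) ^ (-(11 / 10 : ℝ)) ≤ stiff (2 ^ u) b :=
  stiff_lo h hpf fun _ _ _ _ hN hl _ _ ht hη _ hk => pin_stiff hN h.hb hl ht hη hk

end Vale.Agent.P159.H730
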