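import Vale.Agent.P159.H316.Sti5
import Vale.Agent.P159.H733.Asm2
import Vale.Agent.P159.H889.Vfin3

/-!
P159 (helper730): the V half, all inputs plugged.
-/

open Filter Topology

namespace Vale.Agent.P159.H730

open Vale.Agent.P159.H801 (Ev)
open Vale.Agent.P159.H316 (VHq)

/-- **the V half**, no hypothesis left -/
theorem vhalf_b {b b1 b2 : ℝ} (hb1 : 0 < b1) (h1 : b1 ≤ b) (h2 : b ≤ b2)
    (hel : helicity b = 2 / Real.pi) (Q : ℕ) : Ev b1 b2 (9 / 10) Q (VHq 1 b) := by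
  obtain ⟨A00, hA00, hS⟩ := H316.start_of3 hb1 h1 h2 hel
  obtain ⟨A, hA, hG⟩ := H733.Vt.stepH_crit (b2 := b2) hb1 (h1.trans h2) h1 hel
  have hg := hG (max A00 A) (le_max_right _ _) 1 Q one_pos
  exact H316.vhalf_of hb1 h1 h2 hel le_rfl (H889.fvs_ev hb1 h1 h2 hel one_pos hg)
    (hS (max A00 A) (le_max_left _ _) 1 Q hg)

end Vale.Agent.P159.H730
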