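import Vale.Agent.P159.H730.FathR2

/-!
P159 / HAT (helper358): fatness at real mass (helper730). Part 3: `H352.FATH` for the clusters of one
copy on the torus at a real mass, from `(H2)`.
-/

open Finset
open scoped ENNReal NNReal

namespace Vale.Agent.P159.H730.FR

open Vale.Agent.P159 Vale.Agent.P159.H353
open Vale.Agent.P159.TM
open Vale.Agent.P159.TM.H60 Vale.Agent.P159.TM.H504 Vale.Agent.P159.TM.H312
open Vale.Agent.P159.TM.H426
open Vale.Agent.P159.TM.H576 (Ex mf ind Ex_mono Ex_mul Ex_sum)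
open Vale.Agent.P159.TM.H459 (sd sn bk bk1 tS tT)
open Vale.Agent.P159.TM.H764 (H2)
open Vale.Agent.P159.TM.H77
open Vale.Agent.P159.H37 (Gt)

/-- **352's `(FAT)` on the torus at a real mass, from `(H2)`** -/
theorem fatBkR {C2 bb : ℝ} (hC : 0 < C2) (hbb : 0 < bb) (A : ℕ) :
    ∃ W0 : ℝ, ∃ X0 : ℕ, ∃ K : ℝ≥0, 1 ≤ K ∧
    ∀ (N n : ℕ) [NeZero N] [NeZero n] (b : ℝ) (hb : 0 < b), b ≤ bb → ∀ ξ l : ℕ, X0 ≤ ξ →
    ξ ∣ N → 2 * ξ ≤ N → N = n * l → l ≤ ξ → ξ ≤ A * l →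
    ∀ μ : ℝ, 1 / (2 * (ξ : ℝ)) ^ 2 ≤ μ →
    ∀ W : ℝ, W0 ≤ W → H2 C2 W (ξ : ℝ) (Gt N b μ) → ∀ ε : ℝ≥0, 1 / 4 ≤ (ε : ℝ) * (ξ : ℝ) ^ 2 →
    ∀ D, 4 ≤ D → FatB (sT N b μ hb.le) n l ε K D := by
  classical
  obtain ⟨k0, h0⟩ := fatTorR hC hbb
  obtain ⟨X0, c, hc, h0⟩ := h0 (max k0 A) (le_max_left _ _)
  set k := max k0 A with hk
  refine ⟨8 * 2 ^ k, max X0 (32 * 2 ^ k), ((4 * (64 * 2 ^ k + 1) ^ 2 / c).toNNReal ⊔ 1), le_max_right _ _,
    ?_⟩
  intro N n _ _ b hb hb' ξ l hξ hd hN2 hN hlξ hξl μ hμ W hW h2 ε hε D hD β u Γ hΓ hΓ0 hΓ1 hfin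
  have hX : X0 ≤ ξ := (le_max_left _ _).trans hξ
  have hX2 : 32 * 2 ^ k ≤ ξ := (le_max_right _ _).trans hξ
  obtain ⟨K', hK'⟩ := hd
  have hξ0 : 0 < ξ := lt_of_lt_of_le (by positivity) hX2
  have hK2 : 2 ≤ K' := by
    by_contra h
    have h1 : K' ≤ 1 := by omega
    have h2 : ξ * K' ≤ ξ * 1 := Nat.mul_le_mul_left _ h1
    omega
  have hNK : N = K' * ξ := by rw [hK', mul_comm]
  set e := ell ξ k with he
  have he1 : 1 ≤ e := by
    rw [he]
    unfold ell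
    rw [Nat.le_div_iff_mul_le (by positivity), one_mul]
    exact hX2
  have hl0 : 0 < l := by
    rcases Nat.eq_zero_or_pos l with h | h
    · rw [h, mul_zero] at hξl; omega
    · exact h
  have hup : 32 * 2 ^ k * e ≤ ξ := Nat.mul_div_le _ _
  have hel : e ≤ l := by
    have hA : A ≤ 32 * 2 ^ k := by
      have h1 : A ≤ k := le_max_right _ _
      have h2 : k < 2 ^ k := Nat.lt_two_pow_self
      omega
    rcases Nat.eq_zero_or_pos A with h | h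
    · rw [h, zero_mul] at hξl; omega
    have h3 : A * e ≤ A * l := ((Nat.mul_le_mul_right e hA).trans hup).trans hξl
    exact Nat.le_of_mul_le_mul_left h3 h
  have hlo : ξ ≤ 64 * 2 ^ k * e := by
    have h1 : ξ < (32 * 2 ^ k) * (e + 1) := Nat.lt_mul_div_succ ξ (by positivity)
    have h2 : e + 1 ≤ 2 * e := by omega
    calc ξ ≤ (32 * 2 ^ k) * (e + 1) := h1.le
      _ ≤ (32 * 2 ^ k) * (2 * e) := Nat.mul_le_mul_left _ h2
      _ = 64 * 2 ^ k * e := by ring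
  -- the boxes
  set M : ℕ := (l - 1) / e + 1 with hM
  have hMc : M ≤ 64 * 2 ^ k + 1 := by
    rw [hM]
    refine Nat.add_le_add_right ?_ 1
    refine Nat.div_le_of_le_mul ?_
    rw [mul_comm]
    omega
  have hIlt : ∀ i < M, i * e < l := by
    intro i hi
    have h1 : i ≤ (l - 1) / e := by omega
    have h2 : i * e ≤ (l - 1) / e * e := Nat.mul_le_mul_right _ h1
    have h3 := Nat.div_mul_le_self (l - 1) e
    omega
  set P : ℕ → ℤ := fun i => ((β.1.val * l : ℕ) : ℤ) + ((i * e : ℕ) : ℤ) - (e : ℤ) with hP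
  set Q : ℕ → ℤ := fun j => ((β.2.val * l : ℕ) : ℤ) + ((j * e : ℕ) : ℤ) - (e : ℤ) with hQ
  set I : Finset (ℕ × ℕ) := range M ×ˢ range M with hI
  set Z : ℕ × ℕ → Finset (ℤ × ℤ) := fun i =>
    Ico (P i.1 + e) (P i.1 + 2 * e) ×ˢ Ico (Q i.2 + e) (Q i.2 + 2 * e) with hZ
  set Γi : ℕ × ℕ → (ZMod N × ZMod N → ℕ) → ℝ≥0∞ := fun i m =>
    Γ m * ind (∃ z ∈ Z i, m (pt N z) ≠ 0) with hΓi
  have hle : ∀ i m, Γi i m ≤ Γ m := fun i m => by
    simp only [hΓi]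
    exact (mul_le_mul_right (H576.ind_le_one _) _).trans (le_of_eq (mul_one _))
  -- covering
  have hcover : ∀ m, Γ m ≤ ∑ i ∈ I, Γi i m := by
    intro m
    by_cases h1 : Γ m = 0
    · rw [h1]
      exact zero_le
    obtain ⟨⟨z, hz, hmz⟩, -⟩ := hΓ1 m h1
    obtain ⟨b1, b2⟩ := bk_pt hN hz
    set i1 := (z.1.val - β.1.val * l) / e with hi1
    set i2 := (z.2.val - β.2.val * l) / e with hi2
    have q1 : β.1.val * l ≤ z.1.val ∧ z.1.val < β.1.val * l + l := by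
      rw [← b1]
      refine ⟨Nat.div_mul_le_self _ _, ?_⟩
      have := Nat.lt_div_mul_add (a := z.1.val) hl0
      exact this
    have q2 : β.2.val * l ≤ z.2.val ∧ z.2.val < β.2.val * l + l := by
      rw [← b2]
      refine ⟨Nat.div_mul_le_self _ _, ?_⟩
      have := Nat.lt_div_mul_add (a := z.2.val) hl0
      exact this
    have hmem : (i1, i2) ∈ I := by
      rw [hI, mem_product, mem_range, mem_range]
      constructor
      · have : i1 ≤ (l - 1) / e := Nat.div_le_div_right (by omega)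
        simp only
        omega
      · have : i2 ≤ (l - 1) / e := Nat.div_le_div_right (by omega)
        simp only
        omega
    refine le_trans ?_ (single_le_sum (f := fun i => Γi i m) (fun i _ => zero_le) hmem)
    simp only [hΓi]
    rw [H576.ind_true, mul_one]
    refine ⟨((z.1.val : ℤ), (z.2.val : ℤ)), ?_, ?_⟩
    · simp only [hZ, mem_product, mem_Ico, hP, hQ]
      have r1 := Nat.div_mul_le_self (z.1.val - β.1.val * l) e
      have r2 := Nat.lt_div_mul_add (a := z.1.val - β.1.val * l) (b := e) he1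
      have r3 := Nat.div_mul_le_self (z.2.val - β.2.val * l) e
      have r4 := Nat.lt_div_mul_add (a := z.2.val - β.2.val * l) (b := e) he1
      rw [← hi1] at r1 r2
      rw [← hi2] at r3 r4
      refine ⟨⟨?_, ?_⟩, ?_, ?_⟩ <;> omega
    · have : pt N ((z.1.val : ℤ), (z.2.val : ℤ)) = z := by
        unfold pt
        ext <;> simp
      rw [this]
      exact hmz
  set E0 := Ex (sT N b μ hb.le) (fun x om => Γ (mf (sT N b μ hb.le) x om u)) with hE0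
  set E1' := Ex (sT N b μ hb.le) (fun x om => Γ (mf (sT N b μ hb.le) x om u) *
        (∑ z ∈ univ.filter (fun z => sd β (bk n l z) ≤ D),
          (mf (sT N b μ hb.le) x om u z : ℝ≥0∞))) with hE1
  have hone : ∀ i ∈ I, ENNReal.ofReal (c * (ξ : ℝ) ^ 2) * Ex (sT N b μ hb.le)
      (fun x om => Γi i (mf (sT N b μ hb.le) x om u)) ≤ E1' := by
    rintro ⟨i, j⟩ hij
    rw [hI, mem_product, mem_range, mem_range] at hij
    have hnear : ∀ w, w ∈ (Bx (P i) (Q j) (3 * e)).image (pt N) → sd β (bk n l w) ≤ 3 :=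
      fun w hw => near_box hl0 hN hel β (hIlt i hij.1) (hIlt j hij.2) hw
    refine (h0 N b hb hb' ξ K' hX hK2 hNK μ hμ W hW h2 (P i) (Q j) u (Γi (i, j)) ?_ ?_ ?_ ?_ ?_).trans ?_
    · intro m m' hm
      refine mul_le_mul' (hΓ hm) (H576.ind_mono ?_)
      rintro ⟨z, hz, hz'⟩
      exact ⟨z, hz, fun h0 => hz' (Nat.le_zero.1 ((hm (pt N z)).trans (le_of_eq h0)))⟩
    · intro m hm
      simp only [hΓi]
      rw [hΓ0 m hm, zero_mul]
    · intro m hm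
      by_contra hcon
      apply hm
      simp only [hΓi]
      rw [H576.ind_false hcon, mul_zero]
    · intro m hm
      have h1 : Γ m ≠ 0 := by
        intro h1
        apply hm
        simp only [hΓi]
        rw [h1, zero_mul]
      obtain ⟨-, w, hw, hmw⟩ := hΓ1 m h1
      refine ⟨w, fun hcon => ?_, hmw⟩
      have := hnear w hcon
      omega
    · refine ne_top_of_le_ne_top hfin (Ex_mono fun x om _ => hle _ _)
    · refine Ex_mono fun x om _ => mul_le_mul' (hle _ _) (sum_le_sum_of_subset ?_)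
      intro w hw
      rw [mem_filter]
      exact ⟨mem_univ _, (hnear w hw).trans (by omega)⟩
  have hξR : (0 : ℝ) < ξ := by exact_mod_cast hξ0
  have hcξ : 0 < c * (ξ : ℝ) ^ 2 := by positivity
  have hsum : ENNReal.ofReal (c * (ξ : ℝ) ^ 2) * E0 ≤ (M ^ 2 : ℕ) * E1' := by
    calc ENNReal.ofReal (c * (ξ : ℝ) ^ 2) * E0
        ≤ ENNReal.ofReal (c * (ξ : ℝ) ^ 2) * Ex (sT N b μ hb.le)
            (fun x om => ∑ i ∈ I, Γi i (mf (sT N b μ hb.le) x om u)) :=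
          mul_le_mul_right (Ex_mono fun x om _ => hcover _) _
      _ = ∑ i ∈ I, ENNReal.ofReal (c * (ξ : ℝ) ^ 2) * Ex (sT N b μ hb.le)
            (fun x om => Γi i (mf (sT N b μ hb.le) x om u)) := by
          rw [Ex_sum, mul_sum]
      _ ≤ ∑ i ∈ I, E1' := sum_le_sum hone
      _ = (M ^ 2 : ℕ) * E1' := by
          rw [sum_const, hI, card_product, card_range, nsmul_eq_mul, ← pow_two]
  -- conclusion
  have hKc : ENNReal.ofReal (4 * ((64 * 2 ^ k + 1 : ℕ) : ℝ) ^ 2 / c) ≤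
      (((4 * (64 * 2 ^ k + 1) ^ 2 / c).toNNReal ⊔ 1 : ℝ≥0) : ℝ≥0∞) := by
    have h1 : ENNReal.ofReal (4 * ((64 * 2 ^ k + 1 : ℕ) : ℝ) ^ 2 / c) =
        (((4 * (64 * 2 ^ k + 1) ^ 2 / c).toNNReal : ℝ≥0) : ℝ≥0∞) := by
      unfold ENNReal.ofReal
      congr 2
      push_cast
      ring
    rw [h1]
    exact_mod_cast le_max_left _ _
  have hE : Ex (sT N b μ hb.le) (fun x om => Γ (mf (sT N b μ hb.le) x om u) *
        ((ε : ℝ≥0∞) * ∑ z ∈ univ.filter (fun z => sd β (bk n l z) ≤ D),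
          (mf (sT N b μ hb.le) x om u z : ℝ≥0∞))) = ε * E1' := by
    rw [hE1, ← Ex_mul]
    congr 1
    funext x om
    ring
  rw [hE]
  have hinv : ENNReal.ofReal (1 / (c * (ξ : ℝ) ^ 2)) * (ENNReal.ofReal (c * (ξ : ℝ) ^ 2) * E0) =
      E0 := by
    rw [← mul_assoc, ← ENNReal.ofReal_mul (by positivity), one_div_mul_cancel hcξ.ne',
      ENNReal.ofReal_one, one_mul]
  calc E0 = ENNReal.ofReal (1 / (c * (ξ : ℝ) ^ 2)) * (ENNReal.ofReal (c * (ξ : ℝ) ^ 2) * E0) :=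
        hinv.symm
    _ ≤ ENNReal.ofReal (1 / (c * (ξ : ℝ) ^ 2)) * ((M ^ 2 : ℕ) * E1') := mul_le_mul_right hsum _
    _ = ENNReal.ofReal (1 / (c * (ξ : ℝ) ^ 2) * (M : ℝ) ^ 2) * E1' := by
        rw [← mul_assoc]
        congr 1
        rw [ENNReal.ofReal_mul (by positivity)]
        congr 1
        rw [← Nat.cast_pow, ENNReal.ofReal_natCast]
    _ ≤ ENNReal.ofReal (4 * ((64 * 2 ^ k + 1 : ℕ) : ℝ) ^ 2 / c * (ε : ℝ)) * E1' := by
        refine mul_le_mul_left (ENNReal.ofReal_le_ofReal ?_) _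
        have h1 : (M : ℝ) ^ 2 ≤ ((64 * 2 ^ k + 1 : ℕ) : ℝ) ^ 2 := by
          have : (M : ℝ) ≤ ((64 * 2 ^ k + 1 : ℕ) : ℝ) := by exact_mod_cast hMc
          gcongr
        rw [one_div_mul_eq_div, div_le_iff₀ hcξ]
        have h3 : 4 * ((64 * 2 ^ k + 1 : ℕ) : ℝ) ^ 2 / c * (ε : ℝ) * (c * (ξ : ℝ) ^ 2) =
            ((64 * 2 ^ k + 1 : ℕ) : ℝ) ^ 2 * (4 * ((ε : ℝ) * (ξ : ℝ) ^ 2)) := by
          field_simp
        rw [h3]
        calc (M : ℝ) ^ 2 ≤ ((64 * 2 ^ k + 1 : ℕ) : ℝ) ^ 2 := h1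
          _ = ((64 * 2 ^ k + 1 : ℕ) : ℝ) ^ 2 * 1 := (mul_one _).symm
          _ ≤ _ := mul_le_mul_of_nonneg_left (by linarith) (by positivity)
    _ = ENNReal.ofReal (4 * ((64 * 2 ^ k + 1 : ℕ) : ℝ) ^ 2 / c) * (ε * E1') := by
        rw [ENNReal.ofReal_mul (by positivity), ENNReal.ofReal_coe_nnreal, mul_assoc]
    _ ≤ _ := mul_le_mul_left hKc _

/-- **`FATH` on the torus at a real mass, blocks of side `l`, mass in `[1/(2l)², ∞)`** -/
theorem fathR {C2 bb : ℝ} (hC : 0 < C2) (hbb : 0 < bb) :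
    ∃ W0 : ℝ, ∃ X0 : ℕ, ∃ K : ℝ≥0, 1 ≤ K ∧
    ∀ (N n : ℕ) [NeZero N] [NeZero n] (b : ℝ) (hb : 0 ≤ b), 0 < b → b ≤ bb →
    ∀ l : ℕ, X0 ≤ l → 0 < l → 2 ≤ n → N = n * l →
    ∀ μ : ℝ, 1 / (2 * (l : ℝ)) ^ 2 ≤ μ →
    ∀ W : ℝ, W0 ≤ W → H2 C2 W (l : ℝ) (Gt N b μ) → ∀ ε : ℝ≥0, 1 / 4 ≤ (ε : ℝ) * (l : ℝ) ^ 2 →
    ∀ D, 4 ≤ D →
      H352.FATH (TM.H131.S1 (tS (N := N)) tT (fun _ => hb) (fun _ => μ)) n l ε K D := by
  obtain ⟨W0, X0, K, hK, h⟩ := fatBkR hC hbb 1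
  refine ⟨W0, X0, K, hK, ?_⟩
  intro N n _ _ b hb hb0 hb' l hl hl0 hn hN μ hμ W hW h2 ε hε D hD
  refine h N n b hb0 hb' l l hl ⟨n, by rw [hN, mul_comm]⟩ ?_ hN le_rfl (by omega) μ hμ W hW h2 ε hε
    D hD
  rw [hN]
  exact Nat.mul_le_mul_right _ hn

end Vale.Agent.P159.H730.FR
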