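import Vale.Agent.P159.H37.Gau

/-!
P159 (helper730): Gaussian integration by parts for `gau I`, exponential moments of `|g|`.
-/

namespace Vale.Agent.P159.H730

open MeasureTheory ProbabilityTheory Finset
open Vale.Agent.P159.H37

/-! ### one dimension -/

theorem int_gaussian_iff (g : ℝ → ℝ) :
    Integrable g (gaussianReal 0 1) ↔ Integrable (fun x => gaussianPDFReal 0 1 x * g x) := by
  rw [gaussianReal_of_var_ne_zero _ one_ne_zero,
    integrable_withDensity_iff_integrable_smul' (measurable_gaussianPDF 0 1)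
      (Filter.Eventually.of_forall fun x => gaussianPDF_lt_top)]
  simp only [smul_eq_mul, gaussianPDF, ENNReal.toReal_ofReal (gaussianPDFReal_nonneg 0 1 _)]

/-- One-dimensional Gaussian integration by parts. -/
theorem ibp_one (g g' : ℝ → ℝ) (hd : ∀ x, HasDerivAt g (g' x) x)
    (h0 : Integrable g (gaussianReal 0 1)) (h1 : Integrable (fun x => x * g x) (gaussianReal 0 1))
    (h2 : Integrable g' (gaussianReal 0 1)) :
    ∫ x, x * g x ∂(gaussianReal 0 1) = ∫ x, g' x ∂(gaussianReal 0 1) := by
  set φ : ℝ → ℝ := gaussianPDFReal 0 1 with hφ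
  have hφd : ∀ x, HasDerivAt φ (-(x * φ x)) x := by
    intro x
    have h1 : HasDerivAt (fun y : ℝ => -(y - 0) ^ 2 / (2 * ((1 : NNReal) : ℝ))) (-x) x := by
      have h2 : HasDerivAt (fun y : ℝ => -(y ^ 2) / 2) (-(2 * x) / 2) x := by
        have h0 := ((hasDerivAt_pow 2 x).neg).div_const (2 : ℝ)
        simpa only [Pi.neg_apply, Nat.cast_ofNat, Nat.add_one_sub_one, pow_one] using h0
      have h2' : (fun y : ℝ => -(y - 0) ^ 2 / (2 * ((1 : NNReal) : ℝ))) = fun y => -(y ^ 2) / 2 := by
        funext y
        simp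
      rw [h2']
      have h2'' : -x = -(2 * x) / 2 := by ring
      rw [h2'']
      exact h2
    have h3 := (h1.exp).const_mul ((Real.sqrt (2 * Real.pi * ((1 : NNReal) : ℝ)))⁻¹)
    have h4 : φ = fun y => (Real.sqrt (2 * Real.pi * ((1 : NNReal) : ℝ)))⁻¹
        * Real.exp (-(y - 0) ^ 2 / (2 * ((1 : NNReal) : ℝ))) := by
      funext y
      rw [hφ, gaussianPDFReal_def]
    have h5 : -(x * φ x) = (Real.sqrt (2 * Real.pi * ((1 : NNReal) : ℝ)))⁻¹
        * (Real.exp (-(x - 0) ^ 2 / (2 * ((1 : NNReal) : ℝ))) * -x) := by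
      rw [h4]
      ring
    rw [h5, h4]
    exact h3
  have e1 : ∫ x, x * g x ∂(gaussianReal 0 1) = ∫ x, φ x * (x * g x) := by
    rw [integral_gaussianReal_eq_integral_smul one_ne_zero]
    rfl
  have e2 : ∫ x, g' x ∂(gaussianReal 0 1) = ∫ x, φ x * g' x := by
    rw [integral_gaussianReal_eq_integral_smul one_ne_zero]
    rfl
  rw [int_gaussian_iff] at h0 h1 h2
  have i1 : Integrable (g * fun x => -(x * φ x)) := by
    refine h1.neg.congr (Filter.Eventually.of_forall fun x => ?_)
    simp only [Pi.neg_apply, Pi.mul_apply]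
    ring
  have i2 : Integrable (g' * φ) := by
    refine h2.congr (Filter.Eventually.of_forall fun x => ?_)
    simp only [Pi.mul_apply]
    ring
  have i3 : Integrable (g * φ) := by
    refine h0.congr (Filter.Eventually.of_forall fun x => ?_)
    simp only [Pi.mul_apply]
    ring
  have key := integral_mul_deriv_eq_deriv_mul_of_integrable (u := g) (v := φ) (u' := g')
    (v' := fun x => -(x * φ x)) (fun x _ => hd x) (fun x _ => hφd x) i1 i2 i3
  rw [e1, e2]
  have h5 : ∫ x, φ x * (x * g x) = - ∫ x, g x * -(x * φ x) := by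
    rw [← integral_neg]
    congr 1
    funext x
    ring
  rw [h5, key, neg_neg]
  congr 1
  funext x
  ring

/-! ### many dimensions -/

variable {I : Type*}

lemma measurable_upd [DecidableEq I] (e : I) :
    Measurable (fun q : (I → ℝ) × ℝ => Function.update q.1 e q.2) := by
  rw [measurable_pi_iff]
  intro i
  by_cases h : i = e
  · subst h
    simp only [Function.update_self]
    exact measurable_snd
  · simp only [Function.update_of_ne h]
    exact (measurable_pi_apply i).comp measurable_fst

variable [Fintype I]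

/-- Resampling one coordinate. -/
lemma map_upd [DecidableEq I] (e : I) :
    ((gau I).prod (gaussianReal 0 1)).map (fun q : (I → ℝ) × ℝ => Function.update q.1 e q.2)
      = gau I := by
  symm
  unfold gau
  apply Measure.pi_eq
  intro s hs
  rw [Measure.map_apply (measurable_upd e) (MeasurableSet.univ_pi hs)]
  have h1 : (fun q : (I → ℝ) × ℝ => Function.update q.1 e q.2) ⁻¹' (Set.univ.pi s)
      = (Set.univ.pi (Function.update s e Set.univ)) ×ˢ (s e) := by
    ext ⟨J, x⟩
    simp only [Set.mem_preimage, Set.mem_pi, Set.mem_univ, forall_true_left, Set.mem_prod]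
    constructor
    · intro h
      refine ⟨fun i => ?_, ?_⟩
      · by_cases hi : i = e
        · subst hi; simp
        · have := h i
          simpa [Function.update_of_ne hi] using this
      · simpa using h e
    · rintro ⟨h, h'⟩ i
      by_cases hi : i = e
      · subst hi; simpa using h'
      · have := h i
        simpa [Function.update_of_ne hi] using this
  rw [h1, Measure.prod_prod, Measure.pi_pi]
  rw [← Finset.prod_erase_mul _ _ (Finset.mem_univ e),
    ← Finset.prod_erase_mul (s := Finset.univ) (a := e) _ (Finset.mem_univ e)]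
  simp only [Function.update_self, measure_univ, mul_one]
  congr 1
  apply Finset.prod_congr rfl
  intro i hi
  rw [Function.update_of_ne (Finset.ne_of_mem_erase hi)]

/-- Gaussian integration by parts in the coordinate `e`. -/
theorem gau_ibp [DecidableEq I] (e : I) (G G' : (I → ℝ) → ℝ)
    (hd : ∀ J x, HasDerivAt (fun y => G (Function.update J e y)) (G' (Function.update J e x)) x)
    (h0 : Integrable G (gau I)) (h1 : Integrable (fun J => J e * G J) (gau I))
    (h2 : Integrable G' (gau I)) :
    ∫ J, J e * G J ∂(gau I) = ∫ J, G' J ∂(gau I) := by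
  have hupd := map_upd (I := I) e
  have hprod : ∀ F : (I → ℝ) → ℝ, Integrable F (gau I) →
      Integrable (fun q : (I → ℝ) × ℝ => F (Function.update q.1 e q.2))
        ((gau I).prod (gaussianReal 0 1)) := by
    intro F hF
    have hF' : Integrable F (((gau I).prod (gaussianReal 0 1)).map
        (fun q : (I → ℝ) × ℝ => Function.update q.1 e q.2)) := by
      rw [hupd]; exact hF
    exact (integrable_map_measure hF'.aestronglyMeasurable
      (measurable_upd e).aemeasurable).mp hF'
  have hres : ∀ F : (I → ℝ) → ℝ, Integrable F (gau I) →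
      ∫ J, F J ∂(gau I) = ∫ J, ∫ x, F (Function.update J e x) ∂(gaussianReal 0 1) ∂(gau I) := by
    intro F hF
    have hF' : Integrable F (((gau I).prod (gaussianReal 0 1)).map
        (fun q : (I → ℝ) × ℝ => Function.update q.1 e q.2)) := by
      rw [hupd]; exact hF
    conv_lhs => rw [← hupd]
    rw [integral_map (measurable_upd e).aemeasurable hF'.aestronglyMeasurable]
    rw [integral_prod]
    exact hprod F hF
  rw [hres _ h1, hres _ h2]
  apply integral_congr_ae
  have a0 := (hprod _ h0).prod_right_ae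
  have a1 := (hprod _ h1).prod_right_ae
  have a2 := (hprod _ h2).prod_right_ae
  filter_upwards [a0, a1, a2] with J b0 b1 b2
  simp only [Function.update_self] at b1 ⊢
  exact ibp_one (fun x => G (Function.update J e x)) (fun x => G' (Function.update J e x))
    (hd J) b0 b1 b2

/-! ### exponential moments -/

lemma int_exp_abs_one (a : ℝ) :
    Integrable (fun x : ℝ => Real.exp (a * |x|)) (gaussianReal 0 1) ∧
      ∫ x, Real.exp (a * |x|) ∂(gaussianReal 0 1) ≤ 2 * Real.exp (a ^ 2 / 2) := by
  have h1 : Integrable (fun x : ℝ => Real.exp (a * x)) (gaussianReal 0 1) :=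
    integrable_exp_mul_gaussianReal a
  have h2 : Integrable (fun x : ℝ => Real.exp (-a * x)) (gaussianReal 0 1) :=
    integrable_exp_mul_gaussianReal (-a)
  have hle : ∀ x : ℝ, Real.exp (a * |x|) ≤ Real.exp (a * x) + Real.exp (-a * x) := by
    intro x
    rcases abs_cases x with ⟨h, _⟩ | ⟨h, _⟩
    · rw [h]
      linarith [Real.exp_pos (-a * x)]
    · rw [h]
      have : a * -x = -a * x := by ring
      rw [this]
      linarith [Real.exp_pos (a * x)]
  have h3 : Integrable (fun x : ℝ => Real.exp (a * |x|)) (gaussianReal 0 1) := by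
    refine (h1.add h2).mono' (by fun_prop) (Filter.Eventually.of_forall fun x => ?_)
    rw [Real.norm_eq_abs, abs_of_pos (Real.exp_pos _)]
    exact hle x
  refine ⟨h3, ?_⟩
  refine (integral_mono h3 (h1.add h2) hle).trans (le_of_eq ?_)
  have e := integral_add h1 h2
  simp only [Pi.add_apply]
  rw [e, integral_exp_one, integral_exp_one, neg_sq]
  ring

lemma int_exp_abs (a : I → ℝ) :
    Integrable (fun g : I → ℝ => Real.exp (∑ i, a i * |g i|)) (gau I) ∧
      ∫ g, Real.exp (∑ i, a i * |g i|) ∂(gau I) ≤
        2 ^ Fintype.card I * Real.exp ((∑ i, a i ^ 2) / 2) := by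
  have hexp : ∀ J : I → ℝ, Real.exp (∑ i, a i * |J i|) = ∏ i, Real.exp (a i * |J i|) := by
    intro J
    rw [← Real.exp_sum]
  simp only [hexp]
  unfold gau
  refine ⟨Integrable.fintype_prod (f := fun i x => Real.exp (a i * |x|)) fun i =>
    (int_exp_abs_one (a i)).1, ?_⟩
  rw [integral_fintype_prod_eq_prod (𝕜 := ℝ) (fun (i : I) (x : ℝ) => Real.exp (a i * |x|))
    (μ := fun _ => gaussianReal 0 1)]
  refine (Finset.prod_le_prod (fun i _ => integral_nonneg fun x => (Real.exp_pos _).le)
    fun i _ => (int_exp_abs_one (a i)).2).trans (le_of_eq ?_)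
  rw [Finset.prod_mul_distrib, Finset.prod_const, Finset.card_univ, ← Real.exp_sum,
    ← Finset.sum_div]

/-- a sum of integrable functions with summable norms is integrable -/
lemma integrable_tsum_of {α ι : Type*} [MeasurableSpace α] [Countable ι] {μ : Measure α}
    {F : ι → α → ℝ} (h0 : ∀ i x, 0 ≤ F i x) (hi : ∀ i, Integrable (F i) μ)
    (hs : Summable fun i => ∫ x, F i x ∂μ) : Integrable (fun x => ∑' i, F i x) μ := by
  have hm : ∀ i, AEMeasurable (fun x => ENNReal.ofReal (F i x)) μ := fun i =>
    (hi i).aemeasurable.ennreal_ofReal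
  have h1 : ∫⁻ x, ∑' i, ENNReal.ofReal (F i x) ∂μ = ENNReal.ofReal (∑' i, ∫ x, F i x ∂μ) := by
    rw [lintegral_tsum hm, ENNReal.ofReal_tsum_of_nonneg
      (fun i => integral_nonneg (h0 i)) hs]
    congr 1
    funext i
    rw [ofReal_integral_eq_lintegral_ofReal (hi i) (Filter.Eventually.of_forall (h0 i))]
  have hfin : ∫⁻ x, ∑' i, ENNReal.ofReal (F i x) ∂μ ≠ ⊤ := by
    rw [h1]; exact ENNReal.ofReal_ne_top
  have hae := ae_lt_top' (AEMeasurable.ennreal_tsum hm) hfin
  have e1 : ∀ᵐ x ∂μ, (∑' i, F i x) = (∑' i, ENNReal.ofReal (F i x)).toReal := by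
    filter_upwards [hae] with x hx
    rw [ENNReal.tsum_toReal_eq (fun i => ENNReal.ofReal_ne_top)]
    exact tsum_congr fun i => (ENNReal.toReal_ofReal (h0 i x)).symm
  refine (integrable_toReal_of_lintegral_ne_top (AEMeasurable.ennreal_tsum hm) hfin).congr ?_
  filter_upwards [e1] with x hx
  exact hx.symm

end Vale.Agent.P159.H730
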