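import Vale.Agent.P159.H730.Thd2
import Vale.Agent.P159.H375.FineT
import Vale.Agent.P159.H276.DownT
import Vale.Agent.P159.H159.Drec3
import Vale.Agent.P159.H692.Lk1

/-!
P159 / LINKW (C), DropA (helper730): **the drop of the self energy tested with a local function**,
linear in `Θ`.

`N⁻² ∑_{k ≠ 0} |f^(k)|² (Pin_t - Pin_{t'})(k) ≤ (C Θ / (t' N²) + C (t ρ²)^c) (|lap f|₁ + T |f|₁)²
 + C e₂ (t |f|² + |grad f|²)`: the sum over the momenta of `thd_N` and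
`|f^(k)| (T + EE k) ≤ |lap f|₁ + T |f|₁`; low momenta through 375's `PinC_rel`, high momenta
(`32 ≤ ρ² EE`) through 159's `fine_N`.
-/

set_option linter.unusedSectionVars false

namespace Vale.Agent.P159.H730

open Finset Matrix MeasureTheory
open Vale.Agent.P159.TM.H104 (EM Ex Cv K3 Lg li nh Gr)
open Vale.Agent.P159.H37
open Vale.Agent.P159.TM.Spec (V)
open Vale.Agent.P159.TM.SpecC (wT)
open Vale.Agent.P159.TM.H764 (cN sN dt EE pw hatu ch)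
open Vale.Agent.P159.H864 (TI sym hsq hsq_nonneg lapM ti_lapM sym_lapM qf_eq_sum sum_hsq cobV rd cen
  Wl Wl_nonneg Wl_le_one l_pos)
open Vale.Agent.P159.H963 (Neu Gn Gnh Pin PinC nwt nMC nM Gnc obsN)
open Vale.Agent.P159.H447 (CN SN)

noncomputable section

section fourier

variable {N : ℕ} [NeZero N]

/-- the Fourier transform is bounded by the `l¹` norm -/
lemma hsq_le_l1 (u : V N → ℝ) (k : V N) : hsq u k ≤ (∑ x, |u x|) ^ 2 := by
  have h1 : ‖hatu u k‖ ≤ ∑ x, |u x| := by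
    unfold TM.H764.hatu
    refine (norm_sum_le _ _).trans (Finset.sum_le_sum fun x _ => ?_)
    rw [norm_mul, H159.norm_ch, mul_one, Complex.norm_real, Real.norm_eq_abs]
  have h2 : hsq u k = ‖hatu u k‖ ^ 2 := Complex.normSq_eq_norm_sq _
  rw [h2]
  exact pow_le_pow_left₀ (norm_nonneg _) h1 2

/-- `|f^(k)| (T + EE k) ≤ T |f|₁ + |lap f|₁` -/
lemma hsq_mul_le {T : ℝ} (hT : 0 ≤ T) (f : V N → ℝ) (k : V N) :
    hsq f k * (T + EE k) ^ 2 ≤ (T * ∑ x, |f x| + ∑ x, |(lapM *ᵥ f) x|) ^ 2 := by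
  have hA : TI (T • (1 : Matrix (V N) (V N) ℝ) + lapM) := (TI.one.smul T).add ti_lapM
  have e1 := H692.hsq_mulVec hA f k
  have e2 : sym (T • (1 : Matrix (V N) (V N) ℝ) + lapM) k = T + EE k := by
    rw [H864.sym_add, H864.sym_smul_one, sym_lapM]
  rw [e2] at e1
  have h1 := hsq_le_l1 ((T • (1 : Matrix (V N) (V N) ℝ) + lapM) *ᵥ f) k
  rw [e1, mul_comm] at h1
  refine h1.trans (pow_le_pow_left₀ (Finset.sum_nonneg fun x _ => abs_nonneg _) ?_ 2)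
  rw [Finset.mul_sum, ← Finset.sum_add_distrib]
  refine Finset.sum_le_sum fun x _ => ?_
  rw [Matrix.add_mulVec, Matrix.smul_mulVec, Matrix.one_mulVec, Pi.add_apply, Pi.smul_apply,
    smul_eq_mul]
  refine (abs_add_le _ _).trans ?_
  rw [abs_mul, abs_of_nonneg hT]

/-- **the rough momenta are controlled by the fine energy of the cells of side `ρ`** -/
theorem high_site {ρ : ℕ} (hρ : ρ ∣ N) {A : Matrix (V N) (V N) ℝ} (hA : TI A)
    (h0 : ∀ p, 0 ≤ sym A p) (H : Finset (V N)) (hH : ∀ p ∈ H, 32 ≤ (ρ : ℝ) ^ 2 * EE p) :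
    ∑ p ∈ H, sym A p ≤ 4 / 3 * ((1 - cellP N ρ) * A).trace := by
  have hne : NeZero (N / ρ) := H159.nez_div hρ
  have hρ0 : (0 : ℝ) < ρ := by exact_mod_cast l_pos hρ
  rw [H159.trace_fine hρ hA, Finset.mul_sum]
  have h1 : ∀ p : V N, 0 ≤ 4 / 3 * ((1 - Wl ρ p) * sym A p) := fun p =>
    mul_nonneg (by norm_num) (mul_nonneg (sub_nonneg.2 (Wl_le_one hρ p)) (h0 p))
  refine le_trans (Finset.sum_le_sum fun p hp => ?_)
    (Finset.sum_le_sum_of_subset_of_nonneg (Finset.subset_univ H) fun p _ _ => h1 p)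
  have h4 := hH p hp
  have h5 := H159.Wl_mul_le hρ p
  have h6 := Wl_nonneg (l := ρ) p
  have h7 : Wl ρ p ≤ 1 / 4 := by nlinarith
  have h9 := h0 p
  nlinarith

/-- small momenta are central -/
lemma cen_of_EE {l : ℕ} (hl : l ∣ N) {p : V N} (h : EE p < 4 / (l : ℝ) ^ 2) : cen l p := by
  have hlp : (0 : ℝ) < l := by exact_mod_cast Nat.pos_of_dvd_of_pos hl (NeZero.pos N)
  have hN : (0 : ℝ) < N := by exact_mod_cast NeZero.pos N
  have key : ∀ z : ZMod N, 2 * (1 - cN z) < 4 / (l : ℝ) ^ 2 → 2 * l * z.valMinAbs.natAbs ≤ N := by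
    intro z hz
    by_contra hc
    push Not at hc
    have h1 : (N : ℝ) < 2 * l * |(z.valMinAbs : ℝ)| := by
      have h2 : (N : ℝ) < ((2 * l * z.valMinAbs.natAbs : ℕ) : ℝ) := by exact_mod_cast hc
      push_cast at h2
      rwa [← Int.cast_abs, Int.abs_eq_natAbs, Int.cast_natCast] 
    have h3 := H340.one_sub_cN_ge z
    have h4 : (N : ℝ) ^ 2 < (2 * l * |(z.valMinAbs : ℝ)|) ^ 2 :=
      pow_lt_pow_left₀ h1 hN.le (by norm_num)
    rw [mul_pow, sq_abs] at h4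
    have h5 : 4 / (l : ℝ) ^ 2 < 16 * (z.valMinAbs : ℝ) ^ 2 / (N : ℝ) ^ 2 := by
      rw [div_lt_div_iff₀ (by positivity) (by positivity)]
      nlinarith
    linarith
  have hn1 : 0 ≤ 1 - cN p.1 := by linarith [TM.H764.cN_le_one p.1]
  have hn2 : 0 ≤ 1 - cN p.2 := by linarith [TM.H764.cN_le_one p.2]
  unfold TM.H764.EE at h
  exact ⟨key p.1 (by linarith), key p.2 (by linarith)⟩

end fourier

section main

variable {N l : ℕ} [NeZero N] [NeZero (N / l)] {b : ℝ}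

/-- the relative error of the cells at the momenta `EE ≤ 32 / ρ²` -/
def eDr (C c c₀ : ℝ) (N l ρ : ℕ) (T : ℝ) : ℝ :=
  C * √(T * (N : ℝ) ^ 2) * (T * (l : ℝ) ^ 2) ^ c + 6 * (l : ℝ) ^ 2 * (T + 32 / (ρ : ℝ) ^ 2) / c₀

/-- low momenta: the drop at the sites against the drop of the cells -/
lemma low_drop (hb : 0 < b) (hl : l ∣ N) {C c c₀ c₁ : ℝ} {ρ : ℕ} {T t' : ℝ} (hc₀ : 0 < c₀)
    (hc₁ : 1 ≤ c₁) (hC : 0 < C) (ht' : 0 < t')
    (lo : ∀ k : V N, k ≠ 0 → c₀ * EE k ≤ Pin N b t' k)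
    (up : ∀ k : V N, k ≠ 0 → Pin N b T k ≤ c₁ * EE k)
    (hU : ∀ τ : ℝ, 0 < τ → τ ≤ T → ∀ c0 : ℝ, 0 < c0 →
      (∀ q : V N, Gnh N b τ q ≤ (τ + c0 * EE q)⁻¹) → ∀ p : V N, cen l p → p ≠ 0 →
      (τ + Pin N b τ p) * (H375.eFin C c N l T (τ + EE p) + 6 * (l : ℝ) ^ 2 / c0) ≤ 1 / 2 →
      |PinC N l b T τ (rd p) - Pin N b τ p| ≤
        2 * (τ + Pin N b τ p) ^ 2 * (H375.eFin C c N l T (τ + EE p) + 6 * (l : ℝ) ^ 2 / c0))
    (hsm : c₁ * eDr C c c₀ N l ρ T ≤ 1 / 2) {p : V N} (hp : cen l p) (hp0 : p ≠ 0)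
    (hlow : EE p ≤ 32 / (ρ : ℝ) ^ 2) {τ : ℝ} (h1 : t' ≤ τ) (h2 : τ ≤ T) :
    |PinC N l b T τ (rd p) - Pin N b τ p| ≤ 2 * c₁ ^ 2 * eDr C c c₀ N l ρ T * (τ + EE p) := by
  have hτ : 0 < τ := ht'.trans_le h1
  have hlR : (0 : ℝ) < l := by exact_mod_cast l_pos hl
  have hT : 0 < T := hτ.trans_le h2
  have hE := TM.H764.EE_nonneg p
  have hx : 0 < τ + EE p := by linarith
  have m1 : ∀ {k : V N}, k ≠ 0 → Pin N b t' k ≤ Pin N b τ k := fun hk =>
    H276.Pin_mono (N := N) hb ht' h1 hk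
  have m2 : ∀ {k : V N}, k ≠ 0 → Pin N b τ k ≤ Pin N b T k := fun hk =>
    H276.Pin_mono (N := N) hb hτ h2 hk
  have hlo : ∀ q : V N, Gnh N b τ q ≤ (τ + c₀ * EE q)⁻¹ := by
    intro q
    have hEq := TM.H764.EE_nonneg q
    by_cases hq : q = 0
    · subst hq
      rw [H963.Gnh_zero]
      have := mul_nonneg hc₀.le hEq
      positivity
    · have g := H963.Gnh_pos (N := N) hb hτ hq
      have h3 : τ + c₀ * EE q ≤ (Gnh N b τ q)⁻¹ := by
        have h4 := (lo q hq).trans (m1 hq)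
        unfold H963.Pin at h4
        linarith
      rw [← inv_inv (Gnh N b τ q)]
      exact inv_anti₀ (by have := mul_nonneg hc₀.le hEq; linarith) h3
  have hP : 0 < τ + Pin N b τ p := by
    have e1 : τ + Pin N b τ p = (Gnh N b τ p)⁻¹ := by
      unfold H963.Pin
      ring
    rw [e1]
    exact inv_pos.2 (H963.Gnh_pos (N := N) hb hτ hp0)
  have hPD : τ + Pin N b τ p ≤ c₁ * (τ + EE p) := by
    have h4 := (m2 hp0).trans (up p hp0)
    nlinarith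
  have e0 : 0 ≤ eDr C c c₀ N l ρ T := by
    unfold eDr
    positivity
  have hx2 : H375.eFin C c N l T (τ + EE p) + 6 * (l : ℝ) ^ 2 / c₀ ≤
      eDr C c c₀ N l ρ T / (τ + EE p) := by
    rw [le_div_iff₀ hx]
    unfold H375.eFin eDr
    have h5 : (C / (τ + EE p) * √(T * (N : ℝ) ^ 2) * (T * (l : ℝ) ^ 2) ^ c +
        6 * (l : ℝ) ^ 2 / c₀) * (τ + EE p) =
        C * √(T * (N : ℝ) ^ 2) * (T * (l : ℝ) ^ 2) ^ c +
          6 * (l : ℝ) ^ 2 * (τ + EE p) / c₀ := by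
      field_simp
    rw [h5]
    have h6 : 6 * (l : ℝ) ^ 2 * (τ + EE p) / c₀ ≤
        6 * (l : ℝ) ^ 2 * (T + 32 / (ρ : ℝ) ^ 2) / c₀ := by
      gcongr
    linarith
  have hs : (τ + Pin N b τ p) * (H375.eFin C c N l T (τ + EE p) + 6 * (l : ℝ) ^ 2 / c₀) ≤
      1 / 2 := by
    calc (τ + Pin N b τ p) * (H375.eFin C c N l T (τ + EE p) + 6 * (l : ℝ) ^ 2 / c₀)
        ≤ (τ + Pin N b τ p) * (eDr C c c₀ N l ρ T / (τ + EE p)) :=
          mul_le_mul_of_nonneg_left hx2 hP.le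
      _ ≤ c₁ * (τ + EE p) * (eDr C c c₀ N l ρ T / (τ + EE p)) :=
          mul_le_mul_of_nonneg_right hPD (by positivity)
      _ = c₁ * eDr C c c₀ N l ρ T := by field_simp
      _ ≤ 1 / 2 := hsm
  refine (hU τ hτ h2 c₀ hc₀ hlo p hp hp0 hs).trans ?_
  have hsq : (τ + Pin N b τ p) ^ 2 ≤ (c₁ * (τ + EE p)) ^ 2 := pow_le_pow_left₀ hP.le hPD 2
  calc 2 * (τ + Pin N b τ p) ^ 2 * (H375.eFin C c N l T (τ + EE p) + 6 * (l : ℝ) ^ 2 / c₀)
      ≤ 2 * (τ + Pin N b τ p) ^ 2 * (eDr C c c₀ N l ρ T / (τ + EE p)) :=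
        mul_le_mul_of_nonneg_left hx2 (by positivity)
    _ ≤ 2 * (c₁ * (τ + EE p)) ^ 2 * (eDr C c c₀ N l ρ T / (τ + EE p)) :=
        mul_le_mul_of_nonneg_right (by linarith) (by positivity)
    _ = 2 * c₁ ^ 2 * eDr C c c₀ N l ρ T * (τ + EE p) := by
        field_simp

/-- the sum over the low momenta -/
lemma low_sum (hb : 0 < b) (hl : l ∣ N) {C c c₀ c₁ : ℝ} {ρ : ℕ} {T t t' : ℝ} (hc₀ : 0 < c₀)
    (hc₁ : 1 ≤ c₁) (hC : 0 < C) (hlρ : 3 * l ≤ ρ) (ht' : 0 < t') (htt : t' ≤ t) (htT : t ≤ T)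
    (lo : ∀ k : V N, k ≠ 0 → c₀ * EE k ≤ Pin N b t' k)
    (up : ∀ k : V N, k ≠ 0 → Pin N b T k ≤ c₁ * EE k)
    (hU : ∀ τ : ℝ, 0 < τ → τ ≤ T → ∀ c0 : ℝ, 0 < c0 →
      (∀ q : V N, Gnh N b τ q ≤ (τ + c0 * EE q)⁻¹) → ∀ p : V N, cen l p → p ≠ 0 →
      (τ + Pin N b τ p) * (H375.eFin C c N l T (τ + EE p) + 6 * (l : ℝ) ^ 2 / c0) ≤ 1 / 2 →
      |PinC N l b T τ (rd p) - Pin N b τ p| ≤
        2 * (τ + Pin N b τ p) ^ 2 * (H375.eFin C c N l T (τ + EE p) + 6 * (l : ℝ) ^ 2 / c0))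
    (hsm : c₁ * eDr C c c₀ N l ρ T ≤ 1 / 2) (f : V N → ℝ) {L1 : ℝ}
    (hL1 : L1 = T * ∑ x, |f x| + ∑ x, |(lapM *ᵥ f) x|) {Lo : Finset (V N)}
    (hLo : Lo = (univ.erase (0 : V N)).filter fun p => (ρ : ℝ) ^ 2 * EE p < 32) :
    ∑ k ∈ Lo, hsq f k * (Pin N b t k - Pin N b t' k) ≤
      4 * (c₁ + 1) ^ 2 * L1 ^ 2 * (4 * ThN N l b T (t' / 2) T / t') +
        4 * c₁ ^ 2 * eDr C c c₀ N l ρ T * ((N : ℝ) ^ 2 * (t * ∑ x, f x ^ 2 + qf lapM f)) := by
  have hl0 : 0 < l := l_pos hl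
  have hlR : (0 : ℝ) < l := by exact_mod_cast hl0
  have hρ0 : 0 < ρ := by omega
  have hρR : (0 : ℝ) < ρ := by exact_mod_cast hρ0
  have hNR : (0 : ℝ) < N := by exact_mod_cast NeZero.pos N
  have ht : 0 < t := ht'.trans_le htt
  have hT : 0 < T := ht.trans_le htT
  have hlρR : 3 * (l : ℝ) ≤ ρ := by exact_mod_cast hlρ
  obtain ⟨E, hEd⟩ : ∃ E, E = eDr C c c₀ N l ρ T := ⟨_, rfl⟩
  obtain ⟨Th, hTh⟩ : ∃ Th, Th = ThN N l b T (t' / 2) T := ⟨_, rfl⟩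
  have hE0 : 0 ≤ E := by
    rw [hEd]
    unfold eDr
    positivity
  have hsmE : c₁ * E ≤ 1 / 2 := by
    rw [hEd]
    exact hsm
  rw [← hEd, ← hTh]
  have hcen : ∀ p ∈ Lo, p ≠ 0 ∧ EE p ≤ 32 / (ρ : ℝ) ^ 2 ∧ EE p < 4 / (l : ℝ) ^ 2 ∧ cen l p := by
    intro p hp
    rw [hLo, Finset.mem_filter, Finset.mem_erase] at hp
    have h1 : EE p < 32 / (ρ : ℝ) ^ 2 := by
      rw [lt_div_iff₀ (by positivity)]
      linarith [hp.2]
    have h2 : 32 / (ρ : ℝ) ^ 2 ≤ 4 / (l : ℝ) ^ 2 := by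
      rw [div_le_div_iff₀ (by positivity) (by positivity)]
      nlinarith
    exact ⟨hp.1.1, h1.le, h1.trans_le h2, cen_of_EE hl (h1.trans_le h2)⟩
  have hrd0 : ∀ p ∈ Lo, (rd p : V (N / l)) ≠ 0 := by
    intro p hp h0
    obtain ⟨p0, -, p2, -⟩ := hcen p hp
    have hc0 : cen l (0 : V N) := by
      unfold H864.cen
      simp
    have hr0 : (rd p : V (N / l)) = rd (0 : V N) := by
      rw [h0]
      have : (rd (0 : V N) : V (N / l)) = 0 := by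
        unfold H864.rd H864.rd1
        simp
      rw [this]
    have := H864.EE_alias_ge hl hc0 hr0 p0
    linarith
  have hinj : Set.InjOn (fun p : V N => (rd p : V (N / l))) (Lo : Set (V N)) := by
    intro p hp q hq h
    by_contra hne
    obtain ⟨-, -, p2, p3⟩ := hcen p hp
    obtain ⟨-, -, q2, q3⟩ := hcen q hq
    have := H864.EE_alias_ge hl q3 h hne
    linarith
  obtain ⟨g, hg⟩ : ∃ g : V (N / l) → ℝ, ∀ k, g k =
      (PinC N l b T T k - PinC N l b T t' k) / (t' + PinC N l b T T k) ^ 2 := ⟨_, fun _ => rfl⟩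
  have hg0 : ∀ k : V (N / l), k ≠ 0 → 0 ≤ g k := fun k hk => by
    rw [hg]
    exact div_nonneg (sub_nonneg.2
      (H447.PinC_mono (N := N) (l := l) hb hl ht' (htt.trans htT) le_rfl hk)) (sq_nonneg _)
  have hthd : ∑ k ∈ univ.erase (0 : V (N / l)), g k ≤ 4 * Th / t' := by
    have h1 := thd_N (N := N) (l := l) (b := b) (t := T) (τ' := t' / 2) (σ := t') (τ := T) hb hl
      (by linarith) (by linarith) (htt.trans htT) le_rfl
    rw [le_div_iff₀ ht']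
    have e : t' - t' / 2 = t' / 2 := by ring
    rw [e] at h1
    simp only [← hg] at h1
    rw [← hTh] at h1
    have h2 : t' / 2 * ∑ k ∈ univ.erase (0 : V (N / l)), g k ≤ 2 * Th := h1
    linarith
  have hlow : ∀ p ∈ Lo, hsq f p * (Pin N b t p - Pin N b t' p) ≤
      4 * (c₁ + 1) ^ 2 * L1 ^ 2 * g (rd p) + 4 * c₁ ^ 2 * E * (hsq f p * (t + EE p)) := by
    intro p hp
    obtain ⟨p0, p1, p2, p3⟩ := hcen p hp
    have hr := hrd0 p hp
    have hEp := TM.H764.EE_nonneg p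
    have hq := hsq_nonneg f p
    have a1 := low_drop hb hl hc₀ hc₁ hC ht' lo up hU hsm p3 p0 p1 (τ := t) htt htT
    have a2 := low_drop hb hl hc₀ hc₁ hC ht' lo up hU hsm p3 p0 p1 (τ := t') le_rfl
      (htt.trans htT)
    have a3 := low_drop hb hl hc₀ hc₁ hC ht' lo up hU hsm p3 p0 p1 (τ := T)
      (htt.trans htT) le_rfl
    rw [← hEd] at a1 a2 a3
    have a4 := H447.PinC_mono (N := N) (l := l) hb hl ht htT (le_refl T) hr
    have b1 := (abs_le.1 a1).1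
    have b2 := (abs_le.1 a2).2
    have b3 := (abs_le.1 a3).2
    have a5 : 2 * c₁ ^ 2 * E * (t' + EE p) ≤ 2 * c₁ ^ 2 * E * (t + EE p) :=
      mul_le_mul_of_nonneg_left (by linarith) (by positivity)
    have a6 : Pin N b t p - Pin N b t' p ≤ (PinC N l b T T (rd p) - PinC N l b T t' (rd p)) +
        4 * c₁ ^ 2 * E * (t + EE p) := by linarith
    have hPC : 0 ≤ PinC N l b T T (rd p) := H963.PinC_nonneg (N := N) (l := l) hb hl hT le_rfl hr
    have a7 : t' + PinC N l b T T (rd p) ≤ 2 * (c₁ + 1) * (T + EE p) := by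
      have c1' := up p p0
      have c2' : 2 * c₁ ^ 2 * E * (T + EE p) ≤ c₁ * (T + EE p) := by
        refine mul_le_mul_of_nonneg_right ?_ (by linarith)
        have := mul_le_mul_of_nonneg_left hsmE (by linarith : (0 : ℝ) ≤ 2 * c₁)
        linarith
      nlinarith
    have a8 : hsq f p * (t' + PinC N l b T T (rd p)) ^ 2 ≤ 4 * (c₁ + 1) ^ 2 * L1 ^ 2 := by
      have d1 : (t' + PinC N l b T T (rd p)) ^ 2 ≤ (2 * (c₁ + 1) * (T + EE p)) ^ 2 :=
        pow_le_pow_left₀ (by linarith) a7 2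
      have d2 := hsq_mul_le hT.le f p
      rw [← hL1] at d2
      calc hsq f p * (t' + PinC N l b T T (rd p)) ^ 2
          ≤ hsq f p * (2 * (c₁ + 1) * (T + EE p)) ^ 2 := mul_le_mul_of_nonneg_left d1 hq
        _ = 4 * (c₁ + 1) ^ 2 * (hsq f p * (T + EE p) ^ 2) := by ring
        _ ≤ 4 * (c₁ + 1) ^ 2 * L1 ^ 2 := mul_le_mul_of_nonneg_left d2 (by positivity)
    have a9 : hsq f p * (PinC N l b T T (rd p) - PinC N l b T t' (rd p)) ≤
        4 * (c₁ + 1) ^ 2 * L1 ^ 2 * g (rd p) := by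
      have hpos : 0 < (t' + PinC N l b T T (rd p)) ^ 2 := by positivity
      have e : hsq f p * (PinC N l b T T (rd p) - PinC N l b T t' (rd p)) =
          hsq f p * (t' + PinC N l b T T (rd p)) ^ 2 * g (rd p) := by
        rw [hg, mul_assoc, mul_div_cancel₀ _ hpos.ne']
      rw [e]
      exact mul_le_mul_of_nonneg_right a8 (hg0 _ hr)
    have a10 := mul_le_mul_of_nonneg_left a6 hq
    calc hsq f p * (Pin N b t p - Pin N b t' p)
        ≤ hsq f p * ((PinC N l b T T (rd p) - PinC N l b T t' (rd p)) +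
          4 * c₁ ^ 2 * E * (t + EE p)) := a10
      _ = hsq f p * (PinC N l b T T (rd p) - PinC N l b T t' (rd p)) +
          4 * c₁ ^ 2 * E * (hsq f p * (t + EE p)) := by ring
      _ ≤ _ := by linarith
  refine (Finset.sum_le_sum hlow).trans ?_
  rw [Finset.sum_add_distrib, ← Finset.mul_sum, ← Finset.mul_sum]
  refine add_le_add (mul_le_mul_of_nonneg_left ?_ (by positivity))
    (mul_le_mul_of_nonneg_left ?_ (by positivity))
  · have h1 : ∑ p ∈ Lo, g (rd p) = ∑ k ∈ Lo.image (fun p : V N => (rd p : V (N / l))), g k :=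
      (Finset.sum_image (f := g) (g := fun p : V N => (rd p : V (N / l))) hinj).symm
    rw [h1]
    refine le_trans (Finset.sum_le_sum_of_subset_of_nonneg ?_ fun k hk _ =>
      hg0 k (Finset.ne_of_mem_erase hk)) hthd
    intro k hk
    obtain ⟨p, hp, rfl⟩ := Finset.mem_image.1 hk
    exact Finset.mem_erase.2 ⟨hrd0 p hp, Finset.mem_univ _⟩
  · have h1 : ∑ p ∈ Lo, hsq f p * (t + EE p) ≤ ∑ p : V N, hsq f p * (t + EE p) :=
      Finset.sum_le_sum_of_subset_of_nonneg (Finset.subset_univ _) fun p _ _ =>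
        mul_nonneg (hsq_nonneg f p) (by have := TM.H764.EE_nonneg p; linarith)
    refine h1.trans (le_of_eq ?_)
    rw [← sum_hsq f, qf_eq_sum ti_lapM f]
    simp only [sym_lapM]
    rw [mul_add, ← mul_assoc, ← mul_assoc, mul_comm ((N : ℝ) ^ 2) t, mul_assoc t,
      mul_inv_cancel₀ (by positivity), mul_one, ← mul_assoc,
      mul_inv_cancel₀ (by positivity : (N : ℝ) ^ 2 ≠ 0), one_mul, Finset.mul_sum,
      ← Finset.sum_add_distrib]
    exact Finset.sum_congr rfl fun p _ => by ring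

/-- the sum over the high momenta -/
lemma high_sum (hb : 0 < b) {C1 C c1 c c₁ : ℝ} {ρ : ℕ} {T t t' : ℝ} (hρ : ρ ∣ N) (hc₁ : 1 ≤ c₁)
    (hC : 0 < C) (h6 : 4 / 3 * C1 ≤ C) (hcc : c ≤ c1) (ht' : 0 < t') (htt : t' ≤ t)
    (htT : t ≤ T) (htρ : t * (ρ : ℝ) ^ 2 ≤ 1)
    (up : ∀ k : V N, k ≠ 0 → Pin N b T k ≤ c₁ * EE k)
    (hF : Ex (nwt N b t' 0) 0 (fun h => qf (1 - cellP N ρ) (re h)) -
      Ex (nwt N b t 0) 0 (fun h => qf (1 - cellP N ρ) (re h)) ≤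
        C1 * (N : ℝ) ^ 2 * (t * (ρ : ℝ) ^ 2) ^ c1) (f : V N → ℝ) {L1 : ℝ}
    (hL1 : L1 = T * ∑ x, |f x| + ∑ x, |(lapM *ᵥ f) x|) {Hi : Finset (V N)}
    (hHi : Hi = (univ.erase (0 : V N)).filter fun p => ¬ (ρ : ℝ) ^ 2 * EE p < 32) :
    ∑ k ∈ Hi, hsq f k * (Pin N b t k - Pin N b t' k) ≤
      c₁ ^ 2 * L1 ^ 2 * (C * ((N : ℝ) ^ 2 * (t * (ρ : ℝ) ^ 2) ^ c)) := by
  have hρ0 : 0 < ρ := Nat.pos_of_dvd_of_pos hρ (NeZero.pos N)
  have hρR : (0 : ℝ) < ρ := by exact_mod_cast hρ0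
  have hNR : (0 : ℝ) < N := by exact_mod_cast NeZero.pos N
  have ht : 0 < t := ht'.trans_le htt
  have hT : 0 < T := ht.trans_le htT
  have tA : TI (Gn N b t' - Gn N b t) :=
    (H963.ti_Gn (N := N) hb.le ht').sub (H963.ti_Gn (N := N) hb.le ht)
  have hGm : ∀ p : V N, Gnh N b t p ≤ Gnh N b t' p := by
    intro p
    by_cases hp : p = 0
    · subst hp
      rw [H963.Gnh_zero, H963.Gnh_zero]
    · have hm : ∀ u : V N → ℝ, Neu u → qf (Gn N b t) u ≤ qf (Gn N b t') u := by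
        intro u hu
        rw [H963.qf_Gn_neu N b t hu, H963.qf_Gn_neu N b t' hu]
        have h1 := H159.mono_N hb.le ht (H159.masN_sc (N := N) ht' htt le_rfl) 0 hu
        have h2 : nM (wT b N) (t' • (1 : Matrix (V N) (V N) ℝ)) t' 0 = nwt N b t' 0 := rfl
        have h3 : nM (wT b N) (t • (1 : Matrix (V N) (V N) ℝ)) t 0 = nwt N b t 0 := rfl
        rw [h2, h3] at h1
        linarith
      exact H963.sym_le_of_waves' (H963.ti_Gn hb.le ht) (H963.ti_Gn hb.le ht')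
        (hm _ (H963.neu_cN hp)) (hm _ (H963.neu_sN p))
  have hsA : ∀ p : V N, sym (Gn N b t' - Gn N b t) p = Gnh N b t' p - Gnh N b t p := by
    intro p
    rw [H864.sym_sub]
    rfl
  have hhs : ∑ p ∈ Hi, (Gnh N b t' p - Gnh N b t p) ≤
      C * ((N : ℝ) ^ 2 * (t * (ρ : ℝ) ^ 2) ^ c) := by
    have h1 := high_site hρ tA (fun p => by rw [hsA]; linarith [hGm p]) Hi (fun p hp => by
      rw [hHi, Finset.mem_filter, not_lt] at hp
      exact hp.2)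
    simp only [hsA] at h1
    have h2 := hF
    rw [H159.Ex_fine hb.le hρ ht', H159.Ex_fine hb.le hρ ht] at h2
    rw [Matrix.mul_sub, Matrix.trace_sub] at h1
    have h5 : (t * (ρ : ℝ) ^ 2) ^ c1 ≤ (t * (ρ : ℝ) ^ 2) ^ c :=
      Real.rpow_le_rpow_of_exponent_ge (by positivity) htρ hcc
    calc ∑ p ∈ Hi, (Gnh N b t' p - Gnh N b t p)
        ≤ 4 / 3 * (C1 * (N : ℝ) ^ 2 * (t * (ρ : ℝ) ^ 2) ^ c1) := by linarith
      _ = 4 / 3 * C1 * ((N : ℝ) ^ 2 * (t * (ρ : ℝ) ^ 2) ^ c1) := by ring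
      _ ≤ C * ((N : ℝ) ^ 2 * (t * (ρ : ℝ) ^ 2) ^ c) :=
          mul_le_mul h6 (mul_le_mul_of_nonneg_left h5 (by positivity)) (by positivity) hC.le
  have hhigh : ∀ p ∈ Hi, hsq f p * (Pin N b t p - Pin N b t' p) ≤
      c₁ ^ 2 * L1 ^ 2 * (Gnh N b t' p - Gnh N b t p) := by
    intro p hp
    have p0 : p ≠ 0 := by
      rw [hHi, Finset.mem_filter, Finset.mem_erase] at hp
      exact hp.1.1
    have hEp := TM.H764.EE_nonneg p
    have hq := hsq_nonneg f p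
    have g1 := H963.Gnh_pos (N := N) hb ht p0
    have g2 := H963.Gnh_pos (N := N) hb ht' p0
    have g3 := hGm p
    have e1 : (Gnh N b t p)⁻¹ = t + Pin N b t p := by
      unfold H963.Pin
      ring
    have a1 : Pin N b t p - Pin N b t' p ≤
        (Gnh N b t' p - Gnh N b t p) * (t + Pin N b t p) ^ 2 := by
      have b1 : Pin N b t p - Pin N b t' p ≤ (Gnh N b t p)⁻¹ - (Gnh N b t' p)⁻¹ := by
        unfold H963.Pin
        linarith
      have b2 : (Gnh N b t p)⁻¹ - (Gnh N b t' p)⁻¹ =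
          (Gnh N b t' p - Gnh N b t p) * ((Gnh N b t p)⁻¹ * (Gnh N b t' p)⁻¹) := by
        field_simp
      have b3 : (Gnh N b t' p)⁻¹ ≤ (Gnh N b t p)⁻¹ := inv_anti₀ g1 g3
      rw [b2] at b1
      refine b1.trans (mul_le_mul_of_nonneg_left ?_ (by linarith))
      rw [← e1, pow_two]
      exact mul_le_mul_of_nonneg_left b3 (inv_pos.2 g1).le
    have a2 : t + Pin N b t p ≤ c₁ * (T + EE p) := by
      have h4 := (H276.Pin_mono (N := N) hb ht htT p0).trans (up p p0)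
      nlinarith
    have hP : 0 ≤ t + Pin N b t p := by
      rw [← e1]
      exact (inv_pos.2 g1).le
    have a3 : hsq f p * (t + Pin N b t p) ^ 2 ≤ c₁ ^ 2 * L1 ^ 2 := by
      have d2 := hsq_mul_le hT.le f p
      rw [← hL1] at d2
      calc hsq f p * (t + Pin N b t p) ^ 2 ≤ hsq f p * (c₁ * (T + EE p)) ^ 2 :=
            mul_le_mul_of_nonneg_left (pow_le_pow_left₀ hP a2 2) hq
        _ = c₁ ^ 2 * (hsq f p * (T + EE p) ^ 2) := by ring
        _ ≤ c₁ ^ 2 * L1 ^ 2 := mul_le_mul_of_nonneg_left d2 (by positivity)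
    calc hsq f p * (Pin N b t p - Pin N b t' p)
        ≤ hsq f p * ((Gnh N b t' p - Gnh N b t p) * (t + Pin N b t p) ^ 2) :=
          mul_le_mul_of_nonneg_left a1 hq
      _ = hsq f p * (t + Pin N b t p) ^ 2 * (Gnh N b t' p - Gnh N b t p) := by ring
      _ ≤ _ := mul_le_mul_of_nonneg_right a3 (by linarith)
  refine (Finset.sum_le_sum hhigh).trans ?_
  rw [← Finset.mul_sum]
  exact mul_le_mul_of_nonneg_left hhs (by positivity)

/-- **DropA, sum form** -/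
theorem drA (hb : 0 < b) : ∃ C c : ℝ, 0 < C ∧ 0 < c ∧
    ∀ (N l ρ : ℕ) [NeZero N] [NeZero (N / l)] (T t t' c₀ c₁ : ℝ), l ∣ N → ρ ∣ N → 3 * l ≤ ρ →
      0 < t' → t' ≤ t → t ≤ T → 9 ≤ t * (N : ℝ) ^ 2 → T * (ρ : ℝ) ^ 2 ≤ 1 → 0 < c₀ → 1 ≤ c₁ →
      (∀ k : V N, k ≠ 0 → c₀ * EE k ≤ Pin N b t' k) →
      (∀ k : V N, k ≠ 0 → Pin N b T k ≤ c₁ * EE k) →
      c₁ * eDr C c c₀ N l ρ T ≤ 1 / 2 → ∀ f : V N → ℝ,
      ((N : ℝ) ^ 2)⁻¹ * ∑ k ∈ univ.erase (0 : V N), hsq f k * (Pin N b t k - Pin N b t' k) ≤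
        (16 * (c₁ + 1) ^ 2 * (ThN N l b T (t' / 2) T / (t' * (N : ℝ) ^ 2)) +
          C * c₁ ^ 2 * (t * (ρ : ℝ) ^ 2) ^ c) *
            (T * ∑ x, |f x| + ∑ x, |(lapM *ᵥ f) x|) ^ 2 +
        4 * c₁ ^ 2 * eDr C c c₀ N l ρ T * (t * ∑ x, f x ^ 2 + qf lapM f) := by
  obtain ⟨C1, c1, hC1, hc1, hF⟩ := H159.fine_N (b := b) hb.le
  obtain ⟨C2, c2, hC2, hc2, hU0⟩ := H375.PinC_rel (b := b) hb
  refine ⟨max (4 / 3 * C1) C2, min c1 c2, by positivity, lt_min hc1 hc2, ?_⟩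
  set C := max (4 / 3 * C1) C2 with hCd
  set c := min c1 c2 with hcd
  intro N l ρ _ _ T t t' c₀ c₁ hl hρ hlρ ht' htt htT htN hTρ hc₀ hc₁ lo up hsm f
  have hC : 0 < C := by positivity
  have hl0 : 0 < l := l_pos hl
  have hlR : (0 : ℝ) < l := by exact_mod_cast hl0
  have hρ0 : 0 < ρ := by omega
  have hρR : (0 : ℝ) < ρ := by exact_mod_cast hρ0
  have hNR : (0 : ℝ) < N := by exact_mod_cast NeZero.pos N
  have ht : 0 < t := ht'.trans_le htt
  have hT : 0 < T := ht.trans_le htT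
  have hlρR : 3 * (l : ℝ) ≤ ρ := by exact_mod_cast hlρ
  have hTl : T * (l : ℝ) ^ 2 ≤ 1 := by
    refine le_trans ?_ hTρ
    have : (l : ℝ) ^ 2 ≤ (ρ : ℝ) ^ 2 := pow_le_pow_left₀ hlR.le (by linarith) 2
    exact mul_le_mul_of_nonneg_left this hT.le
  have htρ : t * (ρ : ℝ) ^ 2 ≤ 1 :=
    (mul_le_mul_of_nonneg_right htT (sq_nonneg _)).trans hTρ
  have hTN : 9 ≤ T * (N : ℝ) ^ 2 :=
    htN.trans (mul_le_mul_of_nonneg_right htT (sq_nonneg _))
  -- 375 with the common constants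
  have hfin : ∀ x : ℝ, 0 < x → H375.eFin C2 c2 N l T x ≤ H375.eFin C c N l T x := by
    intro x hx
    unfold H375.eFin
    have h1 : (T * (l : ℝ) ^ 2) ^ c2 ≤ (T * (l : ℝ) ^ 2) ^ c :=
      Real.rpow_le_rpow_of_exponent_ge (by positivity) hTl (min_le_right _ _)
    have h2 : C2 / x * √(T * (N : ℝ) ^ 2) ≤ C / x * √(T * (N : ℝ) ^ 2) := by
      gcongr
      exact le_max_right _ _
    exact mul_le_mul h2 h1 (by positivity) (by positivity)
  have hU : ∀ τ : ℝ, 0 < τ → τ ≤ T → ∀ c0 : ℝ, 0 < c0 →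
      (∀ q : V N, Gnh N b τ q ≤ (τ + c0 * EE q)⁻¹) → ∀ p : V N, cen l p → p ≠ 0 →
      (τ + Pin N b τ p) * (H375.eFin C c N l T (τ + EE p) + 6 * (l : ℝ) ^ 2 / c0) ≤ 1 / 2 →
      |PinC N l b T τ (rd p) - Pin N b τ p| ≤
        2 * (τ + Pin N b τ p) ^ 2 * (H375.eFin C c N l T (τ + EE p) + 6 * (l : ℝ) ^ 2 / c0) := by
    intro τ hτ hτT c0 hc0 hdom p hp hp0 hs
    have hx : 0 < τ + EE p := by
      have := TM.H764.EE_nonneg p
      linarith
    have h1 := hfin _ hx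
    have hP : 0 ≤ τ + Pin N b τ p := by
      have e1 : τ + Pin N b τ p = (Gnh N b τ p)⁻¹ := by
        unfold H963.Pin
        ring
      rw [e1]
      exact (inv_pos.2 (H963.Gnh_pos (N := N) hb hτ hp0)).le
    have h2 := hU0 N l T τ hτ hτT hTN hl hTl c0 hc0 hdom p hp hp0
      ((mul_le_mul_of_nonneg_left (by linarith) hP).trans hs)
    refine h2.trans (mul_le_mul_of_nonneg_left (by linarith) (by positivity))
  obtain ⟨L1, hL1⟩ : ∃ L1, L1 = T * ∑ x, |f x| + ∑ x, |(lapM *ᵥ f) x| := ⟨_, rfl⟩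
  have hsplit : ∑ k ∈ univ.erase (0 : V N), hsq f k * (Pin N b t k - Pin N b t' k) =
      ∑ k ∈ (univ.erase (0 : V N)).filter (fun p => (ρ : ℝ) ^ 2 * EE p < 32),
          hsq f k * (Pin N b t k - Pin N b t' k) +
        ∑ k ∈ (univ.erase (0 : V N)).filter (fun p => ¬ (ρ : ℝ) ^ 2 * EE p < 32),
          hsq f k * (Pin N b t k - Pin N b t' k) :=
    (Finset.sum_filter_add_sum_filter_not _ _ _).symm
  have h1 := low_sum hb hl hc₀ hc₁ hC hlρ ht' htt htT lo up hU hsm f hL1 rfl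
  have h2 := high_sum hb (C1 := C1) (c1 := c1) (c := c) (T := T) hρ hc₁ hC (le_max_left _ _)
    (min_le_left _ _) ht' htt htT htρ up ((hF N t ht htN ρ hρ htρ t'
      (t' • (1 : Matrix (V N) (V N) ℝ)) (t • (1 : Matrix (V N) (V N) ℝ)) t' t
      (H159.masN_sc ht' htt le_rfl) 0).2) f hL1 rfl
  rw [hsplit, ← hL1]
  have hfin2 := mul_le_mul_of_nonneg_left (add_le_add h1 h2)
    (by positivity : 0 ≤ ((N : ℝ) ^ 2)⁻¹)
  refine hfin2.trans (le_of_eq ?_)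
  field_simp
  ring

end main

end

end Vale.Agent.P159.H730
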