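import Vale.Agent.P159.H239.Ap4
import Vale.Agent.P159.H447.LawT

/-!
P159 / module APT (helper730), part 0: the abstract step of AP for an arbitrary measurable good set.

* `ap4s` : `ap4` of helper239 with the probability of the good set `S` as a hypothesis (any
  measurable `S`), source `e = b - Q G b`;
* `ap0s` : source `0` (no amplitude, no continuity argument): `P_exact(not Gs) ≤ p + 6 e^(1 - √λ/10)`;
* `gau_of_exact` : the Gaussian reference probability from the exact one.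
-/

set_option linter.unusedSectionVars false

namespace Vale.Agent.P159.H730

open Finset Matrix MeasureTheory ProbabilityTheory
open Vale.Agent.P159.TM.H104 (EM Ex Cv K3 Lg li nh Gr)
open Vale.Agent.P159.H37
open Vale.Agent.P159.H663 (GC ind EGr.ind ind_nonneg ind_le_one Gm_ge)
open Vale.Agent.P159.H447 (K4S Gs cl K4S_cs K4S_rank K4_diag_nonneg K4_meas K4_tail_exp K4_smul4
  cl_mono cl_nonneg)

noncomputable section

section step

variable {V : Type} [Fintype V] {I I' : Type*} [Fintype I] [Fintype I'] [DecidableEq I]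
  {μ' : (V → ℤ) → ℝ} {P : Matrix I V ℝ} {X : Matrix V I' ℝ}

lemma meas_Gs {μ : (V → ℤ) → ℝ} (hμ : EM μ) (hE : Ev μ) (hK : PK μ) (n : ℕ) (y : ℝ) :
    MeasurableSet (Gs μ n y) := by
  have h1 : Measurable fun F : V → ℝ => Rs μ ((2 : ℝ) ^ (n + 1) • F) :=
    (H114.continuous_Rs hμ).measurable.comp (measurable_const_smul _)
  exact (measurableSet_le h1 measurable_const).inter
    (measurableSet_le (K4_meas hμ hE hK) measurable_const)

/-- closure on the good set, one more factor `2` -/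
lemma Gs_Rs {μ : (V → ℤ) → ℝ} (hμ : EM μ) (hE : Ev μ) (hK : PK μ) {n : ℕ} {y : ℝ} {J : V → ℝ}
    (hJ : J ∈ Gs μ n y) : Rs μ ((2 : ℝ) • J) ≤ cl n (8 * y) := by
  obtain ⟨h1, h2⟩ := hJ
  have e1 : (2 : ℝ) ^ n • ((2 : ℝ) • J) = (2 : ℝ) ^ (n + 1) • J := by
    rw [smul_smul, pow_succ]
  have h3 := H789.Rs_closure hμ hE hK ((2 : ℝ) • J) n (by rw [e1]; exact h1)
  rw [K4_smul4 hμ hE hK] at h3
  refine h3.trans (cl_mono n (y := 8 * y) ?_)
  linarith

/-- **AP, one step with closure, arbitrary good set** -/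
theorem ap4s (hX : RL μ' P X) (hE : Ev (post μ' P)) (hK : PK (post μ' P)) {b e : V → ℝ}
    (he : e = b - Pᵀ *ᵥ (P *ᵥ (Gm (post μ' P) *ᵥ b))) {S : Set (V → ℝ)} (hS : MeasurableSet S)
    {n : ℕ} (hη : ∀ J ∈ S, Rs (post μ' P) ((2 : ℝ) ^ (n + 1) • J) ≤ 1) {D lam p q : ℝ}
    (hpS : ∀ s ∈ Set.Icc (0 : ℝ) 1, Rs μ' (s • e) ≤ 1 → Ech μ' (s • e) P (ind Sᶜ) ≤ p)
    (hD : 0 < D) (hKS : K4S (post μ' P) (X * Xᵀ) (X * Xᵀ) ≤ D) (hlam : 0 ≤ lam)
    (hb4 : K4 (post μ' P) b b b b ≤ lam * D / 16)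
    (hq : p + Real.exp 1 * (6 * Real.exp (-(√(lam / 16) / 10))) ≤ q) (hq1 : q ≤ 1 / 4)
    (hcl : cl n (8 * (lam * D)) ≤ 1 / 4) :
    ∀ s ∈ Set.Icc (0 : ℝ) 1, Rs μ' (s • e) ≤ cl n (8 * (lam * D)) + 2 * q ∧
      Ech μ' (s • e) P (ind (Gs (post μ' P) n (lam * D))ᶜ) ≤ q := by
  have hpost := em_post hX.em P
  set μ := post μ' P with hμ
  have hGm : MeasurableSet (Gs μ n (lam * D)) := meas_Gs hpost hE hK n _
  have hbad : ∀ s ∈ Set.Icc (0 : ℝ) 1, Rs μ' (s • e) ≤ 1 →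
      Ech μ' (s • e) P (ind (Gs μ n (lam * D))ᶜ) ≤ q := by
    intro s hs hR
    have he' : s • e = s • b - Pᵀ *ᵥ (P *ᵥ (Gm μ *ᵥ (s • b))) := by
      rw [he, mulVec_smul, mulVec_smul, mulVec_smul, smul_sub]
    have h4 : K4 μ (s • b) (s • b) (s • b) (s • b) ≤ lam * D / 16 := by
      rw [K4_smul4 hpost hE hK]
      have h5 := K4_diag_nonneg hpost hE hK b
      have h6 : s ^ 4 ≤ 1 := pow_le_one₀ hs.1 hs.2
      nlinarith
    exact (H239.bad_src hX hE hK he' hS hη hD hKS hlam h4 (hpS s hs hR)).trans hq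
  have hq0 : 0 ≤ q := by
    have h1 := hbad 0 (Set.left_mem_Icc.2 zero_le_one) (by
      rw [zero_smul, H789.Rs_zero]; norm_num)
    exact (H37.Ech_nonneg hX.em _ _ fun J => ind_nonneg _ J).trans h1
  have hlg := H239.neg_log_le hq0 (by linarith)
  have hRS : ∀ J ∈ Gs μ n (lam * D), Rs μ J ≤ cl n (8 * (lam * D)) := by
    intro J hJ
    have h4 := Gs_Rs hpost hE hK hJ
    have m1 : Rs μ J ≤ Rs μ ((2 : ℝ) • J) := by
      have := H789.Rs_ray_mono hpost hE hK J zero_le_one (one_le_two (α := ℝ))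
      rwa [one_smul] at this
    exact m1.trans h4
  have hfin := H239.ap_boot hX.em P hE hK he hGm hRS hbad (by linarith)
    (r := cl n (8 * (lam * D)) + 2 * q) (by linarith) (by linarith)
  intro s hs
  have h1 := hfin s hs
  exact ⟨h1, hbad s hs (by linarith)⟩

/-- **source `0`** -/
theorem ap0s (hX : RL μ' P X) (hE : Ev (post μ' P)) (hK : PK (post μ' P))
    {S : Set (V → ℝ)} (hS : MeasurableSet S)
    {n : ℕ} (hη : ∀ J ∈ S, Rs (post μ' P) ((2 : ℝ) ^ (n + 1) • J) ≤ 1) {D lam p : ℝ}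
    (hpS : Ech μ' 0 P (ind Sᶜ) ≤ p)
    (hD : 0 < D) (hKS : K4S (post μ' P) (X * Xᵀ) (X * Xᵀ) ≤ D) (hlam : 0 ≤ lam) :
    Ech μ' 0 P (ind (Gs (post μ' P) n (lam * D))ᶜ) ≤
      p + Real.exp 1 * (6 * Real.exp (-(√(lam / 16) / 10))) := by
  refine H239.bad_src hX hE hK (b := 0) (e := 0) (by simp) hS hη hD hKS hlam ?_ hpS
  have h1 := K4_smul4 (em_post hX.em P) hE hK 0 (0 : V → ℝ)
  rw [zero_smul] at h1
  rw [h1]
  have : (0 : ℝ) ^ 4 = 0 := by norm_num
  rw [this, zero_mul]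
  positivity

/-- **the Gaussian reference probability of a set from the exact one** (`R ≥ 0`), as soon as
`R ≤ ρ` off a set of exact probability at most `1/2` -/
theorem gau_of_exact (hX : RL μ' P X) {G B : Set (V → ℝ)} (hG : MeasurableSet G)
    (hB : MeasurableSet B) {ρ q : ℝ} (hR : ∀ J ∈ G, Rs (post μ' P) J ≤ ρ)
    (hG2 : Ech μ' 0 P (ind Gᶜ) ≤ 1 / 2) (hq : Ech μ' 0 P (ind B) ≤ q) :
    (gau I').real {g | X *ᵥ g ∈ B} ≤ 2 * Real.exp ρ * q := by
  have hi : H663.ChI μ' 0 P (B.indicator fun _ => (1 : ℝ)) :=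
    H730.chi_ind' hX measurable_const (H730.chi_one hX) hB
  have h1 := hX.G_le (Φ := B.indicator fun _ => (1 : ℝ)) (measurable_const.indicator hB)
    (fun J => Set.indicator_nonneg (fun _ _ => zero_le_one) _) hi
  have h2 : (1 : ℝ) - 1 / 2 ≤ Ech μ' 0 P (G.indicator fun _ => (1 : ℝ)) := by
    have h3 := H37.Ech_add hX.em 0 P (EGr.ind hG) (EGr.ind hG.compl)
    have h4 : (fun J : V → ℝ => ind G J + ind Gᶜ J) = fun _ => (1 : ℝ) := by
      funext J
      unfold ind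
      by_cases hJ : J ∈ G
      · simp [hJ]
      · simp [hJ]
    rw [h4, Ech_const hX.em] at h3
    have h5 : Ech μ' 0 P (G.indicator fun _ => (1 : ℝ)) = Ech μ' 0 P (ind G) := rfl
    linarith
  have h3 := hX.norm_le hG hR h2
  have h4 : ∫ g : I' → ℝ, B.indicator (fun _ => (1 : ℝ)) (X *ᵥ g) ∂(gau I') =
      (gau I').real {g | X *ᵥ g ∈ B} := by
    have hBm : MeasurableSet {g : I' → ℝ | X *ᵥ g ∈ B} := (H552.meas_mulVec X) hB
    have e1 : (fun g : I' → ℝ => B.indicator (fun _ => (1 : ℝ)) (X *ᵥ g)) =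
        Set.indicator {g : I' → ℝ | X *ᵥ g ∈ B} fun _ => (1 : ℝ) := by
      funext g
      by_cases hg : X *ᵥ g ∈ B
      · rw [Set.indicator_of_mem hg, Set.indicator_of_mem (show g ∈ {g | X *ᵥ g ∈ B} from hg)]
      · rw [Set.indicator_of_notMem hg,
          Set.indicator_of_notMem (show g ∉ {g | X *ᵥ g ∈ B} from hg)]
    rw [e1, integral_indicator hBm, setIntegral_const, smul_eq_mul, mul_one]
  rw [h4] at h1
  have h5 : Ech μ' 0 P (B.indicator fun _ => (1 : ℝ)) ≤ q := hq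
  have h6 : 0 ≤ Ech μ' 0 P (B.indicator fun _ => (1 : ℝ)) :=
    H37.Ech_nonneg hX.em _ _ fun J => ind_nonneg _ J
  have h7 : ∫ g, Real.exp (Rs (post μ' P) (X *ᵥ g)) ∂(gau I') ≤ 2 * Real.exp ρ := by linarith
  calc (gau I').real {g | X *ᵥ g ∈ B} ≤ _ := h1
    _ ≤ 2 * Real.exp ρ * q := mul_le_mul h7 h5 h6 (by positivity)

end step

end

end Vale.Agent.P159.H730
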