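import Vale.Agent.P159.H730.Gibp
import Vale.Agent.P159.H663.ChI

/-!
P159 (helper730): the sums `MM F s j = Σ_h F(h) μ(h) exp (- s |Q h|² / 2 + <j, Q h>)` of the channel
with observation matrix `√s Q`: domination along `j = √s g`, derivatives.
-/

namespace Vale.Agent.P159.H730

open Finset Matrix MeasureTheory
open Vale.Agent.P159.TM.H104 (EM Ex Cv K3 Lg li nh Gr nh_nonneg abs_li)
open Vale.Agent.P159.H37

noncomputable section

set_option linter.unusedSectionVars false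

variable {V : Type*} [Fintype V] {I : Type*} [Fintype I]

/-- `|Q h|²` -/
def nq (Q : Matrix I V ℝ) (h : V → ℤ) : ℝ := ∑ i, li (Q i) h ^ 2

lemma nq_nonneg (Q : Matrix I V ℝ) (h : V → ℤ) : 0 ≤ nq Q h :=
  Finset.sum_nonneg fun _ _ => sq_nonneg _

/-- the channel sums -/
def MM (μ : (V → ℤ) → ℝ) (Q : Matrix I V ℝ) (F : (V → ℤ) → ℝ) (s : ℝ) (j : I → ℝ) : ℝ :=
  ∑' h, F h * μ h * Real.exp (-(s * nq Q h / 2) + ∑ i, j i * li (Q i) h)

lemma mulVec_re (Q : Matrix I V ℝ) (h : V → ℤ) (i : I) : (Q *ᵥ re h) i = li (Q i) h := rfl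

lemma post_sqrt {s : ℝ} (hs : 0 ≤ s) (μ : (V → ℤ) → ℝ) (Q : Matrix I V ℝ) (h : V → ℤ) :
    post μ (Real.sqrt s • Q) h = μ h * Real.exp (-(s * nq Q h / 2)) := by
  unfold post nq
  congr 3
  rw [Finset.mul_sum]
  congr 1
  refine Finset.sum_congr rfl fun i _ => ?_
  have : ((Real.sqrt s • Q) *ᵥ re h) i = Real.sqrt s * li (Q i) h := by
    rw [smul_mulVec, Pi.smul_apply, smul_eq_mul, mulVec_re]
  rw [this, mul_pow, Real.sq_sqrt hs]

lemma MM_eq {s : ℝ} (hs : 0 ≤ s) (μ : (V → ℤ) → ℝ) (Q : Matrix I V ℝ) (F : (V → ℤ) → ℝ)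
    (j : I → ℝ) : TM.H104.T (post μ (Real.sqrt s • Q)) (Qᵀ *ᵥ j) F = MM μ Q F s j := by
  unfold MM TM.H104.T
  refine tsum_congr fun h => ?_
  rw [post_sqrt hs, li_obs, Real.exp_add]
  have : ∑ i, (Q *ᵥ re h) i * j i = ∑ i, j i * li (Q i) h := by
    refine Finset.sum_congr rfl fun i _ => ?_
    rw [mulVec_re, mul_comm]
  rw [this]
  ring

lemma sqrt_obs (s : ℝ) (Q : Matrix I V ℝ) (g : I → ℝ) :
    (Real.sqrt s • Q)ᵀ *ᵥ g = Qᵀ *ᵥ (Real.sqrt s • g) := by
  rw [transpose_smul, smul_mulVec, mulVec_smul]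

lemma MM_eq' {s : ℝ} (hs : 0 ≤ s) (μ : (V → ℤ) → ℝ) (Q : Matrix I V ℝ) (F : (V → ℤ) → ℝ)
    (g : I → ℝ) : TM.H104.T (post μ (Real.sqrt s • Q)) ((Real.sqrt s • Q)ᵀ *ᵥ g) F =
      MM μ Q F s (Real.sqrt s • g) := by
  rw [sqrt_obs, MM_eq hs]

/-- a Gaussian moment in the observed directions -/
structure GM (μ : (V → ℤ) → ℝ) (Q : Matrix I V ℝ) (c : ℝ) : Prop where
  em : EM μ
  pos : 0 < c
  gm : EM fun h => μ h * Real.exp (c * nq Q h)

/-! ### growth -/

lemma Gr.exp_nh (C : ℝ) : Gr fun h : V → ℤ => Real.exp (C * nh h) :=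
  Gr.mk' (A := 1) (B := C) fun h => by rw [abs_of_pos (Real.exp_pos _), one_mul]

lemma Gr.absv {F : (V → ℤ) → ℝ} (hF : Gr F) : Gr fun h => |F h| := by
  obtain ⟨C, hC⟩ := hF
  exact ⟨C, fun h => by rw [abs_abs]; exact hC h⟩

lemma Gr.le {F G : (V → ℤ) → ℝ} (hG : Gr G) (h : ∀ h, |F h| ≤ G h) : Gr F := by
  obtain ⟨C, hC⟩ := hG
  exact ⟨C, fun k => (h k).trans ((le_abs_self _).trans (hC k))⟩

lemma Gr.sq {F : (V → ℤ) → ℝ} (hF : Gr F) : Gr fun h => F h ^ 2 := by
  have e : (fun h => F h ^ 2) = fun h => F h * F h := by funext h; ring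
  rw [e]
  exact hF.mul hF

lemma Gr.sum {ι : Type*} (s : Finset ι) {F : ι → (V → ℤ) → ℝ} (hF : ∀ i, Gr (F i)) :
    Gr fun h => ∑ i ∈ s, F i h := by
  classical
  induction s using Finset.induction_on with
  | empty => simpa using Gr.const (V := V) 0
  | insert a s ha ih =>
    have h1 := (hF a).add ih
    simpa only [Finset.sum_insert ha] using h1

lemma Gr.nq (Q : Matrix I V ℝ) : Gr (nq Q) := by
  unfold H730.nq
  exact Gr.sum _ fun i => Gr.sq (Gr.li (Q i))

/-- `Σ_i |<q_i, h>| ≤ C |h|` -/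
lemma exists_abs_le (Q : Matrix I V ℝ) :
    ∃ C : ℝ, 0 ≤ C ∧ ∀ h : V → ℤ, ∑ i, |li (Q i) h| ≤ C * nh h := by
  refine ⟨∑ i, ‖Q i‖, Finset.sum_nonneg fun _ _ => norm_nonneg _, fun h => ?_⟩
  rw [Finset.sum_mul]
  exact Finset.sum_le_sum fun i _ => abs_li (Q i) h

lemma Gr.exp_abs (Q : Matrix I V ℝ) (a : I → ℝ) :
    Gr fun h => Real.exp (∑ i, a i * |TM.H104.li (Q i) h|) := by
  refine Gr.mk' (A := 1) (B := ∑ i, |a i| * ‖Q i‖) fun h => ?_
  rw [abs_of_pos (Real.exp_pos _), one_mul, Real.exp_le_exp, Finset.sum_mul]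
  refine Finset.sum_le_sum fun i _ => ?_
  have h1 := abs_li (Q i) h
  have h2 := nh_nonneg h
  calc a i * |li (Q i) h| ≤ |a i| * |li (Q i) h| :=
        mul_le_mul_of_nonneg_right (le_abs_self _) (abs_nonneg _)
    _ ≤ |a i| * (‖Q i‖ * nh h) := mul_le_mul_of_nonneg_left h1 (abs_nonneg _)
    _ = |a i| * ‖Q i‖ * nh h := by ring

/-! ### the dominating function -/

/-- dominating sums -/
def DD (μ : (V → ℤ) → ℝ) (Q : Matrix I V ℝ) (K : (V → ℤ) → ℝ) (s r κ : ℝ) (g : I → ℝ) : ℝ :=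
  ∑' h, K h * μ h * Real.exp (-(s * nq Q h / 2) + ∑ i, (r * |li (Q i) h| + κ) * |g i|)

variable {μ : (V → ℤ) → ℝ} {Q : Matrix I V ℝ} {c : ℝ}

lemma DD_summ (hμ : EM μ) {K : (V → ℤ) → ℝ} (hK : Gr K) {s : ℝ} (hs : 0 ≤ s) (r κ : ℝ)
    (g : I → ℝ) :
    Summable fun h => K h * μ h *
      Real.exp (-(s * nq Q h / 2) + ∑ i, (r * |li (Q i) h| + κ) * |g i|) := by
  have h1 : Gr fun h => K h * Real.exp (∑ i, (r * |g i|) * |li (Q i) h|) :=
    hK.mul (Gr.exp_abs Q _)
  have h2 := (hμ.summ' h1 0).mul_right (Real.exp (κ * ∑ i, |g i|))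
  refine Summable.of_norm_bounded h2 fun h => ?_
  rw [Real.norm_eq_abs, abs_mul, abs_mul, abs_of_nonneg (hμ.nn h), abs_of_pos (Real.exp_pos _),
    abs_mul, abs_of_pos (Real.exp_pos _), zero_mul, Real.exp_zero, mul_one]
  have e : ∑ i, (r * |li (Q i) h| + κ) * |g i| =
      ∑ i, (r * |g i|) * |li (Q i) h| + κ * ∑ i, |g i| := by
    rw [Finset.mul_sum, ← Finset.sum_add_distrib]
    exact Finset.sum_congr rfl fun i _ => by ring
  have h3 : Real.exp (-(s * nq Q h / 2) + ∑ i, (r * |li (Q i) h| + κ) * |g i|) ≤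
      Real.exp (∑ i, (r * |g i|) * |li (Q i) h|) * Real.exp (κ * ∑ i, |g i|) := by
    rw [← Real.exp_add, Real.exp_le_exp, e]
    have := mul_nonneg hs (nq_nonneg Q h)
    linarith
  calc |K h| * μ h * Real.exp (-(s * nq Q h / 2) + ∑ i, (r * |li (Q i) h| + κ) * |g i|)
      ≤ |K h| * μ h * (Real.exp (∑ i, (r * |g i|) * |li (Q i) h|) *
        Real.exp (κ * ∑ i, |g i|)) :=
        mul_le_mul_of_nonneg_left h3 (mul_nonneg (abs_nonneg _) (hμ.nn h))
    _ = _ := by ring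

/-- the dominating sums are integrable -/
lemma DD_int (hG : GM μ Q c) {K : (V → ℤ) → ℝ} (hK : Gr K) (hK0 : ∀ h, 0 ≤ K h) {s r κ : ℝ}
    (hr : r ^ 2 ≤ s + 2 * c) : Integrable (DD μ Q K s r κ) (gau I) := by
  have hμ := hG.em
  unfold DD
  have e1 : ∀ (h : V → ℤ) (g : I → ℝ), K h * μ h *
      Real.exp (-(s * nq Q h / 2) + ∑ i, (r * |li (Q i) h| + κ) * |g i|) =
      (K h * μ h * Real.exp (-(s * nq Q h / 2))) *
        Real.exp (∑ i, (r * |li (Q i) h| + κ) * |g i|) := by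
    intro h g
    rw [Real.exp_add]
    ring
  have hn : ∀ h, 0 ≤ K h * μ h * Real.exp (-(s * nq Q h / 2)) := fun h =>
    mul_nonneg (mul_nonneg (hK0 h) (hμ.nn h)) (Real.exp_pos _).le
  simp only [e1]
  refine integrable_tsum_of (fun h g => mul_nonneg (hn h) (Real.exp_pos _).le)
    (fun h => ((int_exp_abs fun i => r * |li (Q i) h| + κ).1).const_mul _) ?_
  simp only [integral_const_mul]
  have h1 : Gr fun h => K h * Real.exp (∑ i, (r * κ) * |li (Q i) h|) :=
    hK.mul (Gr.exp_abs Q fun _ => r * κ)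
  have h2 := (hG.gm.summ' h1 0).mul_right (2 ^ Fintype.card I *
    Real.exp (Fintype.card I * κ ^ 2 / 2))
  refine Summable.of_nonneg_of_le (fun h => mul_nonneg (hn h)
    (integral_nonneg fun g => (Real.exp_pos _).le)) (fun h => ?_) h2
  have h3 := (int_exp_abs fun i => r * |li (Q i) h| + κ).2
  have e2 : (∑ i, (r * |li (Q i) h| + κ) ^ 2) / 2 =
      r ^ 2 * nq Q h / 2 + ∑ i, (r * κ) * |li (Q i) h| + Fintype.card I * κ ^ 2 / 2 := by
    have : ∀ i, (r * |li (Q i) h| + κ) ^ 2 =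
        r ^ 2 * li (Q i) h ^ 2 + 2 * ((r * κ) * |li (Q i) h|) + κ ^ 2 := by
      intro i
      have := sq_abs (li (Q i) h)
      nlinarith [this]
    simp only [this, Finset.sum_add_distrib, ← Finset.mul_sum, Finset.sum_const,
      Finset.card_univ, nsmul_eq_mul]
    unfold nq
    ring
  rw [abs_mul, abs_of_nonneg (hK0 h), abs_of_pos (Real.exp_pos _), zero_mul, Real.exp_zero,
    mul_one]
  calc K h * μ h * Real.exp (-(s * nq Q h / 2)) *
        ∫ g, Real.exp (∑ i, (r * |li (Q i) h| + κ) * |g i|) ∂(gau I)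
      ≤ K h * μ h * Real.exp (-(s * nq Q h / 2)) * (2 ^ Fintype.card I *
        Real.exp (r ^ 2 * nq Q h / 2 + ∑ i, (r * κ) * |li (Q i) h| +
          Fintype.card I * κ ^ 2 / 2)) := by
        rw [← e2]
        exact mul_le_mul_of_nonneg_left h3 (hn h)
    _ ≤ K h * μ h * (2 ^ Fintype.card I * (Real.exp (c * nq Q h) *
        Real.exp (∑ i, (r * κ) * |li (Q i) h|) * Real.exp (Fintype.card I * κ ^ 2 / 2))) := by
        have h4 : Real.exp (-(s * nq Q h / 2)) *
            Real.exp (r ^ 2 * nq Q h / 2 + ∑ i, (r * κ) * |li (Q i) h| +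
              Fintype.card I * κ ^ 2 / 2) ≤ Real.exp (c * nq Q h) *
            Real.exp (∑ i, (r * κ) * |li (Q i) h|) * Real.exp (Fintype.card I * κ ^ 2 / 2) := by
          rw [← Real.exp_add, ← Real.exp_add, ← Real.exp_add, Real.exp_le_exp]
          have := mul_le_mul_of_nonneg_right hr (nq_nonneg Q h)
          linarith
        have h5 : (0 : ℝ) ≤ 2 ^ Fintype.card I := by positivity
        calc _ = K h * μ h * (2 ^ Fintype.card I * (Real.exp (-(s * nq Q h / 2)) *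
            Real.exp (r ^ 2 * nq Q h / 2 + ∑ i, (r * κ) * |li (Q i) h| +
              Fintype.card I * κ ^ 2 / 2))) := by ring
          _ ≤ _ := mul_le_mul_of_nonneg_left (mul_le_mul_of_nonneg_left h4 h5)
            (mul_nonneg (hK0 h) (hμ.nn h))
    _ = _ := by ring

lemma MM_summ (hμ : EM μ) {F : (V → ℤ) → ℝ} (hF : Gr F) {s : ℝ} (hs : 0 ≤ s) (j : I → ℝ) :
    Summable fun h => F h * μ h * Real.exp (-(s * nq Q h / 2) + ∑ i, j i * li (Q i) h) := by
  have h1 : Gr fun h => F h * Real.exp (∑ i, |j i| * |li (Q i) h|) := hF.mul (Gr.exp_abs Q _)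
  refine Summable.of_norm_bounded (hμ.summ' h1 0) fun h => ?_
  rw [Real.norm_eq_abs, abs_mul, abs_mul, abs_of_nonneg (hμ.nn h), abs_of_pos (Real.exp_pos _),
    abs_mul, abs_of_pos (Real.exp_pos _), zero_mul, Real.exp_zero, mul_one]
  have h3 : Real.exp (-(s * nq Q h / 2) + ∑ i, j i * li (Q i) h) ≤
      Real.exp (∑ i, |j i| * |li (Q i) h|) := by
    rw [Real.exp_le_exp]
    have h4 := mul_nonneg hs (nq_nonneg Q h)
    have h5 : ∑ i, j i * li (Q i) h ≤ ∑ i, |j i| * |li (Q i) h| :=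
      Finset.sum_le_sum fun i _ => by rw [← abs_mul]; exact le_abs_self _
    linarith
  calc |F h| * μ h * Real.exp (-(s * nq Q h / 2) + ∑ i, j i * li (Q i) h)
      ≤ |F h| * μ h * Real.exp (∑ i, |j i| * |li (Q i) h|) :=
        mul_le_mul_of_nonneg_left h3 (mul_nonneg (abs_nonneg _) (hμ.nn h))
    _ = _ := by ring

/-- pointwise domination -/
lemma MM_dom (hμ : EM μ) {F K : (V → ℤ) → ℝ} (hF : Gr F) (hK : Gr K)
    {s s1 r κ : ℝ} (h1 : 0 ≤ s1) (hs : s1 ≤ s) {g j : I → ℝ} (hj : ∀ i, |j i| ≤ r * |g i|)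
    (hb : ∀ h, |F h| ≤ K h * Real.exp (κ * ∑ i, |g i|)) :
    |MM μ Q F s j| ≤ DD μ Q K s1 r κ g := by
  unfold MM DD
  have e : ∀ h, ‖F h * μ h * Real.exp (-(s * nq Q h / 2) + ∑ i, j i * li (Q i) h)‖ ≤
      K h * μ h * Real.exp (-(s1 * nq Q h / 2) + ∑ i, (r * |li (Q i) h| + κ) * |g i|) := by
    intro h
    rw [Real.norm_eq_abs, abs_mul, abs_mul, abs_of_nonneg (hμ.nn h), abs_of_pos (Real.exp_pos _)]
    have h3 : Real.exp (-(s * nq Q h / 2) + ∑ i, j i * li (Q i) h) ≤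
        Real.exp (-(s1 * nq Q h / 2) + ∑ i, r * |li (Q i) h| * |g i|) := by
      rw [Real.exp_le_exp]
      refine add_le_add ?_ (Finset.sum_le_sum fun i _ => ?_)
      · have := mul_le_mul_of_nonneg_right hs (nq_nonneg Q h)
        linarith
      · calc j i * li (Q i) h ≤ |j i| * |li (Q i) h| := by rw [← abs_mul]; exact le_abs_self _
          _ ≤ (r * |g i|) * |li (Q i) h| := mul_le_mul_of_nonneg_right (hj i) (abs_nonneg _)
          _ = _ := by ring
    have h4 : Real.exp (-(s1 * nq Q h / 2) + ∑ i, (r * |li (Q i) h| + κ) * |g i|) =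
        Real.exp (κ * ∑ i, |g i|) *
          Real.exp (-(s1 * nq Q h / 2) + ∑ i, r * |li (Q i) h| * |g i|) := by
      rw [← Real.exp_add]
      congr 1
      simp only [add_mul, Finset.sum_add_distrib, Finset.mul_sum]
      ring
    have hK0 : 0 ≤ K h := by
      have := (abs_nonneg _).trans (hb h)
      exact nonneg_of_mul_nonneg_left this (Real.exp_pos _)
    rw [h4]
    calc |F h| * μ h * Real.exp (-(s * nq Q h / 2) + ∑ i, j i * li (Q i) h)
        ≤ (K h * Real.exp (κ * ∑ i, |g i|)) * μ h *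
          Real.exp (-(s1 * nq Q h / 2) + ∑ i, r * |li (Q i) h| * |g i|) :=
          mul_le_mul (mul_le_mul_of_nonneg_right (hb h) (hμ.nn h)) h3 (Real.exp_pos _).le
            (mul_nonneg (mul_nonneg hK0 (Real.exp_pos _).le) (hμ.nn h))
      _ = _ := by ring
  have hs0 := (MM_summ (Q := Q) hμ hF (h1.trans hs) j).norm
  have hd := DD_summ (Q := Q) hμ hK h1 r κ g
  rw [← Real.norm_eq_abs]
  refine (norm_tsum_le_tsum_norm hs0).trans ?_
  exact hs0.tsum_le_tsum e hd

/-! ### algebra of the sums -/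

lemma MM_add (hμ : EM μ) {F G : (V → ℤ) → ℝ} (hF : Gr F) (hG : Gr G) {s : ℝ} (hs : 0 ≤ s)
    (j : I → ℝ) : MM μ Q (fun h => F h + G h) s j = MM μ Q F s j + MM μ Q G s j := by
  unfold MM
  rw [← (MM_summ hμ hF hs j).tsum_add (MM_summ hμ hG hs j)]
  exact tsum_congr fun h => by ring

lemma MM_cmul (a : ℝ) (F : (V → ℤ) → ℝ) (s : ℝ) (j : I → ℝ) :
    MM μ Q (fun h => a * F h) s j = a * MM μ Q F s j := by
  unfold MM
  rw [← tsum_mul_left]
  exact tsum_congr fun h => by ring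

lemma MM_sum (hμ : EM μ) {ι : Type*} (t : Finset ι) {F : ι → (V → ℤ) → ℝ} (hF : ∀ i, Gr (F i))
    {s : ℝ} (hs : 0 ≤ s) (j : I → ℝ) :
    MM μ Q (fun h => ∑ i ∈ t, F i h) s j = ∑ i ∈ t, MM μ Q (F i) s j := by
  classical
  induction t using Finset.induction_on with
  | empty => simp [MM]
  | insert a t ha ih =>
    simp only [Finset.sum_insert ha]
    rw [MM_add hμ (hF a) (Gr.sum t hF) hs, ih]

lemma MM_nonneg (hμ : EM μ) {F : (V → ℤ) → ℝ} (h0 : ∀ h, 0 ≤ F h) (s : ℝ) (j : I → ℝ) :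
    0 ≤ MM μ Q F s j :=
  tsum_nonneg fun h => mul_nonneg (mul_nonneg (h0 h) (hμ.nn h)) (Real.exp_pos _).le

lemma MM_one_pos (hμ : EM μ) {s : ℝ} (hs : 0 ≤ s) (j : I → ℝ) :
    0 < MM μ Q (fun _ => 1) s j := by
  rw [← MM_eq hs]
  exact TM.H104.T_one_pos (em_post hμ _) _

/-- `(M_F)² ≤ Z M_{F²}` -/
lemma MM_sq_le (hμ : EM μ) {F : (V → ℤ) → ℝ} (hF : Gr F) {s : ℝ} (hs : 0 ≤ s) (j : I → ℝ) :
    MM μ Q F s j ^ 2 ≤ MM μ Q (fun _ => 1) s j * MM μ Q (fun h => F h ^ 2) s j := by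
  have hp := em_post hμ (Real.sqrt s • Q)
  have h1 := H114.Cv_self_nonneg hp (Qᵀ *ᵥ j) hF
  unfold Cv Ex at h1
  rw [MM_eq hs, MM_eq hs, MM_eq hs] at h1
  have hz := MM_one_pos (Q := Q) hμ hs j
  have e : (fun h => F h * F h) = fun h => F h ^ 2 := by funext h; ring
  rw [e] at h1
  set z := MM μ Q (fun _ => 1) s j with hz'
  have h2 : (MM μ Q (fun h => F h ^ 2) s j / z - MM μ Q F s j / z * (MM μ Q F s j / z)) * z ^ 2 =
      z * MM μ Q (fun h => F h ^ 2) s j - MM μ Q F s j ^ 2 := by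
    field_simp
  have h3 := mul_nonneg h1 (sq_nonneg z)
  rw [h2] at h3
  linarith

/-- `M_F⁴ / Z³ ≤ M_{F⁴}` -/
lemma MM_four_le (hμ : EM μ) {F : (V → ℤ) → ℝ} (hF : Gr F) {s : ℝ} (hs : 0 ≤ s) (j : I → ℝ) :
    MM μ Q F s j ^ 4 / MM μ Q (fun _ => 1) s j ^ 3 ≤ MM μ Q (fun h => F h ^ 4) s j := by
  have h1 := MM_sq_le (Q := Q) hμ hF hs j
  have h2 := MM_sq_le (Q := Q) hμ (Gr.sq hF) hs j
  have e : (fun h => (F h ^ 2) ^ 2) = fun h => F h ^ 4 := by funext h; ring
  rw [e] at h2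
  have hz := MM_one_pos (Q := Q) hμ hs j
  set z := MM μ Q (fun _ => 1) s j with hz'
  set a := MM μ Q F s j
  set b := MM μ Q (fun h => F h ^ 2) s j
  set d := MM μ Q (fun h => F h ^ 4) s j
  rw [div_le_iff₀ (pow_pos hz 3)]
  have h3 : a ^ 4 ≤ (z * b) ^ 2 := by
    have : a ^ 4 = (a ^ 2) ^ 2 := by ring
    rw [this]
    exact pow_le_pow_left₀ (sq_nonneg _) h1 2
  calc a ^ 4 ≤ (z * b) ^ 2 := h3
    _ = z ^ 2 * b ^ 2 := by ring
    _ ≤ z ^ 2 * (z * d) := mul_le_mul_of_nonneg_left h2 (sq_nonneg _)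
    _ = d * z ^ 3 := by ring

/-! ### continuity and derivatives -/

lemma continuous_MM (hμ : EM μ) {F : (V → ℤ) → ℝ} (hF : Gr F) {s : ℝ} (hs : 0 ≤ s) :
    Continuous fun j : I → ℝ => MM μ Q F s j := by
  simp only [← MM_eq hs]
  have h1 := TM.H104.continuous_T (em_post hμ (Real.sqrt s • Q)) hF
  exact h1.comp (Continuous.matrix_mulVec continuous_const continuous_id)

/-- derivative in one coordinate of `g`, `j = √s g` -/
lemma MM_pd [DecidableEq I] (hμ : EM μ) {F : (V → ℤ) → ℝ} (hF : Gr F) {s : ℝ} (hs : 0 ≤ s) (r : ℝ)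
    (g : I → ℝ) (e : I) (x : ℝ) :
    HasDerivAt (fun y => MM μ Q F s (r • Function.update g e y))
      (r * MM μ Q (fun h => F h * li (Q e) h) s (r • Function.update g e x)) x := by
  have hp := em_post hμ (Real.sqrt s • Q)
  have h1 := TM.H104.hasDerivAt_T hp hF (Qᵀ *ᵥ (r • Function.update g e 0)) (r • Q e) x
  have e1 : ∀ y : ℝ, Qᵀ *ᵥ (r • Function.update g e 0) + y • (r • Q e) =
      Qᵀ *ᵥ (r • Function.update g e y) := by
    intro y
    have h2 : r • Function.update g e y = r • Function.update g e 0 + y • (r • Pi.single e 1) := by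
      funext i
      by_cases hi : i = e
      · subst hi
        simp [mul_comm]
      · simp [Function.update_of_ne hi, Pi.single_eq_of_ne hi]
    rw [h2, mulVec_add, mulVec_smul Qᵀ y, mulVec_smul Qᵀ r (Pi.single e 1), mulVec_single_one]
    rfl
  simp only [e1, MM_eq hs] at h1
  refine h1.congr_deriv ?_
  rw [← MM_cmul]
  congr 1
  funext h
  rw [TM.H104.li_smul]
  ring

/-- weight of the derivative along the curve `s ↦ (s, √s g)` -/
def ww (Q : Matrix I V ℝ) (g : I → ℝ) (s : ℝ) (h : V → ℤ) : ℝ :=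
  -(nq Q h / 2) + 1 / (2 * Real.sqrt s) * ∑ i, g i * li (Q i) h

lemma Gr.ww (Q : Matrix I V ℝ) (g : I → ℝ) (s : ℝ) : Gr (ww Q g s) := by
  unfold H730.ww
  refine Gr.add ?_ ((Gr.sum _ fun i => (Gr.li (Q i)).cmul (g i)).cmul _)
  have := (Gr.nq Q).cmul (-(1 / 2))
  refine Gr.le (Gr.absv this) fun h => le_of_eq ?_
  congr 1
  ring

/-- **derivative along the curve `s ↦ (s, √s g)`** -/
lemma MM_curve (hμ : EM μ) {F : (V → ℤ) → ℝ} (hF : Gr F) {s : ℝ} (hs : 0 < s) (g : I → ℝ) :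
    HasDerivAt (fun s => MM μ Q F s (Real.sqrt s • g))
      (MM μ Q (fun h => F h * ww Q g s h) s (Real.sqrt s • g)) s := by
  unfold MM
  set r := Real.sqrt (2 * s) with hr
  have hr0 : 0 ≤ r := Real.sqrt_nonneg _
  set q := Real.sqrt (s / 2) with hq
  have hq0 : 0 < q := Real.sqrt_pos.2 (by linarith)
  set W : (V → ℤ) → ℝ := fun h => nq Q h / 2 + 1 / (2 * q) * ∑ i, |g i| * |li (Q i) h| with hW
  have hWg : Gr W := by
    refine Gr.add ?_ ((Gr.sum _ fun i => ((Gr.absv (Gr.li (Q i))).cmul |g i|)).cmul _)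
    refine Gr.le (Gr.absv ((Gr.nq Q).cmul (1 / 2))) fun h => le_of_eq ?_
    congr 1
    ring
  have hu : Gr fun h => F h * W h * Real.exp (∑ i, (r * |g i|) * |li (Q i) h|) :=
    (hF.mul hWg).mul (Gr.exp_abs Q _)
  refine hasDerivAt_tsum_of_isPreconnected (t := Set.Ioo (s / 2) (2 * s)) (y₀ := s)
    (g := fun h z => F h * μ h *
      Real.exp (-(z * nq Q h / 2) + ∑ i, (Real.sqrt z • g) i * li (Q i) h))
    (g' := fun h z => F h * ww Q g z h * μ h *
      Real.exp (-(z * nq Q h / 2) + ∑ i, (Real.sqrt z • g) i * li (Q i) h))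
    (hμ.summ' hu 0) isOpen_Ioo isPreconnected_Ioo ?_ ?_ ⟨by linarith, by linarith⟩
    (MM_summ hμ hF hs.le _) ⟨by linarith, by linarith⟩
  · intro h z hz
    have hz0 : 0 < z := by linarith [hz.1]
    have h1 : HasDerivAt (fun z : ℝ => Real.sqrt z * ∑ i, g i * li (Q i) h)
        (1 / (2 * Real.sqrt z) * ∑ i, g i * li (Q i) h) z :=
      (Real.hasDerivAt_sqrt hz0.ne').mul_const _
    have h2 : HasDerivAt (fun z : ℝ => -(z * nq Q h / 2)) (-(nq Q h / 2)) z := by
      have e0 : (fun z : ℝ => -(z * nq Q h / 2)) = fun z => (-(nq Q h / 2)) * z := by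
        funext z
        ring
      rw [e0]
      simpa using (hasDerivAt_id z).const_mul (-(nq Q h / 2))
    have h3 := h2.add h1
    have e1 : ∀ z : ℝ, ∑ i, (Real.sqrt z • g) i * li (Q i) h =
        Real.sqrt z * ∑ i, g i * li (Q i) h := by
      intro z
      rw [Finset.mul_sum]
      refine Finset.sum_congr rfl fun i _ => ?_
      rw [Pi.smul_apply, smul_eq_mul]
      ring
    have h4 := (h3.exp).const_mul (F h * μ h)
    simp only [e1]
    refine h4.congr_deriv ?_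
    simp only [Pi.add_apply]
    unfold ww
    ring
  · intro h z hz
    have hz0 : 0 < z := by linarith [hz.1]
    have hzq : q ≤ Real.sqrt z := Real.sqrt_le_sqrt hz.1.le
    have hzr : Real.sqrt z ≤ r := Real.sqrt_le_sqrt hz.2.le
    have hsz : 0 < Real.sqrt z := Real.sqrt_pos.2 hz0
    have h1 : |ww Q g z h| ≤ W h := by
      unfold ww
      refine (abs_add_le _ _).trans ?_
      rw [hW]
      refine add_le_add ?_ ?_
      · rw [abs_neg, abs_of_nonneg (by have := nq_nonneg Q h; linarith)]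
      · rw [abs_mul, abs_of_pos (by positivity)]
        refine mul_le_mul ?_ ?_ (abs_nonneg _) (by positivity)
        · exact one_div_le_one_div_of_le (by positivity) (by linarith)
        · refine (Finset.abs_sum_le_sum_abs _ _).trans (le_of_eq ?_)
          exact Finset.sum_congr rfl fun i _ => abs_mul _ _
    have h2 : Real.exp (-(z * nq Q h / 2) + ∑ i, (Real.sqrt z • g) i * li (Q i) h) ≤
        Real.exp (∑ i, (r * |g i|) * |li (Q i) h|) := by
      rw [Real.exp_le_exp]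
      have h3 := mul_nonneg hz0.le (nq_nonneg Q h)
      have h4 : ∑ i, (Real.sqrt z • g) i * li (Q i) h ≤ ∑ i, (r * |g i|) * |li (Q i) h| := by
        refine Finset.sum_le_sum fun i _ => ?_
        rw [Pi.smul_apply, smul_eq_mul]
        calc Real.sqrt z * g i * li (Q i) h ≤ |Real.sqrt z * g i * li (Q i) h| := le_abs_self _
          _ = Real.sqrt z * |g i| * |li (Q i) h| := by
            rw [abs_mul, abs_mul, abs_of_pos hsz]
          _ ≤ (r * |g i|) * |li (Q i) h| := by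
            refine mul_le_mul_of_nonneg_right ?_ (abs_nonneg _)
            exact mul_le_mul_of_nonneg_right hzr (abs_nonneg _)
      linarith
    rw [Real.norm_eq_abs, abs_mul, abs_mul, abs_mul, abs_of_nonneg (hμ.nn h),
      abs_of_pos (Real.exp_pos _), abs_mul, abs_mul, abs_of_pos (Real.exp_pos _), zero_mul,
      Real.exp_zero, mul_one]
    have hW0 : 0 ≤ W h := (abs_nonneg _).trans h1
    rw [abs_of_nonneg hW0]
    calc |F h| * |ww Q g z h| * μ h *
          Real.exp (-(z * nq Q h / 2) + ∑ i, (Real.sqrt z • g) i * li (Q i) h)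
        ≤ |F h| * W h * μ h * Real.exp (∑ i, (r * |g i|) * |li (Q i) h|) := by
          refine mul_le_mul ?_ h2 (Real.exp_pos _).le ?_
          · exact mul_le_mul_of_nonneg_right (mul_le_mul_of_nonneg_left h1 (abs_nonneg _))
              (hμ.nn h)
          · exact mul_nonneg (mul_nonneg (abs_nonneg _) hW0) (hμ.nn h)
      _ = _ := by ring

/-- continuity along the curve, down to `s = 0` -/
lemma MM_cont_curve (hμ : EM μ) {F : (V → ℤ) → ℝ} (hF : Gr F) (g : I → ℝ) :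
    ContinuousOn (fun s => MM μ Q F s (Real.sqrt s • g)) (Set.Ici 0) := by
  intro s hs
  have hs' : (0 : ℝ) ≤ s := hs
  have h1 : ContinuousOn (fun s => MM μ Q F s (Real.sqrt s • g)) (Set.Icc 0 (s + 1)) := by
    unfold MM
    set r := Real.sqrt (s + 1) with hr
    have hu : Gr fun h => F h * Real.exp (∑ i, (r * |g i|) * |li (Q i) h|) :=
      hF.mul (Gr.exp_abs Q _)
    refine continuousOn_tsum (u := fun h => |F h * Real.exp (∑ i, (r * |g i|) * |li (Q i) h|)| *
      μ h * Real.exp (0 * nh h)) ?_ (hμ.summ' hu 0) ?_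
    · intro h
      refine Continuous.continuousOn ?_
      refine continuous_const.mul (Real.continuous_exp.comp ?_)
      refine Continuous.add (by fun_prop) (continuous_finsetSum _ fun i _ => ?_)
      simp only [Pi.smul_apply, smul_eq_mul]
      exact (Real.continuous_sqrt.mul continuous_const).mul continuous_const
    · intro h z hz
      have hzr : Real.sqrt z ≤ r := Real.sqrt_le_sqrt hz.2
      rw [Real.norm_eq_abs, abs_mul, abs_mul, abs_of_nonneg (hμ.nn h),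
        abs_of_pos (Real.exp_pos _), abs_mul, abs_of_pos (Real.exp_pos _), zero_mul,
        Real.exp_zero, mul_one]
      have h2 : Real.exp (-(z * nq Q h / 2) + ∑ i, (Real.sqrt z • g) i * li (Q i) h) ≤
          Real.exp (∑ i, (r * |g i|) * |li (Q i) h|) := by
        rw [Real.exp_le_exp]
        have h3 := mul_nonneg hz.1 (nq_nonneg Q h)
        have h4 : ∑ i, (Real.sqrt z • g) i * li (Q i) h ≤
            ∑ i, (r * |g i|) * |li (Q i) h| := by
          refine Finset.sum_le_sum fun i _ => ?_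
          rw [Pi.smul_apply, smul_eq_mul]
          calc Real.sqrt z * g i * li (Q i) h ≤ |Real.sqrt z * g i * li (Q i) h| :=
                le_abs_self _
            _ = Real.sqrt z * |g i| * |li (Q i) h| := by
              rw [abs_mul, abs_mul, abs_of_nonneg (Real.sqrt_nonneg z)]
            _ ≤ (r * |g i|) * |li (Q i) h| := by
              refine mul_le_mul_of_nonneg_right ?_ (abs_nonneg _)
              exact mul_le_mul_of_nonneg_right hzr (abs_nonneg _)
        linarith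
      calc |F h| * μ h * Real.exp (-(z * nq Q h / 2) + ∑ i, (Real.sqrt z • g) i * li (Q i) h)
          ≤ |F h| * μ h * Real.exp (∑ i, (r * |g i|) * |li (Q i) h|) :=
            mul_le_mul_of_nonneg_left h2 (mul_nonneg (abs_nonneg _) (hμ.nn h))
        _ = _ := by ring
  have h2 := h1 s ⟨hs', by linarith⟩
  have h3 : Set.Icc 0 (s + 1) ∈ nhdsWithin s (Set.Ici 0) := by
    have : Set.Ici (0 : ℝ) ∩ Set.Iio (s + 1) ∈ nhdsWithin s (Set.Ici 0) :=
      Filter.inter_mem self_mem_nhdsWithin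
        (mem_nhdsWithin_of_mem_nhds (Iio_mem_nhds (by linarith)))
    exact Filter.mem_of_superset this fun x hx => ⟨hx.1, le_of_lt hx.2⟩
  exact h2.mono_of_mem_nhdsWithin h3

end

end Vale.Agent.P159.H730
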