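import Vale.Agent.P159.TM.H77.FatTor
import Vale.Agent.P159.H37.RPf

/-!
P159 / HAT (helper358): fatness at real mass (helper730). Part 1: the variance of the average over a
box of the torus at a real mass, from `(H2)`.
-/

open Finset
open scoped ENNReal

namespace Vale.Agent.P159.H730.FR

open Vale.Agent.P159 Vale.Agent.P159.H353
open Vale.Agent.P159.TM.H60 Vale.Agent.P159.TM.H504 Vale.Agent.P159.TM.H312
open Vale.Agent.P159.TM.H426 Vale.Agent.P159.TM.H576
open Vale.Agent.P159.TM.SpecC (wT ms)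
open Vale.Agent.P159.TM.H104 (EM li Gr)
open Vale.Agent.P159.TM.H764 (frm H2 Gh)
open Vale.Agent.P159.TM.H77
open Vale.Agent.P159.H37 (Gt Gm Cm qf wM re)

section dict

variable {N : ℕ} [NeZero N] {b τ : ℝ}

/-- the weight of the system at a real mass is the weight of the language file -/
lemma W1h_wt (h : ZMod N × ZMod N → ℤ) :
    W1h (TM.H459.tS (N := N)) TM.H459.tT (fun _ => wI b) (ga (fun _ => τ)) h = H37.wt N b τ h := by
  classical
  unfold H37.wt wM
  rw [TM.H41.wT_eq_Wk]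
  unfold W1h T1.H897.Wk ga
  congr 1
  rw [← Real.exp_sum]
  congr 1
  unfold qf re
  have e1 : ∀ x : ZMod N × ZMod N, ∑ y, (h x : ℝ) *
      (τ • (1 : Matrix (ZMod N × ZMod N) (ZMod N × ZMod N) ℝ)) x y * (h y : ℝ) =
      τ * (h x : ℝ) ^ 2 := by
    intro x
    rw [Finset.sum_eq_single x]
    · simp only [Matrix.smul_apply, Matrix.one_apply_eq, smul_eq_mul]
      ring
    · intro y _ hy
      simp only [Matrix.smul_apply, Matrix.one_apply_ne (Ne.symm hy), smul_eq_mul]
      ring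
    · intro hx
      exact absurd (mem_univ x) hx
  rw [sum_congr rfl fun x _ => e1 x, Finset.sum_div, ← sum_neg_distrib]
  refine sum_congr rfl fun x _ => ?_
  ring

/-- **variance of the average over a box of the torus at a real mass, from `(H2)`** -/
theorem var_torR (hb : 0 < b) (hτ : 0 < τ) {C2 W : ℝ} (hC : 0 < C2) {l K : ℕ} (hl : 1 ≤ l)
    (hK : N = K * l) {k : ℕ} (hW : 8 * 2 ^ k ≤ W) (h2 : H2 C2 W (l : ℝ) (Gt N b τ)) {L : ℕ}
    (hL1 : 1 ≤ L) (hL : 8 * 2 ^ k * L ≤ l) (p q : ℤ) :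
    (k : ℝ) / (804 * C2) * ∑' h : ZMod N × ZMod N → ℤ,
        W1h TM.H459.tS TM.H459.tT (fun _ => wI b) (ga (fun _ => τ)) h ≤
      ∑' h : ZMod N × ZMod N → ℤ, W1h TM.H459.tS TM.H459.tT (fun _ => wI b) (ga (fun _ => τ)) h *
        (bav N p q L fun x => (h x : ℝ)) ^ 2 := by
  classical
  have hL0 : (0 : ℝ) < L := by exact_mod_cast hL1
  have hN0 : 0 < N := NeZero.pos N
  have hLN : L ≤ N := by
    have hK0 : 0 < K := by
      rcases Nat.eq_zero_or_pos K with h | h
      · rw [h, zero_mul] at hK; omega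
      · exact h
    have h1 : L ≤ 8 * 2 ^ k * L := Nat.le_mul_of_pos_left _ (by positivity)
    have h2 : l ≤ K * l := Nat.le_mul_of_pos_left _ hK0
    omega
  have hμ : EM (H37.wt N b τ) := H789.em_wt hb.le hτ
  have hZpos := TM.H104.T_one_pos hμ (0 : ZMod N × ZMod N → ℝ)
  set u : ZMod N × ZMod N → ℝ := fun x => if x ∈ (Bx p q L).image (pt N) then (1 : ℝ) else 0
    with hu
  have hlin : ∀ h : ZMod N × ZMod N → ℤ, li u h =
      (L : ℝ) ^ 2 * bav N p q L fun x => (h x : ℝ) := by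
    intro h
    unfold TM.H104.li
    have e1 : ∀ x : ZMod N × ZMod N, u x * (h x : ℝ) =
        (if x ∈ (Bx p q L).image (pt N) then (h x : ℝ) else 0) := by
      intro x
      simp only [hu]
      split_ifs <;> ring
    rw [sum_congr rfl fun x _ => e1 x, sum_ite_mem, univ_inter,
      sum_img hLN hL1 (fun x => (h x : ℝ))]
  have h6 : (k : ℝ) / (804 * C2) * (L : ℝ) ^ 4 ≤ frm (Gt N b τ) u :=
    frm_box_low (fun k => (H37.RP.Gh_pos (N := N) hb hτ 0 k).le) hC hl hK hW h2 hL p q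
  have e0 : frm (Gt N b τ) u = TM.H104.Cv (H37.wt N b τ) 0 (li u) (li u) := by
    have h := H37.RP.frm_Gc hμ 0 u
    exact h
  have hm0 : TM.H104.Ex (H37.wt N b τ) 0 (li u) = 0 := by
    unfold TM.H104.Ex
    have h1 : TM.H104.T (H37.wt N b τ) 0 (li u) = -TM.H104.T (H37.wt N b τ) 0 (li u) := by
      conv_lhs => unfold TM.H104.T
      rw [← (Equiv.neg (ZMod N × ZMod N → ℤ)).tsum_eq]
      unfold TM.H104.T
      rw [← tsum_neg]
      refine tsum_congr fun h => ?_
      have e3 : li u (-h) = -li u h := by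
        unfold TM.H104.li
        rw [← sum_neg_distrib]
        refine sum_congr rfl fun x _ => ?_
        push_cast [Pi.neg_apply]
        ring
      rw [Equiv.neg_apply, H789.ev_wt h, TM.H104.li_zero, TM.H104.li_zero, e3]
      ring
    have h2 : TM.H104.T (H37.wt N b τ) 0 (li u) = 0 := by linarith
    rw [h2, zero_div]
  have e1 : TM.H104.Cv (H37.wt N b τ) 0 (li u) (li u) =
      (∑' h : ZMod N × ZMod N → ℤ, W1h TM.H459.tS TM.H459.tT (fun _ => wI b) (ga (fun _ => τ)) h *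
        ((L : ℝ) ^ 2 * bav N p q L fun x => (h x : ℝ)) ^ 2) /
      ∑' h : ZMod N × ZMod N → ℤ,
        W1h TM.H459.tS TM.H459.tT (fun _ => wI b) (ga (fun _ => τ)) h := by
    unfold TM.H104.Cv
    rw [hm0, zero_mul, sub_zero]
    unfold TM.H104.Ex TM.H104.T
    congr 1
    · refine tsum_congr fun h => ?_
      have e5 := hlin h
      rw [W1h_wt, TM.H104.li_zero, Real.exp_zero]
      simp only [e5]
      ring
    · refine tsum_congr fun h => ?_
      rw [W1h_wt, TM.H104.li_zero, Real.exp_zero]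
      ring
  have hZ : 0 < ∑' h : ZMod N × ZMod N → ℤ,
      W1h TM.H459.tS TM.H459.tT (fun _ => wI b) (ga (fun _ => τ)) h := by
    refine lt_of_lt_of_le hZpos (le_of_eq ?_)
    unfold TM.H104.T
    refine tsum_congr fun h => ?_
    rw [W1h_wt, TM.H104.li_zero, Real.exp_zero]
    ring
  have hW0 : ∀ h : ZMod N × ZMod N → ℤ,
      0 ≤ W1h TM.H459.tS TM.H459.tT (fun _ => wI b) (ga (fun _ => τ)) h := fun h =>
    mul_nonneg (prod_nonneg fun e _ => wI_nonneg hb.le _)
      (prod_nonneg fun x _ => (Real.exp_pos _).le)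
  rw [e0, e1, le_div_iff₀ hZ] at h6
  have e4 : ∑' h : ZMod N × ZMod N → ℤ,
      W1h TM.H459.tS TM.H459.tT (fun _ => wI b) (ga (fun _ => τ)) h *
        ((L : ℝ) ^ 2 * bav N p q L fun x => (h x : ℝ)) ^ 2 = (L : ℝ) ^ 4 *
      ∑' h : ZMod N × ZMod N → ℤ,
        W1h TM.H459.tS TM.H459.tT (fun _ => wI b) (ga (fun _ => τ)) h *
        (bav N p q L fun x => (h x : ℝ)) ^ 2 := by
    rw [← tsum_mul_left]
    refine tsum_congr fun h => ?_
    ring
  rw [e4] at h6
  have h10 : (0 : ℝ) < (L : ℝ) ^ 4 := by positivity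
  refine le_of_mul_le_mul_left ?_ h10
  linarith

end dict

end Vale.Agent.P159.H730.FR
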