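import Vale.Agent.P159.H730.FathR1
import Vale.Agent.P159.TM.H131.Rb
import Vale.Agent.P159.TM.H77.FatBk
import Vale.Agent.P159.TM.H352.GFat

/-!
P159 / HAT (helper358): fatness at real mass (helper730). Part 2: `H352.FATH` for the clusters of one
copy on the torus at a real mass, from `(H2)`.
-/

open Finset
open scoped ENNReal NNReal

namespace Vale.Agent.P159.H730.FR

open Vale.Agent.P159 Vale.Agent.P159.H353
open Vale.Agent.P159.TM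
open Vale.Agent.P159.TM.H60 Vale.Agent.P159.TM.H504 Vale.Agent.P159.TM.H312
open Vale.Agent.P159.TM.H426
open Vale.Agent.P159.TM.H576 (Ex mf ind Ex_mono Ex_mul Ex_sum)
open Vale.Agent.P159.TM.H459 (sd sn bk bk1 tS tT)
open Vale.Agent.P159.TM.H764 (H2)
open Vale.Agent.P159.TM.H77
open Vale.Agent.P159.H37 (Gt)

/-- the system of one copy at a real mass -/
noncomputable def sT (N : ℕ) [NeZero N] (b τ : ℝ) (hb : 0 ≤ b) :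
    Sys (ZMod N × ZMod N) ((ZMod N × ZMod N) × Bool) ℤ :=
  TM.H131.S1 (tS (N := N)) tT (fun _ => hb) (fun _ => τ)

lemma sw_eq {V : Type} (m : V → ℝ) : TM.H131.sw m (fun _ => 0) = ga m := by
  funext v n
  unfold TM.H131.sw ga
  rw [sub_zero]

/-- choice of the number of doublings -/
lemma k0_exR {C2 bb : ℝ} (hC : 0 < C2) (hbb : 0 < bb) : ∃ k0 : ℕ, 1 ≤ k0 ∧ ∀ k, k0 ≤ k →
    Real.exp (-((k : ℝ) / (804 * C2) / (128 * bb))) ≤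
      ((k : ℝ) / (804 * C2)) ^ 2 / (2304 * (3 * ((k : ℝ) + 4) ^ 2 * bb + 4) ^ 2) := by
  set c : ℝ := 1 / (804 * C2) / (128 * bb) with hc
  have hc0 : 0 < c := by positivity
  set M : ℝ := 2304 * (3 * bb + 4) ^ 2 * (804 * C2) ^ 2 with hM
  have hM0 : 0 < M := by positivity
  obtain ⟨k0, hk0⟩ := exists_nat_ge (75000 * M / c ^ 5)
  refine ⟨k0 + 1, by omega, fun k hk => ?_⟩
  have hk1 : (1 : ℝ) ≤ k := by
    have : 1 ≤ k := by omega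
    exact_mod_cast this
  have hk2 : 75000 * M / c ^ 5 ≤ k := by
    have : (k0 : ℝ) ≤ k := by
      have : k0 ≤ k := by omega
      exact_mod_cast this
    linarith
  have hk3 : 75000 * M ≤ k * c ^ 5 := by
    rwa [div_le_iff₀ (by positivity)] at hk2
  have h1 : (c * k) ^ 5 / 120 ≤ Real.exp (c * k) := by
    have := Real.pow_div_factorial_le_exp (c * k) (by positivity) 5
    simpa [Nat.factorial] using this
  have h2 : M * 625 * (k : ℝ) ^ 4 ≤ Real.exp (c * k) := by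
    refine le_trans ?_ h1
    rw [le_div_iff₀ (by norm_num)]
    calc M * 625 * (k : ℝ) ^ 4 * 120 = 75000 * M * (k : ℝ) ^ 4 := by ring
      _ ≤ k * c ^ 5 * (k : ℝ) ^ 4 := by gcongr
      _ = (c * k) ^ 5 := by ring
  have e1 : (k : ℝ) / (804 * C2) / (128 * bb) = c * k := by
    rw [hc]
    field_simp
  rw [e1, Real.exp_neg, le_div_iff₀ (by positivity), inv_mul_le_iff₀ (Real.exp_pos _)]
  have h3 : 3 * ((k : ℝ) + 4) ^ 2 * bb + 4 ≤ (3 * bb + 4) * (5 * k) ^ 2 := by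
    have h4 : ((k : ℝ) + 4) ^ 2 ≤ (5 * k) ^ 2 := by
      have : (k : ℝ) + 4 ≤ 5 * k := by linarith
      gcongr
    have h5 : (1 : ℝ) ≤ (5 * k) ^ 2 := by nlinarith
    nlinarith [mul_le_mul_of_nonneg_right h4 hbb.le]
  have h6 : (3 * ((k : ℝ) + 4) ^ 2 * bb + 4) ^ 2 ≤ ((3 * bb + 4) * (5 * k) ^ 2) ^ 2 := by
    gcongr
  calc 2304 * (3 * ((k : ℝ) + 4) ^ 2 * bb + 4) ^ 2
      ≤ 2304 * ((3 * bb + 4) * (5 * k) ^ 2) ^ 2 := by linarith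
    _ = (M * 625 * (k : ℝ) ^ 4) * (1 / (804 * C2)) ^ 2 := by
        rw [hM]
        field_simp
        ring
    _ ≤ Real.exp (c * k) * ((k : ℝ) / (804 * C2)) ^ 2 := by
        have h7 : (1 / (804 * C2)) ^ 2 ≤ ((k : ℝ) / (804 * C2)) ^ 2 := by
          gcongr
        exact mul_le_mul h2 h7 (by positivity) (Real.exp_pos _).le

/-- **FATNESS ON THE TORUS FROM `(H2)`** (one copy, `Spec.σ1`). `ell ξ k = ⌊ξ / (32 · 2^k)⌋`. -/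
theorem fatTorR {C2 bb : ℝ} (hC : 0 < C2) (hbb : 0 < bb) : ∃ k0 : ℕ, ∀ k, k0 ≤ k →
    ∃ X0 : ℕ, ∃ c : ℝ, 0 < c ∧ ∀ (N : ℕ) [NeZero N] (b : ℝ) (hb : 0 < b), b ≤ bb →
    ∀ ξ K : ℕ, X0 ≤ ξ → 2 ≤ K → N = K * ξ →
    ∀ μ : ℝ, 1 / (2 * (ξ : ℝ)) ^ 2 ≤ μ →
    ∀ W : ℝ, 8 * 2 ^ k ≤ W → H2 C2 W (ξ : ℝ) (Gt N b μ) →
    ∀ (p q : ℤ) (u : ZMod N × ZMod N) (Γ : (ZMod N × ZMod N → ℕ) → ℝ≥0∞), Monotone Γ →
    (∀ m, m u = 0 → Γ m = 0) →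
    (∀ m, Γ m ≠ 0 → ∃ z ∈ Ico (p + ell ξ k) (p + 2 * ell ξ k) ×ˢ
      Ico (q + ell ξ k) (q + 2 * ell ξ k), m (pt N z) ≠ 0) →
    (∀ m, Γ m ≠ 0 → ∃ w, w ∉ (Bx p q (3 * ell ξ k)).image (pt N) ∧ m w ≠ 0) →
    Ex (sT N b μ hb.le) (fun x om => Γ (mf (sT N b μ hb.le) x om u)) ≠ ⊤ →
    ENNReal.ofReal (c * (ξ : ℝ) ^ 2) *
      Ex (sT N b μ hb.le) (fun x om => Γ (mf (sT N b μ hb.le) x om u)) ≤
      Ex (sT N b μ hb.le) (fun x om => Γ (mf (sT N b μ hb.le) x om u) *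
        ∑ z ∈ (Bx p q (3 * ell ξ k)).image (pt N),
          (mf (sT N b μ hb.le) x om u z : ℝ≥0∞)) := by
  obtain ⟨k0, hk0, hex⟩ := k0_exR hC hbb
  refine ⟨k0, fun k hk => ?_⟩
  have hk1 : 1 ≤ k := hk0.trans hk
  set v : ℝ := (k : ℝ) / (804 * C2) with hv
  have hkR : (0 : ℝ) < k := by exact_mod_cast hk1
  have hv0 : 0 < v := by positivity
  set cc : ℝ := 3 * ((k : ℝ) + 4) ^ 2 * bb + 4 with hcc
  have hcc0 : 0 < cc := by positivity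
  set τ : ℝ := Real.sqrt (v / 8) / (8 * bb) with hτ
  obtain ⟨T, hT⟩ := exists_nat_ge τ
  refine ⟨64 * 2 ^ k * (T + 2), v ^ 2 / (2304 * cc ^ 2) * (Real.sqrt (v / 8) *
    (9 / (64 * 2 ^ k) ^ 2)), by
      have := Real.sqrt_pos.2 (by positivity : 0 < v / 8)
      positivity, ?_⟩
  intro N _ b hb hb' ξ K hξ hK hN μ hμ W hW h2 p q u Γ hΓ hΓ0 hin hout hfin
  set ℓ := ell ξ k with hℓ
  have hD : 0 < 32 * 2 ^ k := by positivity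
  have hup : 32 * 2 ^ k * ℓ ≤ ξ := by
    rw [hℓ]
    exact Nat.mul_div_le _ _
  have hlo : T + 2 ≤ ℓ := by
    rw [hℓ]
    unfold ell
    rw [Nat.le_div_iff_mul_le hD]
    calc (T + 2) * (32 * 2 ^ k) ≤ 64 * 2 ^ k * (T + 2) := by nlinarith
      _ ≤ ξ := hξ
  have hlo2 : ξ ≤ 64 * 2 ^ k * ℓ := by
    have h1 : ξ < (32 * 2 ^ k) * (ℓ + 1) := by
      rw [hℓ]
      exact Nat.lt_mul_div_succ ξ hD
    have h2 : ℓ + 1 ≤ 2 * ℓ := by omega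
    calc ξ ≤ (32 * 2 ^ k) * (ℓ + 1) := h1.le
      _ ≤ (32 * 2 ^ k) * (2 * ℓ) := Nat.mul_le_mul_left _ h2
      _ = 64 * 2 ^ k * ℓ := by ring
  have hl1 : 1 ≤ ℓ := by omega
  have hξ1 : 1 ≤ ξ := by
    have : 1 * 1 ≤ 32 * 2 ^ k * ℓ := Nat.mul_le_mul hD hl1
    omega
  have hξ0 : (0 : ℝ) < ξ := by exact_mod_cast hξ1
  have hn : 3 * ℓ * 2 ^ (k + 4) ≤ N := by
    calc 3 * ℓ * 2 ^ (k + 4) = 48 * 2 ^ k * ℓ := by rw [pow_add]; ring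
      _ ≤ 2 * (32 * 2 ^ k * ℓ) := by nlinarith
      _ ≤ 2 * ξ := by omega
      _ ≤ K * ξ := Nat.mul_le_mul_right _ hK
      _ = N := hN.symm
  have hm0 : (0 : ℝ) < 1 / (2 * (ξ : ℝ)) ^ 2 := by positivity
  have hupR : 32 * 2 ^ k * (ℓ : ℝ) ≤ ξ := by exact_mod_cast hup
  have hlo2R : (ξ : ℝ) ≤ 64 * 2 ^ k * (ℓ : ℝ) := by exact_mod_cast hlo2
  have hloR : (T : ℝ) + 2 ≤ ℓ := by exact_mod_cast hlo
  have hl0 : (0 : ℝ) < ℓ := by exact_mod_cast hl1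
  have hcsteq : cst bb (k + 4) (1 / (2 * (ξ : ℝ)) ^ 2) (3 * ℓ) = 3 * ((k : ℝ) + 4) ^ 2 * bb +
      (2 * (ξ : ℝ)) ^ 2 / (2 * (48 * 2 ^ k * (ℓ : ℝ)) ^ 2) := by
    unfold cst
    push_cast
    congr 1
    rw [show (3 * (ℓ : ℝ) * 2 ^ (k + 4)) = 48 * 2 ^ k * ℓ by rw [pow_add]; ring]
    have h1 : (2 * (ξ : ℝ)) ^ 2 ≠ 0 := by positivity
    have h2 : (48 * 2 ^ k * (ℓ : ℝ)) ^ 2 ≠ 0 := by positivity
    rw [div_eq_div_iff (by positivity) (by positivity)]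
    rw [mul_assoc 2 (1 / (2 * (ξ : ℝ)) ^ 2) _]
    rw [show (2 * (ξ : ℝ)) ^ 2 * (2 * (1 / (2 * (ξ : ℝ)) ^ 2 * (48 * 2 ^ k * (ℓ : ℝ)) ^ 2)) =
      (2 * (ξ : ℝ)) ^ 2 * (1 / (2 * (ξ : ℝ)) ^ 2) * (2 * (48 * 2 ^ k * (ℓ : ℝ)) ^ 2) by ring,
      mul_one_div_cancel h1]
  have hden : (0 : ℝ) < 2 * (48 * 2 ^ k * (ℓ : ℝ)) ^ 2 := by positivity
  have hcc1 : cst bb (k + 4) (1 / (2 * (ξ : ℝ)) ^ 2) (3 * ℓ) ≤ cc := by
    rw [hcsteq, hcc]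
    have : (2 * (ξ : ℝ)) ^ 2 / (2 * (48 * 2 ^ k * (ℓ : ℝ)) ^ 2) ≤ 4 := by
      rw [div_le_iff₀ hden]
      calc (2 * (ξ : ℝ)) ^ 2 ≤ (2 * (64 * 2 ^ k * (ℓ : ℝ))) ^ 2 := by gcongr
        _ = 16384 * (2 ^ k * (ℓ : ℝ)) ^ 2 := by ring
        _ ≤ 18432 * (2 ^ k * (ℓ : ℝ)) ^ 2 := by
            have : (0 : ℝ) ≤ (2 ^ k * (ℓ : ℝ)) ^ 2 := by positivity
            nlinarith
        _ = _ := by ring
    linarith
  have hC4 : 4 ≤ ((3 * ℓ : ℕ) : ℝ) ^ 2 * cst bb (k + 4) (1 / (2 * (ξ : ℝ)) ^ 2) (3 * ℓ) := by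
    rw [hcsteq]
    have h1 : (2 : ℝ) / 9 ≤ (2 * (ξ : ℝ)) ^ 2 / (2 * (48 * 2 ^ k * (ℓ : ℝ)) ^ 2) := by
      rw [le_div_iff₀ hden]
      calc (2 : ℝ) / 9 * (2 * (48 * 2 ^ k * (ℓ : ℝ)) ^ 2) = (32 * 2 ^ k * (ℓ : ℝ)) ^ 2 := by
            ring
        _ ≤ (ξ : ℝ) ^ 2 := by gcongr
        _ ≤ (2 * (ξ : ℝ)) ^ 2 := by nlinarith
    have h2 : (6 : ℝ) ≤ ((3 * ℓ : ℕ) : ℝ) := by
      have : 6 ≤ 3 * ℓ := by omega
      exact_mod_cast this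
    have h3 : (36 : ℝ) ≤ ((3 * ℓ : ℕ) : ℝ) ^ 2 := by nlinarith
    have h4 : (2 : ℝ) / 9 ≤ 3 * ((k : ℝ) + 4) ^ 2 * bb +
        (2 * (ξ : ℝ)) ^ 2 / (2 * (48 * 2 ^ k * (ℓ : ℝ)) ^ 2) := by
      have : 0 ≤ 3 * ((k : ℝ) + 4) ^ 2 * bb := by positivity
      linarith
    calc (4 : ℝ) ≤ 36 * (2 / 9) := by norm_num
      _ ≤ _ := mul_le_mul h3 h4 (by norm_num) (by positivity)
  have hμ0 : 0 < μ := hm0.trans_le hμ
  have hvar := var_torR (N := N) hb hμ0 hC hξ1 hN hW h2 (L := 3 * ℓ) (by omega) (by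
    calc 8 * 2 ^ k * (3 * ℓ) = 24 * 2 ^ k * ℓ := by ring
      _ ≤ 32 * 2 ^ k * ℓ := by nlinarith
      _ ≤ ξ := hup) p q
  have hae : ∀ (x : ZMod N × ZMod N) (n : ℤ), ga (fun _ => μ) x (-n) = ga (fun _ => μ) x n := by
    intro x n
    unfold ga
    simp
  have hσ : sT N b μ hb.le = one (H459.tS (N := N)) H459.tT (fun _ => wI b)
      (fun _ n => wI_nonneg hb.le n) (fun _ n => wI_neg _ n) (fun _ => T1.H897.logC_wI hb.le)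
      (ga (fun _ => μ)) (fun x n => (Real.exp_pos _).le) hae := by
    unfold sT TM.H131.S1
    simp only [sw_eq]
  rw [hσ] at hfin ⊢
  have main := fat_grid (steps_tor N) hl1 (k + 4) (grid_tor N p q _) hn (b := fun _ => b)
    (fun _ => hb) (fun _ => hb') hbb (fun _ n => wI_nonneg hb.le n) (fun _ n => wI_neg _ n)
    (fun _ => T1.H897.logC_wI hb.le) hm0 (fun v => hμ)
    (fun x n => (Real.exp_pos _).le) hae hC4 hcc1 hv0 hvar (by linarith)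
    (hex k hk) u hΓ hΓ0 hin hout hfin
  refine le_trans (mul_le_mul_left (ENNReal.ofReal_le_ofReal ?_) _) main
  rw [mul_assoc, mul_assoc]
  refine mul_le_mul_of_nonneg_left ?_ (by positivity)
  refine mul_le_mul_of_nonneg_left ?_ (Real.sqrt_nonneg _)
  rw [div_mul_eq_mul_div, div_le_iff₀ (by positivity)]
  calc 9 * (ξ : ℝ) ^ 2 ≤ 9 * (64 * 2 ^ k * (ℓ : ℝ)) ^ 2 := by gcongr
    _ = (3 * (ℓ : ℝ)) ^ 2 * (64 * 2 ^ k) ^ 2 := by ring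

end Vale.Agent.P159.H730.FR
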