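import Vale.Agent.P159.H556.Mms

/-!
P159 (helper730), module LGC: site reflection positivity of the plane correlation
`C(x, ρ y)² ≤ C(x, ρ x) C(y, ρ y)` for `x`, `y` on one side of a mirror `ρ` of sites.

* `corr_rp` : two copies glued along the spins of `M`;
* `CI_rp` : the plane, any mirror `Mir ρ lam`;
* `C_mid` : `C(m + n, 0)² ≤ C(2 m, 0) C(2 n, 0)` (vertical mirror);
* `C_dg` : `C(i, j)² ≤ C(p, p) C(q, q)`, `i + j = p + q` (diagonal mirror), `C_two_le`.
-/

open MeasureTheory Filter Topology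
open scoped BigOperators

set_option linter.unusedSectionVars false

namespace Vale.Agent.P159.H730

open Vale.Agent.P159 Vale.Agent.P159.XY

section cop

variable {M L : Type*} [Fintype M] [Fintype L]

/-- the doubled couplings: two copies of `L` glued along `M` -/
def DJ (J : M ⊕ L → M ⊕ L → ℝ) : M ⊕ (L ⊕ L) → M ⊕ (L ⊕ L) → ℝ
  | Sum.inl m, Sum.inl m' => J (Sum.inl m) (Sum.inl m')
  | Sum.inl m, Sum.inr (Sum.inl u) => J (Sum.inl m) (Sum.inr u)
  | Sum.inl m, Sum.inr (Sum.inr u) => J (Sum.inl m) (Sum.inr u)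
  | Sum.inr (Sum.inl u), Sum.inl m => J (Sum.inr u) (Sum.inl m)
  | Sum.inr (Sum.inr u), Sum.inl m => J (Sum.inr u) (Sum.inl m)
  | Sum.inr (Sum.inl u), Sum.inr (Sum.inl v) => J (Sum.inr u) (Sum.inr v)
  | Sum.inr (Sum.inr u), Sum.inr (Sum.inr v) => J (Sum.inr u) (Sum.inr v)
  | Sum.inr (Sum.inl _), Sum.inr (Sum.inr _) => 0
  | Sum.inr (Sum.inr _), Sum.inr (Sum.inl _) => 0

/-- the first copy -/
def lc : M ⊕ L → M ⊕ (L ⊕ L) := Sum.map id Sum.inl

/-- the second copy -/
def rc : M ⊕ L → M ⊕ (L ⊕ L) := Sum.map id Sum.inr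

/-- energy of the mirror -/
noncomputable def eM (J : M ⊕ L → M ⊕ L → ℝ) (m : M → T) : ℝ :=
  ∑ u, ∑ v, J (Sum.inl u) (Sum.inl v) * ct (m u - m v)

theorem eM_cont (J : M ⊕ L → M ⊕ L → ℝ) : Continuous (eM J) := by
  unfold eM
  fun_prop

theorem energy_DJ (J : M ⊕ L → M ⊕ L → ℝ) (θ : M ⊕ (L ⊕ L) → T) :
    energy (DJ J) θ = -(eM J fun m => θ (Sum.inl m)) + energy J (fun z => θ (lc z)) +
      energy J (fun z => θ (rc z)) := by
  unfold energy eM lc rc
  simp only [Fintype.sum_sum_type, DJ, Finset.sum_add_distrib, zero_mul, Finset.sum_const_zero,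
    Sum.map_inl, Sum.map_inr, id_eq]
  ring

/-- the form is positive -/
theorem rp_nonneg {w : (M → T) → ℝ} (hw : Continuous w) (hw0 : ∀ m, 0 ≤ w m)
    {g : (M ⊕ L → T) → ℝ} (hg : Continuous g) :
    0 ≤ ∫ θ : M ⊕ (L ⊕ L) → T, w (fun m => θ (Sum.inl m)) *
      (g (fun z => θ (lc z)) * g (fun z => θ (rc z))) ∂haarV (M ⊕ (L ⊕ L)) := by
  -- the two halves
  have key : ∀ θ : M ⊕ (L ⊕ L) → T, w (fun m => θ (Sum.inl m)) *
      (g (fun z => θ (lc z)) * g (fun z => θ (rc z))) =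
      (fun p : (M → T) × (L ⊕ L → T) => w p.1 *
        (g (Sum.elim p.1 fun u => p.2 (Sum.inl u)) * g (Sum.elim p.1 fun u => p.2 (Sum.inr u))))
        (fun m => θ (Sum.inl m), fun u => θ (Sum.inr u)) := by
    intro θ
    have e1 : (fun z => θ (lc z)) = Sum.elim (fun m => θ (Sum.inl m))
        fun u => θ (Sum.inr (Sum.inl u)) := by
      funext z
      rcases z with z | z <;> rfl
    have e2 : (fun z => θ (rc z)) = Sum.elim (fun m => θ (Sum.inl m))
        fun u => θ (Sum.inr (Sum.inr u)) := by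
      funext z
      rcases z with z | z <;> rfl
    rw [e1, e2]
  simp only [key]
  have h1 := (measurePreserving_sumPiEquivProdPi (ι := M) (ι' := L ⊕ L) (X := fun _ => T)
    (fun _ => (AddCircle.haarAddCircle : Measure T))).integral_comp'
    (g := fun p : (M → T) × (L ⊕ L → T) => w p.1 *
        (g (Sum.elim p.1 fun u => p.2 (Sum.inl u)) * g (Sum.elim p.1 fun u => p.2 (Sum.inr u))))
  have h1' : ∫ θ : M ⊕ (L ⊕ L) → T, (fun p : (M → T) × (L ⊕ L → T) => w p.1 *
        (g (Sum.elim p.1 fun u => p.2 (Sum.inl u)) * g (Sum.elim p.1 fun u => p.2 (Sum.inr u))))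
        (fun m => θ (Sum.inl m), fun u => θ (Sum.inr u)) ∂haarV (M ⊕ (L ⊕ L)) =
      ∫ p, (w p.1 * (g (Sum.elim p.1 fun u => p.2 (Sum.inl u)) *
        g (Sum.elim p.1 fun u => p.2 (Sum.inr u)))) ∂((haarV M).prod (haarV (L ⊕ L))) := h1
  rw [h1']
  have c1 : Continuous fun p : (M → T) × (L ⊕ L → T) => (Sum.elim p.1 fun u => p.2 (Sum.inl u) :
      M ⊕ L → T) := by
    refine continuous_pi fun z => ?_
    rcases z with z | z
    · exact (continuous_apply z).comp continuous_fst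
    · exact (continuous_apply (Sum.inl z)).comp continuous_snd
  have c2 : Continuous fun p : (M → T) × (L ⊕ L → T) => (Sum.elim p.1 fun u => p.2 (Sum.inr u) :
      M ⊕ L → T) := by
    refine continuous_pi fun z => ?_
    rcases z with z | z
    · exact (continuous_apply z).comp continuous_fst
    · exact (continuous_apply (Sum.inr z)).comp continuous_snd
  have hF : Continuous fun p : (M → T) × (L ⊕ L → T) => w p.1 *
      (g (Sum.elim p.1 fun u => p.2 (Sum.inl u)) * g (Sum.elim p.1 fun u => p.2 (Sum.inr u))) :=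
    (hw.comp continuous_fst).mul ((hg.comp c1).mul (hg.comp c2))
  have hI : Integrable (fun p : (M → T) × (L ⊕ L → T) => w p.1 *
      (g (Sum.elim p.1 fun u => p.2 (Sum.inl u)) * g (Sum.elim p.1 fun u => p.2 (Sum.inr u))))
      ((haarV M).prod (haarV (L ⊕ L))) :=
    hF.integrable_of_hasCompactSupport (HasCompactSupport.of_compactSpace _)
  rw [integral_prod _ hI]
  refine integral_nonneg fun m => ?_
  have h2 : ∫ q : L ⊕ L → T, w m * (g (Sum.elim m fun u => q (Sum.inl u)) *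
      g (Sum.elim m fun u => q (Sum.inr u))) ∂haarV (L ⊕ L) =
      w m * (∫ θ, g (Sum.elim m θ) ∂haarV L) ^ 2 := by
    rw [integral_const_mul]
    congr 1
    have h3 := H556.integral_pair (P := L) (fun p : (L → T) × (L → T) => g (Sum.elim m p.1) *
      g (Sum.elim m p.2))
    refine h3.trans ?_
    rw [integral_prod_mul (fun θ => g (Sum.elim m θ)) (fun θ => g (Sum.elim m θ)), pow_two]
  change 0 ≤ ∫ q : L ⊕ L → T, w m * (g (Sum.elim m fun u => q (Sum.inl u)) *
      g (Sum.elim m fun u => q (Sum.inr u))) ∂haarV (L ⊕ L)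
  rw [h2]
  exact mul_nonneg (hw0 m) (sq_nonneg _)

theorem DJ_nonneg {J : M ⊕ L → M ⊕ L → ℝ} (hJ : ∀ u v, 0 ≤ J u v) :
    ∀ u v, 0 ≤ DJ J u v := by
  rintro (u | u | u) (v | v | v) <;> simp only [DJ] <;> first | exact hJ _ _ | exact le_refl _

/-- exchange of the two copies -/
theorem corr_swap {J : M ⊕ L → M ⊕ L → ℝ} (hJ : ∀ u v, 0 ≤ J u v) (x y : M ⊕ L) :
    XY.corr (DJ J) (lc y) (rc x) = XY.corr (DJ J) (lc x) (rc y) := by
  have h := corr_equiv (J := DJ J) (J' := DJ J) (Equiv.sumCongr (Equiv.refl M) (Equiv.sumComm L L))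
    (DJ_nonneg hJ) (by rintro (u | u | u) (v | v | v) <;> rfl) (lc y) (rc x)
  rw [h, corr_comm]
  have e1 : (Equiv.sumCongr (Equiv.refl M) (Equiv.sumComm L L)) (rc x) = lc x := by
    rcases x with x | x <;> rfl
  have e2 : (Equiv.sumCongr (Equiv.refl M) (Equiv.sumComm L L)) (lc y) = rc y := by
    rcases y with y | y <;> rfl
  rw [e1, e2]

/-- **Cauchy-Schwarz across the mirror** -/
theorem corr_rp {J : M ⊕ L → M ⊕ L → ℝ} (hJ : ∀ u v, 0 ≤ J u v) (x y : M ⊕ L) :
    XY.corr (DJ J) (lc x) (rc y) ^ 2 ≤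
      XY.corr (DJ J) (lc x) (rc x) * XY.corr (DJ J) (lc y) (rc y) := by
  have key : ∀ l : ℝ, 0 ≤ XY.corr (DJ J) (lc y) (rc y) * (l * l) +
      (2 * XY.corr (DJ J) (lc x) (rc y)) * l + XY.corr (DJ J) (lc x) (rc x) := by
    intro l
    have hE := continuous_energy J
    have hM := eM_cont J
    have pos : ∀ k : T → ℝ, Continuous k → 0 ≤ ∫ θ : M ⊕ (L ⊕ L) → T,
        Real.exp (-(eM J fun m => θ (Sum.inl m))) *
        ((fun σ : M ⊕ L → T => (k (σ x) + l * k (σ y)) * Real.exp (energy J σ)) (fun z => θ (lc z)) *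
        (fun σ : M ⊕ L → T => (k (σ x) + l * k (σ y)) * Real.exp (energy J σ)) (fun z => θ (rc z)))
        ∂haarV (M ⊕ (L ⊕ L)) := by
      intro k hk
      exact rp_nonneg (w := fun m => Real.exp (-(eM J m)))
        (g := fun σ : M ⊕ L → T => (k (σ x) + l * k (σ y)) * Real.exp (energy J σ)) (by fun_prop)
        (fun m => (Real.exp_pos _).le) (by fun_prop)
    have p1 := pos ct (by fun_prop)
    have p2 := pos st (by fun_prop)
    have hlc : ∀ z : M ⊕ L, Continuous fun θ : M ⊕ (L ⊕ L) → T => θ (lc z) :=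
      fun z => continuous_apply _
    have hrc : ∀ z : M ⊕ L, Continuous fun θ : M ⊕ (L ⊕ L) → T => θ (rc z) :=
      fun z => continuous_apply _
    have hl : Continuous fun θ : M ⊕ (L ⊕ L) → T => energy J (fun z => θ (lc z)) :=
      hE.comp (continuous_pi fun z => continuous_apply _)
    have hr : Continuous fun θ : M ⊕ (L ⊕ L) → T => energy J (fun z => θ (rc z)) :=
      hE.comp (continuous_pi fun z => continuous_apply _)
    have hm : Continuous fun θ : M ⊕ (L ⊕ L) → T => eM J (fun m => θ (Sum.inl m)) :=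
      hM.comp (continuous_pi fun z => continuous_apply _)
    have hint : ∀ k : T → ℝ, Continuous k → Integrable (fun θ : M ⊕ (L ⊕ L) → T =>
        Real.exp (-(eM J fun m => θ (Sum.inl m))) *
        ((fun σ : M ⊕ L → T => (k (σ x) + l * k (σ y)) * Real.exp (energy J σ)) (fun z => θ (lc z)) *
        (fun σ : M ⊕ L → T => (k (σ x) + l * k (σ y)) * Real.exp (energy J σ)) (fun z => θ (rc z))))
        (haarV (M ⊕ (L ⊕ L))) := by
      intro k hk
      refine Continuous.integrable_of_hasCompactSupport ?_ (HasCompactSupport.of_compactSpace _)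
      exact (Real.continuous_exp.comp hm.neg).mul
        (((((hk.comp (hlc x)).add (continuous_const.mul (hk.comp (hlc y)))).mul
          (Real.continuous_exp.comp hl))).mul
        (((hk.comp (hrc x)).add (continuous_const.mul (hk.comp (hrc y)))).mul
          (Real.continuous_exp.comp hr)))
    have p := add_nonneg p1 p2
    rw [← integral_add (hint ct (by fun_prop)) (hint st (by fun_prop))] at p
    have e : ∀ θ : M ⊕ (L ⊕ L) → T, (Real.exp (-(eM J fun m => θ (Sum.inl m))) *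
        ((fun σ : M ⊕ L → T => (ct (σ x) + l * ct (σ y)) * Real.exp (energy J σ)) (fun z => θ (lc z)) *
        (fun σ : M ⊕ L → T => (ct (σ x) + l * ct (σ y)) * Real.exp (energy J σ)) (fun z => θ (rc z))) +
        Real.exp (-(eM J fun m => θ (Sum.inl m))) *
        ((fun σ : M ⊕ L → T => (st (σ x) + l * st (σ y)) * Real.exp (energy J σ)) (fun z => θ (lc z)) *
        (fun σ : M ⊕ L → T => (st (σ x) + l * st (σ y)) * Real.exp (energy J σ)) (fun z => θ (rc z)))) =
        ((ct (θ (lc x) - θ (rc x)) + l * (ct (θ (lc x) - θ (rc y)) + ct (θ (lc y) - θ (rc x)))) +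
          l * l * ct (θ (lc y) - θ (rc y))) * Real.exp (energy (DJ J) θ) := by
      intro θ
      rw [energy_DJ, Real.exp_add, Real.exp_add]
      simp only [ct_sub]
      ring
    simp only [e] at p
    have h1 : 0 ≤ un (DJ J) (fun θ => (ct (θ (lc x) - θ (rc x)) +
        l * (ct (θ (lc x) - θ (rc y)) + ct (θ (lc y) - θ (rc x)))) +
          l * l * ct (θ (lc y) - θ (rc y))) := p
    have h2 : 0 ≤ ev (DJ J) (fun θ => (ct (θ (lc x) - θ (rc x)) +
        l * (ct (θ (lc x) - θ (rc y)) + ct (θ (lc y) - θ (rc x)))) +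
          l * l * ct (θ (lc y) - θ (rc y))) := div_nonneg h1 (part_pos _).le
    rw [ev_add _ (by fun_prop) (by fun_prop), ev_add _ (by fun_prop) (by fun_prop),
      ev_const_mul, ev_const_mul, ev_add _ (by fun_prop) (by fun_prop)] at h2
    have h3 : 0 ≤ (XY.corr (DJ J) (lc x) (rc x) + l * (XY.corr (DJ J) (lc x) (rc y) +
        XY.corr (DJ J) (lc y) (rc x))) + l * l * XY.corr (DJ J) (lc y) (rc y) := h2
    rw [corr_swap hJ x y] at h3
    refine h3.trans_eq ?_
    ring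
  have hd := discrim_le_zero key
  unfold discrim at hd
  nlinarith only [hd]

end cop

/-! ### the plane -/

/-- a mirror of the plane through sites which preserves the boxes; `lam` its linear form -/
structure Mir (ρ : ℤ × ℤ → ℤ × ℤ) (lam : ℤ × ℤ → ℤ) : Prop where
  inv : ∀ v, ρ (ρ v) = v
  nm : ∀ v, nm (ρ v) = nm v
  A : ∀ u v, A (ρ u) (ρ v) = A u v
  neg : ∀ v, lam (ρ v) = -lam v
  fix : ∀ v, lam v = 0 → ρ v = v
  sep : ∀ u v, 0 < lam u → 0 < lam v → XY.A u (ρ v) = 0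

section plane

variable {ρ : ℤ × ℤ → ℤ × ℤ} {lam : ℤ × ℤ → ℤ}

/-- sites of the box on the mirror -/
noncomputable def mS (lam : ℤ × ℤ → ℤ) (R : ℕ) : Finset (ℤ × ℤ) := (box R).filter fun v => lam v = 0

/-- sites of the box on the positive side -/
noncomputable def pS (lam : ℤ × ℤ → ℤ) (R : ℕ) : Finset (ℤ × ℤ) := (box R).filter fun v => 0 < lam v

/-- a site of the closed half box -/
def vl (lam : ℤ × ℤ → ℤ) (R : ℕ) : mS lam R ⊕ pS lam R → ℤ × ℤ :=
  Sum.elim Subtype.val Subtype.val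

lemma Mir.mem (h : Mir ρ lam) {R : ℕ} {v : ℤ × ℤ} (hv : v ∈ box R) : ρ v ∈ box R := by
  rw [mem_box_iff_nm] at hv ⊢
  rwa [h.nm]

/-- the box from its closed half -/
def eB (h : Mir ρ lam) (R : ℕ) : mS lam R ⊕ (pS lam R ⊕ pS lam R) → box R :=
  Sum.elim (fun u => ⟨u, (Finset.mem_filter.1 u.2).1⟩)
    (Sum.elim (fun u => ⟨u, (Finset.mem_filter.1 u.2).1⟩)
      fun u => ⟨ρ u, h.mem (Finset.mem_filter.1 u.2).1⟩)

lemma eB_lc (h : Mir ρ lam) (R : ℕ) (x : mS lam R ⊕ pS lam R) :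
    (eB h R (lc x) : ℤ × ℤ) = vl lam R x := by
  rcases x with x | x <;> rfl

lemma eB_rc (h : Mir ρ lam) (R : ℕ) (x : mS lam R ⊕ pS lam R) :
    (eB h R (rc x) : ℤ × ℤ) = ρ (vl lam R x) := by
  rcases x with x | x
  · exact (h.fix x (Finset.mem_filter.1 x.2).2).symm
  · rfl

lemma eB_bij (h : Mir ρ lam) (R : ℕ) : Function.Bijective (eB h R) := by
  constructor
  · have l0 : ∀ u : mS lam R, lam u = 0 := fun u => (Finset.mem_filter.1 u.2).2
    have l1 : ∀ u : pS lam R, 0 < lam u := fun u => (Finset.mem_filter.1 u.2).2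
    rintro (u | u | u) (v | v | v) huv
    · have h1 : (u : ℤ × ℤ) = v := congrArg (fun z : box R => (z : ℤ × ℤ)) huv
      rw [Subtype.ext h1]
    · have h1 : (u : ℤ × ℤ) = v := congrArg (fun z : box R => (z : ℤ × ℤ)) huv
      have a := l0 u
      have b := l1 v
      rw [h1] at a
      omega
    · have h1 : (u : ℤ × ℤ) = ρ v := congrArg (fun z : box R => (z : ℤ × ℤ)) huv
      have a := l0 u
      have b := l1 v
      rw [h1, h.neg] at a
      omega
    · have h1 : (u : ℤ × ℤ) = v := congrArg (fun z : box R => (z : ℤ × ℤ)) huv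
      have a := l1 u
      have b := l0 v
      rw [h1] at a
      omega
    · have h1 : (u : ℤ × ℤ) = v := congrArg (fun z : box R => (z : ℤ × ℤ)) huv
      rw [Subtype.ext h1]
    · have h1 : (u : ℤ × ℤ) = ρ v := congrArg (fun z : box R => (z : ℤ × ℤ)) huv
      have a := l1 u
      have b := l1 v
      rw [h1, h.neg] at a
      omega
    · have h1 : ρ u = (v : ℤ × ℤ) := congrArg (fun z : box R => (z : ℤ × ℤ)) huv
      have a := l1 u
      have b := l0 v
      rw [← h1, h.neg] at b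
      omega
    · have h1 : ρ u = (v : ℤ × ℤ) := congrArg (fun z : box R => (z : ℤ × ℤ)) huv
      have a := l1 u
      have b := l1 v
      rw [← h1, h.neg] at b
      omega
    · have h1 : ρ u = ρ v := congrArg (fun z : box R => (z : ℤ × ℤ)) huv
      have h2 : (u : ℤ × ℤ) = v := by rw [← h.inv u, h1, h.inv]
      rw [Subtype.ext h2]
  · rintro ⟨w, hw⟩
    rcases lt_trichotomy (lam w) 0 with h0 | h0 | h0
    · refine ⟨Sum.inr (Sum.inr ⟨ρ w, Finset.mem_filter.2 ⟨h.mem hw, ?_⟩⟩), Subtype.ext ?_⟩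
      · rw [h.neg]
        omega
      · exact h.inv w
    · exact ⟨Sum.inl ⟨w, Finset.mem_filter.2 ⟨hw, h0⟩⟩, rfl⟩
    · exact ⟨Sum.inr (Sum.inl ⟨w, Finset.mem_filter.2 ⟨hw, h0⟩⟩), rfl⟩

/-- **reflection inequality in a box** -/
theorem KS_rp (h : Mir ρ lam) {b : ℝ} (hb : 0 ≤ b) (R : ℕ) {x y : ℤ × ℤ} (hx : 0 ≤ lam x)
    (hy : 0 ≤ lam y) :
    KS (box R) b x (ρ y) ^ 2 ≤ KS (box R) b x (ρ x) * KS (box R) b y (ρ y) := by
  have hn := mul_nonneg (KS_nonneg (box R) hb x (ρ x)) (KS_nonneg (box R) hb y (ρ y))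
  by_cases hxB : x ∈ box R
  swap
  · have h0 : KS (box R) b x (ρ y) = 0 := by
      unfold KS
      rw [dif_neg fun h1 => hxB h1.1]
    rw [h0]
    simpa using hn
  by_cases hyB : y ∈ box R
  swap
  · have h0 : KS (box R) b x (ρ y) = 0 := by
      unfold KS
      rw [dif_neg fun h1 => hyB (by have := h.mem h1.2; rwa [h.inv] at this)]
    rw [h0]
    simpa using hn
  -- the sites of the half box
  have hat : ∀ z : ℤ × ℤ, z ∈ box R → 0 ≤ lam z → ∃ z' : mS lam R ⊕ pS lam R, vl lam R z' = z := by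
    intro z hz hz0
    rcases hz0.eq_or_lt with h0 | h0
    · exact ⟨Sum.inl ⟨z, Finset.mem_filter.2 ⟨hz, h0.symm⟩⟩, rfl⟩
    · exact ⟨Sum.inr ⟨z, Finset.mem_filter.2 ⟨hz, h0⟩⟩, rfl⟩
  obtain ⟨x', hx'⟩ := hat x hxB hx
  obtain ⟨y', hy'⟩ := hat y hyB hy
  set J : mS lam R ⊕ pS lam R → mS lam R ⊕ pS lam R → ℝ :=
    fun u v => b * A (vl lam R u) (vl lam R v) with hJd
  have hJ : ∀ u v, 0 ≤ J u v := fun u v => mul_nonneg hb (A_nonneg _ _)
  have hcoup : ∀ u v, DJ J u v = (fun u v : box R => b * A u v)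
      (Equiv.ofBijective _ (eB_bij h R) u) (Equiv.ofBijective _ (eB_bij h R) v) := by
    have l0 : ∀ u : mS lam R, ρ (u : ℤ × ℤ) = u := fun u => h.fix _ (Finset.mem_filter.1 u.2).2
    have l1 : ∀ u : pS lam R, 0 < lam u := fun u => (Finset.mem_filter.1 u.2).2
    rintro (u | u | u) (v | v | v)
    · rfl
    · rfl
    · change b * A u v = b * A u (ρ v)
      rw [← h.A u v, l0]
    · rfl
    · rfl
    · change (0 : ℝ) = b * A u (ρ v)
      rw [h.sep _ _ (l1 u) (l1 v), mul_zero]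
    · change b * A u v = b * A (ρ u) v
      rw [← h.A u v, l0]
    · change (0 : ℝ) = b * A (ρ u) v
      rw [A_symm, h.sep _ _ (l1 v) (l1 u), mul_zero]
    · change b * A u v = b * A (ρ u) (ρ v)
      rw [h.A]
  have tr : ∀ u v : mS lam R ⊕ pS lam R, XY.corr (DJ J) (lc u) (rc v) =
      KS (box R) b (vl lam R u) (ρ (vl lam R v)) := by
    intro u v
    rw [corr_equiv (J' := fun u v : box R => b * A u v) (Equiv.ofBijective _ (eB_bij h R))
      (DJ_nonneg hJ) hcoup]
    have m1 : vl lam R u ∈ box R := by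
      rw [← eB_lc h]
      exact (eB h R (lc u)).2
    have m2 : ρ (vl lam R v) ∈ box R := by
      rw [← eB_rc h]
      exact (eB h R (rc v)).2
    rw [KS_of_mem b m1 m2]
    congr 1
    · exact Subtype.ext (eB_lc h R u)
    · exact Subtype.ext (eB_rc h R v)
  have key := corr_rp hJ x' y'
  rw [tr, tr, tr, hx', hy'] at key
  exact key

/-- **reflection inequality in the plane** -/
theorem CI_rp (h : Mir ρ lam) {b : ℝ} (hb : 0 ≤ b) {x y : ℤ × ℤ} (hx : 0 ≤ lam x)
    (hy : 0 ≤ lam y) : CI b x (ρ y) ^ 2 ≤ CI b x (ρ x) * CI b y (ρ y) :=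
  le_of_tendsto_of_tendsto' ((tendsto_KS hb x (ρ y)).pow 2)
    ((tendsto_KS hb x (ρ x)).mul (tendsto_KS hb y (ρ y))) fun R => KS_rp h hb R hx hy

/-- the vertical mirror -/
theorem mir_v : Mir XY.refl1 (fun v => v.1) where
  inv v := by simp [XY.refl1]
  nm v := by
    unfold XY.nm XY.refl1
    simp only
    omega
  A := A_refl1
  neg v := rfl
  fix v hv := by
    have hv' : v.1 = 0 := hv
    unfold XY.refl1
    exact Prod.ext (by simp only; omega) rfl
  sep u v hu hv := by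
    have hu' : 0 < u.1 := hu
    have hv' : 0 < v.1 := hv
    rw [A_eq, if_neg]
    unfold XY.refl1
    simp only
    omega

/-- the diagonal mirror -/
theorem mir_d : Mir Prod.swap (fun v => v.1 - v.2) where
  inv v := Prod.swap_swap v
  nm v := by
    unfold XY.nm
    simp only [Prod.fst_swap, Prod.snd_swap]
    omega
  A := A_swap
  neg v := by
    simp only [Prod.fst_swap, Prod.snd_swap]
    ring
  fix v hv := by
    have hv' : v.1 - v.2 = 0 := hv
    exact Prod.ext (by simp only [Prod.fst_swap]; omega) (by simp only [Prod.snd_swap]; omega)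
  sep u v hu hv := by
    have hu' : 0 < u.1 - u.2 := hu
    have hv' : 0 < v.1 - v.2 := hv
    rw [A_eq, if_neg]
    simp only [Prod.fst_swap, Prod.snd_swap]
    omega

/-- **axis log convexity**, integer form -/
theorem C_mid' {b : ℝ} (hb : 0 ≤ b) {m n : ℤ} (hm : 0 ≤ m) (hn : 0 ≤ n) :
    C b (m + n, 0) ^ 2 ≤ C b (2 * m, 0) * C b (2 * n, 0) := by
  have h := CI_rp mir_v hb (x := (m, 0)) (y := (n, 0)) hm hn
  rw [CI_eq hb, CI_eq hb, CI_eq hb] at h
  have e : ∀ p q : ℤ, C b (XY.refl1 (q, 0) - (p, 0)) = C b (p + q, 0) := by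
    intro p q
    rw [← C_neg hb]
    congr 1
    unfold XY.refl1
    refine Prod.ext ?_ ?_
    · simp only [Prod.mk_sub_mk, Prod.neg_mk]
      ring
    · simp
  rw [e, e, e] at h
  rwa [← two_mul, ← two_mul] at h

/-- **axis log convexity** -/
theorem C_mid {b : ℝ} (hb : 0 ≤ b) (m n : ℕ) :
    C b (((m + n : ℕ) : ℤ), 0) ^ 2 ≤ C b (((2 * m : ℕ) : ℤ), 0) * C b (((2 * n : ℕ) : ℤ), 0) := by
  have h := C_mid' hb (m := m) (n := n) (Int.natCast_nonneg m) (Int.natCast_nonneg n)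
  push_cast
  exact h

/-- **the diagonal mirror**: `C(i, j)² ≤ C(p, p) C(q, q)` for `i + j = p + q` -/
theorem C_dg {b : ℝ} (hb : 0 ≤ b) {i j p q : ℤ} (hp : 0 ≤ p) (hq : 0 ≤ q) (h : i + j = p + q) :
    C b (i, j) ^ 2 ≤ C b (p, p) * C b (q, q) := by
  have h1 := CI_rp mir_d hb (x := (p, 0)) (y := (j, p - i)) (by simpa using hp) (by
    simp only
    omega)
  rw [CI_eq hb, CI_eq hb, CI_eq hb] at h1
  have e1 : ((j, p - i) : ℤ × ℤ).swap - (p, 0) = XY.refl1 (i, j) := by
    unfold XY.refl1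
    refine Prod.ext ?_ ?_
    · simp only [Prod.swap_prod_mk, Prod.mk_sub_mk]
      ring
    · simp
  have e2 : ((p, 0) : ℤ × ℤ).swap - (p, 0) = XY.refl1 (p, p) := by
    unfold XY.refl1
    refine Prod.ext ?_ ?_ <;> simp
  have e3 : ((j, p - i) : ℤ × ℤ).swap - (j, p - i) = XY.refl1 (q, q) := by
    unfold XY.refl1
    refine Prod.ext ?_ ?_
    · simp only [Prod.swap_prod_mk, Prod.mk_sub_mk]
      omega
    · simp only [Prod.swap_prod_mk, Prod.mk_sub_mk]
      omega
  rw [e1, e2, e3, C_refl1 hb, C_refl1 hb, C_refl1 hb] at h1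
  exact h1

/-- `C(2 n, 0) ≤ C(n, n)` -/
theorem C_two_le {b : ℝ} (hb : 0 ≤ b) (n : ℕ) :
    C b (((2 * n : ℕ) : ℤ), 0) ≤ C b ((n : ℤ), (n : ℤ)) := by
  have h := C_dg hb (i := ((2 * n : ℕ) : ℤ)) (j := 0) (p := n) (q := n) (Int.natCast_nonneg n)
    (Int.natCast_nonneg n) (by push_cast; ring)
  rw [← pow_two] at h
  exact (abs_le_of_sq_le_sq' h (C_nonneg hb _)).2

/-- every direction: `C(2 n, 0) ≤ C(x)` for `|x|_∞ ≤ n` -/
theorem C_nm_ge {b : ℝ} (hb : 0 ≤ b) {x : ℤ × ℤ} {n : ℕ} (hx : nm x ≤ n) :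
    C b (((2 * n : ℕ) : ℤ), 0) ≤ C b x := by
  refine (C_two_le hb n).trans ?_
  rw [H556.C_abs hb x]
  have mono : ∀ (i : ℤ) (k : ℕ) (j : ℤ), 0 ≤ j → C b (i, j + k) ≤ C b (i, j) := by
    intro i k j hj
    induction k with
    | zero => simp
    | succ k ih =>
      refine le_trans ?_ ih
      have h := H556.step hb i (j + k + 1) (by omega)
      rw [add_sub_cancel_right] at h
      push_cast
      rw [← add_assoc]
      exact h
  unfold nm at hx
  have h1 : x.1.natAbs ≤ n := by omega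
  have h2 : x.2.natAbs ≤ n := by omega
  have m1 := mono n (n - x.2.natAbs) x.2.natAbs (Int.natCast_nonneg _)
  have m2 := mono x.2.natAbs (n - x.1.natAbs) x.1.natAbs (Int.natCast_nonneg _)
  have e1 : ((x.2.natAbs : ℤ) + ((n - x.2.natAbs : ℕ) : ℤ)) = n := by omega
  have e2 : ((x.1.natAbs : ℤ) + ((n - x.1.natAbs : ℕ) : ℤ)) = n := by omega
  rw [e1] at m1
  rw [e2] at m2
  refine m1.trans ?_
  have s1 := C_swap hb ((x.2.natAbs : ℤ), (n : ℤ))
  have s2 := C_swap hb ((x.2.natAbs : ℤ), (x.1.natAbs : ℤ))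
  simp only [Prod.swap_prod_mk] at s1 s2
  rw [s1, s2]
  exact m2

end plane

end Vale.Agent.P159.H730
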