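import Vale.Agent.P159.H145.Lw2
import Vale.Agent.P159.H730.Lgc
import Vale.Agent.P159.T1.F.SharpFin

/-!
P159 (helper730): the two soft inputs of the static part are theorems:
`mid_all` (axis log convexity), `low_crit` (soft lower bound of the two point function at the
critical point, from the sharp exponent).
-/

open Filter Topology Finset

namespace Vale.Agent.P159.H730

open Vale.Agent.P159.H253.Rec (ga)
open Vale.Agent.P159.H145.Lw (Mid)

/-- **axis log convexity** of the two point function -/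
theorem mid_all {b : ℝ} (hb : 0 ≤ b) : Mid b := fun m n => C_mid hb m n

/-- **the soft lower bound** at the critical point -/
theorem low_crit {α : ℝ} (hα : 1 / 4 < α) :
    ∃ c0 : ℝ, 0 < c0 ∧ ∀ᶠ r : ℕ in atTop, c0 * (r : ℝ) ^ (-α) ≤ ga bCrit r := by
  have hb : 0 ≤ bCrit := (T1.H934.pos_of_ge bCrit le_rfl).1.le
  obtain ⟨-, -, h, -⟩ := T1.F.sharpFin
  obtain ⟨c, hc, H⟩ := h (α - 1 / 4) (by linarith)
  refine ⟨c, hc, ?_⟩
  filter_upwards [eventually_ge_atTop 1] with r hr
  have hr' : ((r : ℤ), (0 : ℤ)) ≠ 0 := by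
    intro h0
    have := congrArg Prod.fst h0
    simp at this
    omega
  have h1 := H ((r : ℤ), 0) hr'
  have e : (max |((r : ℤ), (0 : ℤ)).1| |((r : ℤ), (0 : ℤ)).2| : ℤ) = (r : ℤ) := by
    simp
  rw [e] at h1
  have e2 : -(1 / 4 + (α - 1 / 4)) = -α := by ring
  rw [e2, XY.corrInf_eq hb] at h1
  exact_mod_cast h1

end Vale.Agent.P159.H730
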