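import Vale.Agent.P159.H801.Fin0
import Vale.Agent.P159.H730.Lowc

/-!
P159 (helper730): the final glue of helper801 without its two soft hypotheses.
-/

open Filter Topology Finset

namespace Vale.Agent.P159.H730

open Vale.Agent.P159.H972 (Par)
open Vale.Agent.P159.H801 (Ev SFlow VFam SOut Q1 final0)

/-- **final glue**, without the two soft hypotheses -/
theorem final1 {b1 b2 qx c β : ℝ} {Q : ℕ} (hb1 : 0 < b1) (h1 : b1 ≤ bCrit)
    (h2 : bCrit ≤ b2) (hqx0 : 0 < qx) (hqx : qx ≤ 18 / 25) (hc : 0 < c) (hc1 : c ≤ 1 / 80)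
    (hV : VFam b1 b2 qx Q) (hβ : 1 / 4 < β) (hβ1 : β ≤ 1) (Am : ℕ)
    (hS : Ev b1 b2 (9 / 10) Q fun P c1 =>
      ∀ (q2 : ℝ) (a y ε xs : ℕ → ℝ) (c' r q A : ℝ) (N : ℕ),
      SFlow P bCrit (1 / 20) c c1 q2 qx a y ε xs c' r q A N → SOut P bCrit β Am a y ε) :
    Q1 := by
  obtain ⟨c0, hc0, hlow⟩ := low_crit (α := (1 / 4 + β) / 2) (by linarith)
  exact final0 hb1 h1 h2 hqx0 hqx hc hc1 hV (mid_all (hb1.trans_le h1).le) (by linarith)
    (by linarith) hβ hβ1 hc0 hlow Am hS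

end Vale.Agent.P159.H730
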