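import Vale.Agent.P159.H730.Curve

/-!
P159 (helper730): **I-MMSE**.  Prior `μ`, observation matrix `√s Q`, posterior `μ_s = post μ (√s Q)`.
For every `F` of exponential growth, `s > 0`:
`d/ds E_s [(E_J F)²] = E_s Σ_i Cov_J(F, <q_i, h>)²`.
-/

namespace Vale.Agent.P159.H730

open Finset Matrix MeasureTheory
open Vale.Agent.P159.TM.H104 (EM Ex Cv K3 Lg li nh Gr nh_nonneg abs_li)
open Vale.Agent.P159.H37

noncomputable section

set_option linter.unusedSectionVars false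

variable {V : Type*} [Fintype V] {I : Type*} [Fintype I]
variable {μ : (V → ℤ) → ℝ} {Q : Matrix I V ℝ} {c : ℝ}

/-- the variation of `M_F² / Z` in the direction of the weight `w` -/
def Th (μ : (V → ℤ) → ℝ) (Q : Matrix I V ℝ) (F w : (V → ℤ) → ℝ) (s : ℝ) (j : I → ℝ) : ℝ :=
  2 * MM μ Q F s j * MM μ Q (fun h => F h * w h) s j / MM μ Q (fun _ => 1) s j -
    MM μ Q F s j ^ 2 * MM μ Q w s j / MM μ Q (fun _ => 1) s j ^ 2

lemma Th_add (hμ : EM μ) {F w w' : (V → ℤ) → ℝ} (hF : Gr F) (hw : Gr w) (hw' : Gr w') {s : ℝ}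
    (hs : 0 ≤ s) (j : I → ℝ) :
    Th μ Q F (fun h => w h + w' h) s j = Th μ Q F w s j + Th μ Q F w' s j := by
  unfold Th
  have e : (fun h => F h * (w h + w' h)) = fun h => F h * w h + F h * w' h := by
    funext h; ring
  rw [e, MM_add hμ (hF.mul hw) (hF.mul hw') hs, MM_add hμ hw hw' hs]
  ring

lemma Th_cmul (a : ℝ) (F w : (V → ℤ) → ℝ) (s : ℝ) (j : I → ℝ) :
    Th μ Q F (fun h => a * w h) s j = a * Th μ Q F w s j := by
  unfold Th
  have e : (fun h => F h * (a * w h)) = fun h => a * (F h * w h) := by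
    funext h; ring
  rw [e, MM_cmul, MM_cmul]
  ring

lemma Th_sum (hμ : EM μ) {F : (V → ℤ) → ℝ} (hF : Gr F) {ι : Type*} (t : Finset ι)
    {w : ι → (V → ℤ) → ℝ} (hw : ∀ i, Gr (w i)) {s : ℝ} (hs : 0 ≤ s) (j : I → ℝ) :
    Th μ Q F (fun h => ∑ i ∈ t, w i h) s j = ∑ i ∈ t, Th μ Q F (w i) s j := by
  classical
  induction t using Finset.induction_on with
  | empty => simp [Th, MM]
  | insert a t ha ih =>
    simp only [Finset.sum_insert ha]
    rw [Th_add hμ hF (hw a) (Gr.sum t hw) hs, ih]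

private lemma am2 {a b z : ℝ} (hz : 0 < z) : |2 * a * b / z| ≤ a ^ 2 / z + b ^ 2 / z := by
  rw [← add_div, abs_div, abs_of_pos hz]
  refine div_le_div_of_nonneg_right ?_ hz.le
  rw [abs_le]
  constructor <;> nlinarith [sq_nonneg (a + b), sq_nonneg (a - b)]

private lemma am4 {a w z : ℝ} (hz : 0 < z) :
    |a ^ 2 * w / z ^ 2| ≤ (a ^ 4 / z ^ 3 + w ^ 2 / z) / 2 := by
  have e : (a ^ 4 / z ^ 3 + w ^ 2 / z) / 2 = ((a ^ 4 + w ^ 2 * z ^ 2) / 2) / z ^ 3 := by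
    field_simp
  have e2 : |a ^ 2 * w / z ^ 2| = (a ^ 2 * |w| * z) / z ^ 3 := by
    rw [abs_div, abs_mul, abs_of_nonneg (sq_nonneg a), abs_of_pos (pow_pos hz 2)]
    field_simp
  rw [e, e2]
  refine div_le_div_of_nonneg_right ?_ (pow_pos hz 3).le
  nlinarith [sq_nonneg (a ^ 2 - |w| * z), sq_abs w]

/-- growth bound of `Th` by one sum -/
def KT (F w : (V → ℤ) → ℝ) (h : V → ℤ) : ℝ :=
  F h ^ 2 + (F h * w h) ^ 2 + 1 / 2 * F h ^ 4 + 1 / 2 * w h ^ 2

lemma KT_nonneg (F w : (V → ℤ) → ℝ) (h : V → ℤ) : 0 ≤ KT F w h := by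
  unfold KT
  positivity

lemma Gr.four {F : (V → ℤ) → ℝ} (hF : Gr F) : Gr fun h => F h ^ 4 := by
  have e : (fun h => F h ^ 4) = fun h => F h ^ 2 * F h ^ 2 := by funext h; ring
  rw [e]
  exact (Gr.sq hF).mul (Gr.sq hF)

lemma Gr.KT {F w : (V → ℤ) → ℝ} (hF : Gr F) (hw : Gr w) : Gr (KT F w) := by
  unfold H730.KT
  exact (((Gr.sq hF).add (Gr.sq (hF.mul hw))).add ((Gr.four hF).cmul _)).add
    ((Gr.sq hw).cmul _)

lemma MM_KT (hμ : EM μ) {F w : (V → ℤ) → ℝ} (hF : Gr F) (hw : Gr w) {s : ℝ} (hs : 0 ≤ s)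
    (j : I → ℝ) : MM μ Q (KT F w) s j = MM μ Q (fun h => F h ^ 2) s j +
      MM μ Q (fun h => (F h * w h) ^ 2) s j + 1 / 2 * MM μ Q (fun h => F h ^ 4) s j +
        1 / 2 * MM μ Q (fun h => w h ^ 2) s j := by
  unfold KT
  have g1 := Gr.sq hF
  have g2 := Gr.sq (hF.mul hw)
  have g3 := (Gr.four hF).cmul (1 / 2)
  have g4 := (Gr.sq hw).cmul (1 / 2)
  rw [MM_add hμ ((g1.add g2).add g3) g4 hs, MM_add hμ (g1.add g2) g3 hs, MM_add hμ g1 g2 hs,
    MM_cmul, MM_cmul]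

lemma sq_div_le (hμ : EM μ) {F : (V → ℤ) → ℝ} (hF : Gr F) {s : ℝ} (hs : 0 ≤ s) (j : I → ℝ) :
    MM μ Q F s j ^ 2 / MM μ Q (fun _ => 1) s j ≤ MM μ Q (fun h => F h ^ 2) s j := by
  rw [div_le_iff₀ (MM_one_pos hμ hs j)]
  have := MM_sq_le (Q := Q) hμ hF hs j
  linarith

lemma Th_bound (hμ : EM μ) {F w : (V → ℤ) → ℝ} (hF : Gr F) (hw : Gr w) {s : ℝ} (hs : 0 ≤ s)
    (j : I → ℝ) : |Th μ Q F w s j| ≤ MM μ Q (KT F w) s j := by
  have hz := MM_one_pos (Q := Q) hμ hs j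
  unfold Th
  refine (abs_sub _ _).trans ?_
  have h1 := am2 (a := MM μ Q F s j) (b := MM μ Q (fun h => F h * w h) s j) hz
  have h2 := am4 (a := MM μ Q F s j) (w := MM μ Q w s j) hz
  have h3 := sq_div_le (Q := Q) hμ hF hs j
  have h4 := sq_div_le (Q := Q) hμ (hF.mul hw) hs j
  have h5 := MM_four_le (Q := Q) hμ hF hs j
  have h6 := sq_div_le (Q := Q) hμ hw hs j
  rw [MM_KT hμ hF hw hs]
  linarith

/-! ### integrability -/

lemma sqrt_smul_abs {s : ℝ} (g : I → ℝ) (i : I) : |(Real.sqrt s • g) i| ≤ Real.sqrt s * |g i| := by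
  rw [Pi.smul_apply, smul_eq_mul, abs_mul, abs_of_nonneg (Real.sqrt_nonneg s)]

lemma cont_sqrt_smul (s : ℝ) : Continuous fun g : I → ℝ => Real.sqrt s • g := by
  fun_prop

lemma abs_le_expsum (g : I → ℝ) (e : I) : |g e| ≤ Real.exp (∑ i, |g i|) := by
  have h1 : |g e| ≤ ∑ i, |g i| :=
    Finset.single_le_sum (f := fun i => |g i|) (fun _ _ => abs_nonneg _) (Finset.mem_univ e)
  linarith [Real.add_one_le_exp (∑ i, |g i|)]

/-- integrability from a bound by one channel sum -/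
lemma int_of_bound (hG : GM μ Q c) {s : ℝ} (hs : 0 ≤ s) {Ψ : (I → ℝ) → ℝ} (hc : Continuous Ψ)
    {K : (V → ℤ) → ℝ} (hK : Gr K) (hK0 : ∀ h, 0 ≤ K h)
    (hb : ∀ g, |Ψ g| ≤ MM μ Q K s (Real.sqrt s • g)) :
    Integrable Ψ (gau I) ∧ ∀ e, Integrable (fun g => g e * Ψ g) (gau I) := by
  have hμ := hG.em
  have hr : Real.sqrt s ^ 2 ≤ s + 2 * c := by
    rw [Real.sq_sqrt hs]
    linarith [hG.pos]
  refine ⟨?_, fun e => ?_⟩
  · refine (DD_int hG hK hK0 (κ := 0) hr).mono' hc.aestronglyMeasurable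
      (Filter.Eventually.of_forall fun g => ?_)
    rw [Real.norm_eq_abs]
    refine (hb g).trans ((le_abs_self _).trans ?_)
    refine MM_dom hμ hK hK hs le_rfl (sqrt_smul_abs g) fun h => ?_
    rw [zero_mul, Real.exp_zero, mul_one, abs_of_nonneg (hK0 h)]
  · refine (DD_int hG hK hK0 (κ := 1) hr).mono'
      (Continuous.aestronglyMeasurable (by fun_prop)) (Filter.Eventually.of_forall fun g => ?_)
    rw [Real.norm_eq_abs, abs_mul]
    have h1 : |g e| * |Ψ g| ≤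
        |MM μ Q (fun h => Real.exp (∑ i, |g i|) * K h) s (Real.sqrt s • g)| := by
      rw [MM_cmul, abs_of_nonneg (mul_nonneg (Real.exp_pos _).le (MM_nonneg hμ hK0 _ _))]
      exact mul_le_mul (abs_le_expsum g e) (hb g) (abs_nonneg _) (Real.exp_pos _).le
    refine h1.trans ?_
    refine MM_dom hμ (hK.cmul _) hK hs le_rfl (sqrt_smul_abs g) fun h => ?_
    rw [abs_mul, abs_of_pos (Real.exp_pos _), abs_of_nonneg (hK0 h), one_mul, mul_comm]

lemma cont_MM_g (hμ : EM μ) {F : (V → ℤ) → ℝ} (hF : Gr F) {s : ℝ} (hs : 0 ≤ s) :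
    Continuous fun g : I → ℝ => MM μ Q F s (Real.sqrt s • g) :=
  (continuous_MM hμ hF hs).comp (cont_sqrt_smul s)

lemma cont_Th_g (hμ : EM μ) {F w : (V → ℤ) → ℝ} (hF : Gr F) (hw : Gr w) {s : ℝ} (hs : 0 ≤ s) :
    Continuous fun g : I → ℝ => Th μ Q F w s (Real.sqrt s • g) := by
  unfold Th
  have hz : ∀ g : I → ℝ, MM μ Q (fun _ => 1) s (Real.sqrt s • g) ≠ 0 := fun g =>
    (MM_one_pos hμ hs _).ne'
  have c1 := cont_MM_g (Q := Q) hμ hF hs
  have c2 := cont_MM_g (Q := Q) hμ (hF.mul hw) hs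
  have c3 := cont_MM_g (Q := Q) hμ hw hs
  have c4 := cont_MM_g (Q := Q) hμ (Gr.const 1) hs
  refine (((continuous_const.mul c1).mul c2).div c4 hz).sub
    (((c1.pow 2).mul c3).div (c4.pow 2) fun g => pow_ne_zero 2 (hz g))

/-! ### the derivative under the integral -/

/-- `M_F² / Z` along the curve -/
def Ph (μ : (V → ℤ) → ℝ) (Q : Matrix I V ℝ) (F : (V → ℤ) → ℝ) (s : ℝ) (g : I → ℝ) : ℝ :=
  MM μ Q F s (Real.sqrt s • g) ^ 2 / MM μ Q (fun _ => 1) s (Real.sqrt s • g)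

lemma hasDerivAt_Ph (hμ : EM μ) {F : (V → ℤ) → ℝ} (hF : Gr F) {s : ℝ} (hs : 0 < s) (g : I → ℝ) :
    HasDerivAt (fun s => Ph μ Q F s g) (Th μ Q F (ww Q g s) s (Real.sqrt s • g)) s := by
  have h1 := MM_curve (Q := Q) hμ hF hs g
  have h2 := MM_curve (Q := Q) hμ (Gr.const 1) hs g
  have hz := (MM_one_pos (Q := Q) hμ hs.le (Real.sqrt s • g)).ne'
  have h3 := (h1.pow 2).div h2 hz
  unfold Ph
  refine h3.congr_deriv ?_
  unfold Th
  have e : (fun h => 1 * ww Q g s h) = ww Q g s := by funext h; ring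
  rw [e]
  simp only [Nat.cast_ofNat, Nat.add_one_sub_one, pow_one, Pi.pow_apply]
  field_simp

/-- bound of `ww` -/
def WW (Q : Matrix I V ℝ) (s1 : ℝ) (h : V → ℤ) : ℝ :=
  nq Q h / 2 + 1 / (2 * Real.sqrt s1) * ∑ i, |li (Q i) h|

lemma WW_nonneg (Q : Matrix I V ℝ) (s1 : ℝ) (h : V → ℤ) : 0 ≤ WW Q s1 h := by
  unfold WW
  have h1 := nq_nonneg Q h
  have h2 : 0 ≤ ∑ i, |li (Q i) h| := Finset.sum_nonneg fun _ _ => abs_nonneg _
  have h3 := Real.sqrt_nonneg s1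
  positivity

lemma Gr.WW (Q : Matrix I V ℝ) (s1 : ℝ) : Gr (WW Q s1) := by
  unfold H730.WW
  refine Gr.add ?_ ((Gr.sum _ fun i => Gr.absv (Gr.li (Q i))).cmul _)
  refine Gr.le (Gr.absv ((Gr.nq Q).cmul (1 / 2))) fun h => le_of_eq ?_
  congr 1
  ring

lemma ww_le {s1 s : ℝ} (h1 : 0 < s1) (hs : s1 ≤ s) (g : I → ℝ) (h : V → ℤ) :
    |ww Q g s h| ≤ WW Q s1 h * Real.exp (∑ i, |g i|) := by
  unfold ww WW
  have hg : 0 ≤ ∑ i, |g i| := Finset.sum_nonneg fun _ _ => abs_nonneg _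
  have he : 1 ≤ Real.exp (∑ i, |g i|) := Real.one_le_exp hg
  have hn := nq_nonneg Q h
  have hq : 0 < Real.sqrt s1 := Real.sqrt_pos.2 h1
  have hqs : Real.sqrt s1 ≤ Real.sqrt s := Real.sqrt_le_sqrt hs
  refine (abs_add_le _ _).trans ?_
  rw [add_mul]
  refine add_le_add ?_ ?_
  · rw [abs_neg, abs_of_nonneg (by linarith)]
    nlinarith
  · have hqs0 : 0 < Real.sqrt s := lt_of_lt_of_le hq hqs
    rw [abs_mul, abs_of_pos (by positivity : 0 < 1 / (2 * Real.sqrt s)), mul_assoc]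
    refine mul_le_mul ?_ ?_ (abs_nonneg _) (by positivity)
    · exact one_div_le_one_div_of_le (by positivity) (by linarith)
    · refine (Finset.abs_sum_le_sum_abs _ _).trans ?_
      rw [Finset.sum_mul]
      refine Finset.sum_le_sum fun i _ => ?_
      rw [abs_mul, mul_comm]
      exact mul_le_mul_of_nonneg_left (abs_le_expsum g i) (abs_nonneg _)

lemma Th_ww (hμ : EM μ) {F : (V → ℤ) → ℝ} (hF : Gr F) {s : ℝ} (hs : 0 ≤ s) (g j : I → ℝ) :
    Th μ Q F (ww Q g s) s j = Th μ Q F (fun h => -(1 / 2) * nq Q h) s j +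
      1 / (2 * Real.sqrt s) * ∑ i, g i * Th μ Q F (li (Q i)) s j := by
  have e1 : ww Q g s = fun h => (-(1 / 2) * nq Q h) +
      1 / (2 * Real.sqrt s) * ∑ i, g i * li (Q i) h := by
    funext h
    unfold ww
    ring
  rw [e1, Th_add hμ hF ((Gr.nq Q).cmul _)
    ((Gr.sum _ fun i => (Gr.li (Q i)).cmul (g i)).cmul _) hs]
  congr 1
  rw [Th_cmul]
  congr 1
  rw [Th_sum hμ hF Finset.univ (w := fun i h => g i * li (Q i) h)
    (fun i => (Gr.li (Q i)).cmul (g i)) hs]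
  exact Finset.sum_congr rfl fun i _ => Th_cmul _ _ _ _ _

lemma hasDerivAt_int (hG : GM μ Q c) {F : (V → ℤ) → ℝ} (hF : Gr F) {s : ℝ} (hs : 0 < s) :
    HasDerivAt (fun s => ∫ g, Ph μ Q F s g ∂(gau I))
      (∫ g, Th μ Q F (ww Q g s) s (Real.sqrt s • g) ∂(gau I)) s := by
  have hμ := hG.em
  have hc := hG.pos
  set ε := min (s / 2) (c / 2) with hε
  have hε0 : 0 < ε := lt_min (by linarith) (by linarith)
  have hε1 : ε ≤ s / 2 := min_le_left _ _
  have hε2 : ε ≤ c / 2 := min_le_right _ _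
  set s1 := s - ε with hs1
  have hs10 : 0 < s1 := by linarith
  set r := Real.sqrt (s + ε) with hr
  have hr2 : r ^ 2 ≤ s1 + 2 * c := by
    rw [hr, Real.sq_sqrt (by linarith)]
    linarith
  set K1 : (V → ℤ) → ℝ := fun h => F h ^ 2 with hK1
  set K2 : (V → ℤ) → ℝ := fun h => (F h * WW Q s1 h) ^ 2 with hK2
  set K3' : (V → ℤ) → ℝ := fun h => 1 / 2 * F h ^ 4 with hK3
  set K4' : (V → ℤ) → ℝ := fun h => 1 / 2 * WW Q s1 h ^ 2 with hK4
  set K : (V → ℤ) → ℝ := fun h => K1 h + K2 h + K3' h + K4' h with hK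
  have g1 : Gr K1 := Gr.sq hF
  have g2 : Gr K2 := Gr.sq (hF.mul (Gr.WW Q s1))
  have g3 : Gr K3' := (Gr.four hF).cmul _
  have g4 : Gr K4' := (Gr.sq (Gr.WW Q s1)).cmul _
  have gK : Gr K := ((g1.add g2).add g3).add g4
  have hK0 : ∀ h, 0 ≤ K h := fun h => by
    simp only [hK, hK1, hK2, hK3, hK4]
    positivity
  refine (hasDerivAt_integral_of_dominated_loc_of_deriv_le
    (F := fun s g => Ph μ Q F s g)
    (F' := fun s g => Th μ Q F (ww Q g s) s (Real.sqrt s • g))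
    (bound := DD μ Q K s1 r 2)
    (Metric.ball_mem_nhds s hε0) ?_ ?_ ?_ ?_ ?_ ?_).2
  · have h0 : ∀ᶠ x in nhds s, 0 < x := lt_mem_nhds hs
    refine h0.mono fun x hx => ?_
    unfold Ph
    exact (((cont_MM_g hμ hF hx.le).pow 2).div (cont_MM_g hμ (Gr.const 1) hx.le) fun g =>
      (MM_one_pos hμ hx.le _).ne').aestronglyMeasurable
  · refine (int_of_bound hG hs.le ?_ (Gr.sq hF) (fun h => sq_nonneg _) fun g => ?_).1
    · unfold Ph
      exact ((cont_MM_g hμ hF hs.le).pow 2).div (cont_MM_g hμ (Gr.const 1) hs.le) fun g =>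
        (MM_one_pos hμ hs.le _).ne'
    · unfold Ph
      rw [abs_of_nonneg (div_nonneg (sq_nonneg _) (MM_one_pos hμ hs.le _).le)]
      exact sq_div_le hμ hF hs.le _
  · -- measurability of the derivative: linear in `g`
    have e : ∀ g : I → ℝ, Th μ Q F (ww Q g s) s (Real.sqrt s • g) =
        Th μ Q F (fun h => -(1 / 2) * nq Q h) s (Real.sqrt s • g) +
          1 / (2 * Real.sqrt s) * ∑ i, g i * Th μ Q F (li (Q i)) s (Real.sqrt s • g) :=
      fun g => Th_ww hμ hF hs.le g _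
    simp only [e]
    refine Continuous.aestronglyMeasurable ?_
    refine (cont_Th_g hμ hF ((Gr.nq Q).cmul _) hs.le).add (continuous_const.mul ?_)
    exact continuous_finsetSum _ fun i _ =>
      (continuous_apply i).mul (cont_Th_g hμ hF (Gr.li (Q i)) hs.le)
  · refine Filter.Eventually.of_forall fun g x hx => ?_
    rw [Metric.mem_ball, Real.dist_eq, abs_lt] at hx
    have hx0 : s1 ≤ x := by linarith [hx.1]
    have hx00 : 0 ≤ x := by linarith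
    have hxr : Real.sqrt x ≤ r := Real.sqrt_le_sqrt (by linarith [hx.2])
    rw [Real.norm_eq_abs]
    refine (Th_bound hμ hF (Gr.ww Q g x) hx00 _).trans ((le_abs_self _).trans ?_)
    refine MM_dom hμ (Gr.KT hF (Gr.ww Q g x)) gK hs10.le hx0 (fun i => ?_) fun h => ?_
    · exact (sqrt_smul_abs g i).trans (mul_le_mul_of_nonneg_right hxr (abs_nonneg _))
    · rw [abs_of_nonneg (KT_nonneg _ _ h)]
      have hw := ww_le (Q := Q) hs10 hx0 g h
      have hW := WW_nonneg Q s1 h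
      set E := Real.exp (∑ i, |g i|) with hE
      have hE1 : 1 ≤ E := Real.one_le_exp (Finset.sum_nonneg fun _ _ => abs_nonneg _)
      have hE2 : Real.exp (2 * ∑ i, |g i|) = E ^ 2 := by
        rw [hE, ← Real.exp_nat_mul]
        norm_num
      have hE3 : 1 ≤ E ^ 2 := one_le_pow₀ hE1
      have hw2 : ww Q g x h ^ 2 ≤ WW Q s1 h ^ 2 * E ^ 2 := by
        rw [← sq_abs, ← mul_pow]
        exact pow_le_pow_left₀ (abs_nonneg _) hw 2
      rw [hE2]
      simp only [hK, hK1, hK2, hK3, hK4]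
      unfold KT
      have a1 : F h ^ 2 ≤ F h ^ 2 * E ^ 2 := le_mul_of_one_le_right (sq_nonneg _) hE3
      have a2 : (F h * ww Q g x h) ^ 2 ≤ (F h * WW Q s1 h) ^ 2 * E ^ 2 := by
        rw [mul_pow, mul_pow, mul_assoc]
        exact mul_le_mul_of_nonneg_left hw2 (sq_nonneg _)
      have a3 : 1 / 2 * F h ^ 4 ≤ 1 / 2 * F h ^ 4 * E ^ 2 :=
        le_mul_of_one_le_right (by positivity) hE3
      nlinarith
  · exact DD_int hG gK hK0 hr2
  · refine Filter.Eventually.of_forall fun g x hx => ?_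
    rw [Metric.mem_ball, Real.dist_eq, abs_lt] at hx
    exact hasDerivAt_Ph hμ hF (by linarith [hx.1]) g

/-! ### integration by parts -/

/-- second variation in the direction `x_e` -/
def Th2 (μ : (V → ℤ) → ℝ) (Q : Matrix I V ℝ) (F w : (V → ℤ) → ℝ) (s : ℝ) (j : I → ℝ) : ℝ :=
  2 * (MM μ Q (fun h => F h * w h) s j ^ 2 +
      MM μ Q F s j * MM μ Q (fun h => F h * w h * w h) s j) / MM μ Q (fun _ => 1) s j -
    4 * (MM μ Q F s j * MM μ Q (fun h => F h * w h) s j * MM μ Q w s j) /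
      MM μ Q (fun _ => 1) s j ^ 2 -
    MM μ Q F s j ^ 2 * MM μ Q (fun h => w h * w h) s j / MM μ Q (fun _ => 1) s j ^ 2 +
    2 * (MM μ Q F s j ^ 2 * MM μ Q w s j ^ 2) / MM μ Q (fun _ => 1) s j ^ 3

lemma Th_pd [DecidableEq I] (hμ : EM μ) {F : (V → ℤ) → ℝ} (hF : Gr F) {s : ℝ} (hs : 0 ≤ s)
    (r : ℝ) (g : I → ℝ) (e : I) (x : ℝ) :
    HasDerivAt (fun y => Th μ Q F (li (Q e)) s (r • Function.update g e y))
      (r * Th2 μ Q F (li (Q e)) s (r • Function.update g e x)) x := by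
  have h1 := MM_pd (Q := Q) hμ hF hs r g e x
  have h2 := MM_pd (Q := Q) hμ (hF.mul (Gr.li (Q e))) hs r g e x
  have h3 := MM_pd (Q := Q) hμ (Gr.li (Q e)) hs r g e x
  have h4 := MM_pd (Q := Q) hμ (Gr.const 1) hs r g e x
  have hz := (MM_one_pos (Q := Q) hμ hs (r • Function.update g e x)).ne'
  have h5 := (((h1.const_mul 2).mul h2).div h4 hz).sub
    (((h1.pow 2).mul h3).div (h4.pow 2) (pow_ne_zero 2 hz))
  unfold Th
  refine h5.congr_deriv ?_
  unfold Th2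
  have e1 : (fun h : V → ℤ => 1 * li (Q e) h) = li (Q e) := by funext h; ring
  rw [e1]
  simp only [Nat.cast_ofNat, Nat.add_one_sub_one, pow_one, Pi.pow_apply, Pi.mul_apply]
  field_simp
  ring

/-- bound of the second variation by one sum -/
def KT2 (F w : (V → ℤ) → ℝ) (h : V → ℤ) : ℝ :=
  F h ^ 2 + 4 * (F h * w h) ^ 2 + (F h * w h * w h) ^ 2 + 1 / 2 * (w h * w h) ^ 2 +
    5 / 2 * F h ^ 4 + 2 * w h ^ 4

lemma KT2_nonneg (F w : (V → ℤ) → ℝ) (h : V → ℤ) : 0 ≤ KT2 F w h := by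
  unfold KT2
  positivity

lemma Gr.KT2 {F w : (V → ℤ) → ℝ} (hF : Gr F) (hw : Gr w) : Gr (KT2 F w) := by
  unfold H730.KT2
  exact (((((Gr.sq hF).add ((Gr.sq (hF.mul hw)).cmul _)).add
    (Gr.sq ((hF.mul hw).mul hw))).add ((Gr.sq (hw.mul hw)).cmul _)).add
    ((Gr.four hF).cmul _)).add ((Gr.four hw).cmul _)

lemma MM_KT2 (hμ : EM μ) {F w : (V → ℤ) → ℝ} (hF : Gr F) (hw : Gr w) {s : ℝ} (hs : 0 ≤ s)
    (j : I → ℝ) : MM μ Q (KT2 F w) s j = MM μ Q (fun h => F h ^ 2) s j +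
      4 * MM μ Q (fun h => (F h * w h) ^ 2) s j + MM μ Q (fun h => (F h * w h * w h) ^ 2) s j +
      1 / 2 * MM μ Q (fun h => (w h * w h) ^ 2) s j + 5 / 2 * MM μ Q (fun h => F h ^ 4) s j +
      2 * MM μ Q (fun h => w h ^ 4) s j := by
  unfold KT2
  have g1 := Gr.sq hF
  have g2 := (Gr.sq (hF.mul hw)).cmul 4
  have g3 := Gr.sq ((hF.mul hw).mul hw)
  have g4 := (Gr.sq (hw.mul hw)).cmul (1 / 2)
  have g5 := (Gr.four hF).cmul (5 / 2)
  have g6 := (Gr.four hw).cmul 2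
  rw [MM_add hμ ((((g1.add g2).add g3).add g4).add g5) g6 hs,
    MM_add hμ (((g1.add g2).add g3).add g4) g5 hs, MM_add hμ ((g1.add g2).add g3) g4 hs,
    MM_add hμ (g1.add g2) g3 hs, MM_add hμ g1 g2 hs, MM_cmul, MM_cmul, MM_cmul, MM_cmul]

private lemma am5 {a x y xx yy z : ℝ} (hz : 0 < z) :
    |2 * (x ^ 2 + a * xx) / z - 4 * (a * x * y) / z ^ 2 - a ^ 2 * yy / z ^ 2 +
      2 * (a ^ 2 * y ^ 2) / z ^ 3| ≤ a ^ 2 / z + 4 * (x ^ 2 / z) + xx ^ 2 / z +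
        1 / 2 * (yy ^ 2 / z) + 5 / 2 * (a ^ 4 / z ^ 3) + 2 * (y ^ 4 / z ^ 3) := by
  have e1 : 2 * (x ^ 2 + a * xx) / z - 4 * (a * x * y) / z ^ 2 - a ^ 2 * yy / z ^ 2 +
      2 * (a ^ 2 * y ^ 2) / z ^ 3 = (2 * (x ^ 2 + a * xx) * z ^ 2 - 4 * (a * x * y) * z -
        a ^ 2 * yy * z + 2 * (a ^ 2 * y ^ 2)) / z ^ 3 := by
    field_simp
  have e2 : a ^ 2 / z + 4 * (x ^ 2 / z) + xx ^ 2 / z +
        1 / 2 * (yy ^ 2 / z) + 5 / 2 * (a ^ 4 / z ^ 3) + 2 * (y ^ 4 / z ^ 3) =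
      (a ^ 2 * z ^ 2 + 4 * x ^ 2 * z ^ 2 + xx ^ 2 * z ^ 2 + 1 / 2 * yy ^ 2 * z ^ 2 +
        5 / 2 * a ^ 4 + 2 * y ^ 4) / z ^ 3 := by
    field_simp
  rw [e1, e2, abs_div, abs_of_pos (pow_pos hz 3)]
  refine div_le_div_of_nonneg_right ?_ (pow_pos hz 3).le
  rw [abs_le]
  constructor
  · nlinarith [sq_nonneg (a * z + xx * z), sq_nonneg (x * z - a * y), sq_nonneg (x * z + a * y),
      sq_nonneg (a ^ 2 - yy * z), sq_nonneg (a ^ 2 + yy * z), sq_nonneg (a ^ 2 - y ^ 2),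
      sq_nonneg (x * z), sq_nonneg (y ^ 2), sq_nonneg (a ^ 2)]
  · nlinarith [sq_nonneg (a * z - xx * z), sq_nonneg (x * z - a * y), sq_nonneg (x * z + a * y),
      sq_nonneg (a ^ 2 - yy * z), sq_nonneg (a ^ 2 + yy * z), sq_nonneg (a ^ 2 - y ^ 2),
      sq_nonneg (x * z), sq_nonneg (y ^ 2), sq_nonneg (a ^ 2)]

lemma Th2_bound (hμ : EM μ) {F w : (V → ℤ) → ℝ} (hF : Gr F) (hw : Gr w) {s : ℝ} (hs : 0 ≤ s)
    (j : I → ℝ) : |Th2 μ Q F w s j| ≤ MM μ Q (KT2 F w) s j := by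
  have hz := MM_one_pos (Q := Q) hμ hs j
  unfold Th2
  refine (am5 hz).trans ?_
  have h3 := sq_div_le (Q := Q) hμ hF hs j
  have h4 := sq_div_le (Q := Q) hμ (hF.mul hw) hs j
  have h5 := sq_div_le (Q := Q) hμ ((hF.mul hw).mul hw) hs j
  have h6 := sq_div_le (Q := Q) hμ (hw.mul hw) hs j
  have h7 := MM_four_le (Q := Q) hμ hF hs j
  have h8 := MM_four_le (Q := Q) hμ hw hs j
  rw [MM_KT2 hμ hF hw hs]
  linarith

lemma cont_Th2_g (hμ : EM μ) {F w : (V → ℤ) → ℝ} (hF : Gr F) (hw : Gr w) {s : ℝ} (hs : 0 ≤ s) :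
    Continuous fun g : I → ℝ => Th2 μ Q F w s (Real.sqrt s • g) := by
  unfold Th2
  have hz : ∀ g : I → ℝ, MM μ Q (fun _ => 1) s (Real.sqrt s • g) ≠ 0 := fun g =>
    (MM_one_pos hμ hs _).ne'
  have c1 := cont_MM_g (Q := Q) hμ hF hs
  have c2 := cont_MM_g (Q := Q) hμ (hF.mul hw) hs
  have c3 := cont_MM_g (Q := Q) hμ hw hs
  have c4 := cont_MM_g (Q := Q) hμ (Gr.const 1) hs
  have c5 := cont_MM_g (Q := Q) hμ ((hF.mul hw).mul hw) hs
  have c6 := cont_MM_g (Q := Q) hμ (hw.mul hw) hs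
  refine ((((continuous_const.mul ((c2.pow 2).add (c1.mul c5))).div c4 hz).sub
    ((continuous_const.mul ((c1.mul c2).mul c3)).div (c4.pow 2)
      fun g => pow_ne_zero 2 (hz g))).sub
    (((c1.pow 2).mul c6).div (c4.pow 2) fun g => pow_ne_zero 2 (hz g))).add
    ((continuous_const.mul ((c1.pow 2).mul (c3.pow 2))).div (c4.pow 3)
      fun g => pow_ne_zero 3 (hz g))

/-- the integrated second variation -/
lemma int_ibp (hG : GM μ Q c) {F : (V → ℤ) → ℝ} (hF : Gr F) {s : ℝ} (hs : 0 ≤ s) (e : I) :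
    ∫ g, g e * Th μ Q F (li (Q e)) s (Real.sqrt s • g) ∂(gau I) =
      Real.sqrt s * ∫ g, Th2 μ Q F (li (Q e)) s (Real.sqrt s • g) ∂(gau I) := by
  classical
  have hμ := hG.em
  have hw := Gr.li (Q e)
  obtain ⟨i1, i2⟩ := int_of_bound hG hs (cont_Th_g hμ hF hw hs) (Gr.KT hF hw)
    (KT_nonneg _ _) fun g => Th_bound hμ hF hw hs _
  obtain ⟨i3, _⟩ := int_of_bound hG hs (cont_Th2_g hμ hF hw hs) (Gr.KT2 hF hw)
    (KT2_nonneg _ _) fun g => Th2_bound hμ hF hw hs _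
  rw [← integral_const_mul]
  exact gau_ibp e (fun g => Th μ Q F (li (Q e)) s (Real.sqrt s • g))
    (fun g => Real.sqrt s * Th2 μ Q F (li (Q e)) s (Real.sqrt s • g))
    (fun J x => Th_pd hμ hF hs _ J e x) i1 (i2 e) (i3.const_mul _)

/-- covariance with `w`, in terms of the sums -/
lemma cov_MM (hμ : EM μ) {F w : (V → ℤ) → ℝ} {s : ℝ} (hs : 0 ≤ s) (j : I → ℝ) :
    MM μ Q (fun _ => 1) s j * Cv (post μ (Real.sqrt s • Q)) (Qᵀ *ᵥ j) F w ^ 2 =
      MM μ Q (fun h => F h * w h) s j ^ 2 / MM μ Q (fun _ => 1) s j -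
        2 * (MM μ Q F s j * MM μ Q (fun h => F h * w h) s j * MM μ Q w s j) /
          MM μ Q (fun _ => 1) s j ^ 2 +
        MM μ Q F s j ^ 2 * MM μ Q w s j ^ 2 / MM μ Q (fun _ => 1) s j ^ 3 := by
  have hz := (MM_one_pos (Q := Q) hμ hs j).ne'
  unfold Cv Ex
  rw [MM_eq hs, MM_eq hs, MM_eq hs, MM_eq hs]
  field_simp
  ring

/-- **the derivative, integrated by parts** -/
theorem int_Th_ww (hG : GM μ Q c) {F : (V → ℤ) → ℝ} (hF : Gr F) {s : ℝ} (hs : 0 < s) :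
    ∫ g, Th μ Q F (ww Q g s) s (Real.sqrt s • g) ∂(gau I) =
      ∫ g, (∑ i, Cv (post μ (Real.sqrt s • Q)) ((Real.sqrt s • Q)ᵀ *ᵥ g) F (li (Q i)) ^ 2) *
        Zs (post μ (Real.sqrt s • Q)) ((Real.sqrt s • Q)ᵀ *ᵥ g) ∂(gau I) := by
  have hμ := hG.em
  have hsq : 0 < Real.sqrt s := Real.sqrt_pos.2 hs
  -- decomposition
  have e : ∀ g : I → ℝ, Th μ Q F (ww Q g s) s (Real.sqrt s • g) =
      Th μ Q F (fun h => -(1 / 2) * nq Q h) s (Real.sqrt s • g) +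
        1 / (2 * Real.sqrt s) * ∑ i, g i * Th μ Q F (li (Q i)) s (Real.sqrt s • g) :=
    fun g => Th_ww hμ hF hs.le g _
  have j0 := (int_of_bound hG hs.le (cont_Th_g (Q := Q) hμ hF ((Gr.nq Q).cmul (-(1 / 2))) hs.le)
    (Gr.KT hF ((Gr.nq Q).cmul (-(1 / 2)))) (KT_nonneg _ _)
    fun g => Th_bound hμ hF ((Gr.nq Q).cmul (-(1 / 2))) hs.le _).1
  have j1 : ∀ i, Integrable (fun g : I → ℝ => g i * Th μ Q F (li (Q i)) s (Real.sqrt s • g))
      (gau I) := fun i =>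
    (int_of_bound hG hs.le (cont_Th_g hμ hF (Gr.li (Q i)) hs.le) (Gr.KT hF (Gr.li (Q i)))
      (KT_nonneg _ _) fun g => Th_bound hμ hF (Gr.li (Q i)) hs.le _).2 i
  have j2 : ∀ i, Integrable (fun g : I → ℝ => Th2 μ Q F (li (Q i)) s (Real.sqrt s • g))
      (gau I) := fun i =>
    (int_of_bound hG hs.le (cont_Th2_g hμ hF (Gr.li (Q i)) hs.le) (Gr.KT2 hF (Gr.li (Q i)))
      (KT2_nonneg _ _) fun g => Th2_bound hμ hF (Gr.li (Q i)) hs.le _).1
  simp only [e]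
  rw [integral_add j0 ((integrable_finsetSum _ fun i _ => j1 i).const_mul _),
    integral_const_mul, integral_finsetSum _ fun i _ => j1 i]
  simp only [int_ibp hG hF hs.le]
  rw [← Finset.mul_sum, ← integral_finsetSum _ fun i _ => j2 i, ← mul_assoc]
  have e2 : 1 / (2 * Real.sqrt s) * Real.sqrt s = 1 / 2 := by
    field_simp
  rw [e2, ← integral_const_mul, ← integral_add j0
    ((integrable_finsetSum _ fun i _ => j2 i).const_mul _)]
  congr 1
  funext g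
  have hzs : Zs (post μ (Real.sqrt s • Q)) ((Real.sqrt s • Q)ᵀ *ᵥ g) =
      MM μ Q (fun _ => 1) s (Real.sqrt s • g) := by
    unfold Zs
    exact MM_eq' hs.le μ Q _ g
  rw [hzs, sqrt_obs, Finset.sum_mul]
  have e3 : Th μ Q F (fun h => -(1 / 2) * nq Q h) s (Real.sqrt s • g) =
      ∑ i, -(1 / 2) * Th μ Q F (fun h => li (Q i) h * li (Q i) h) s (Real.sqrt s • g) := by
    rw [Th_cmul, ← Finset.mul_sum]
    congr 1
    have : nq Q = fun h => ∑ i, li (Q i) h * li (Q i) h := by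
      funext h
      unfold nq
      exact Finset.sum_congr rfl fun i _ => by ring
    rw [this, Th_sum hμ hF _ (fun i => (Gr.li (Q i)).mul (Gr.li (Q i))) hs.le]
  rw [e3, Finset.mul_sum, ← Finset.sum_add_distrib]
  refine Finset.sum_congr rfl fun i _ => ?_
  have h5 := cov_MM (Q := Q) hμ (F := F) (w := li (Q i)) hs.le (Real.sqrt s • g)
  rw [mul_comm _ (MM μ Q (fun _ => 1) s (Real.sqrt s • g)), h5]
  unfold Th Th2
  have e4 : (fun h => F h * (li (Q i) h * li (Q i) h)) =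
      fun h => F h * li (Q i) h * li (Q i) h := by
    funext h; ring
  rw [e4]
  ring

lemma Ph_eq {F : (V → ℤ) → ℝ} (hμ : EM μ) {s : ℝ} (hs : 0 ≤ s) (g : I → ℝ) :
    Ph μ Q F s g = Ex (post μ (Real.sqrt s • Q)) (0 + (Real.sqrt s • Q)ᵀ *ᵥ g) F ^ 2 *
      Zs (post μ (Real.sqrt s • Q)) (0 + (Real.sqrt s • Q)ᵀ *ᵥ g) := by
  have hz := (MM_one_pos (Q := Q) hμ hs (Real.sqrt s • g)).ne'
  unfold Ph Ex Zs
  rw [zero_add, MM_eq' hs, MM_eq' hs]
  field_simp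

lemma Ech_Ex_sq {F : (V → ℤ) → ℝ} (hμ : EM μ) {s : ℝ} (hs : 0 ≤ s) :
    Ech μ 0 (Real.sqrt s • Q) (fun J => Ex (post μ (Real.sqrt s • Q)) J F ^ 2) =
      (∫ g, Ph μ Q F s g ∂(gau I)) / Zs μ 0 := by
  unfold Ech
  rw [ch_norm hμ]
  congr 2
  funext g
  rw [Ph_eq hμ hs]

/-- **I-MMSE**: `d/ds E_s (E_J F)² = E_s Σ_i Cov_J(F, <q_i,h>)²` -/
theorem immse (hG : GM μ Q c) {F : (V → ℤ) → ℝ} (hF : Gr F) {s : ℝ} (hs : 0 < s) :
    HasDerivAt (fun s => Ech μ 0 (Real.sqrt s • Q)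
        fun J => Ex (post μ (Real.sqrt s • Q)) J F ^ 2)
      (Ech μ 0 (Real.sqrt s • Q)
        fun J => ∑ i, Cv (post μ (Real.sqrt s • Q)) J F (li (Q i)) ^ 2) s := by
  have hμ := hG.em
  have h1 := (hasDerivAt_int hG hF hs).div_const (Zs μ 0)
  have h2 : (fun s => Ech μ 0 (Real.sqrt s • Q)
        fun J => Ex (post μ (Real.sqrt s • Q)) J F ^ 2) =ᶠ[nhds s]
      fun s => (∫ g, Ph μ Q F s g ∂(gau I)) / Zs μ 0 := by
    have h0 : ∀ᶠ x in nhds s, 0 < x := lt_mem_nhds hs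
    exact h0.mono fun x hx => Ech_Ex_sq hμ hx.le
  refine (h1.congr_of_eventuallyEq h2).congr_deriv ?_
  rw [int_Th_ww hG hF hs]
  unfold Ech
  rw [ch_norm hμ]
  simp only [zero_add]

/-- continuity down to `s = 0` -/
theorem immse_cont (hG : GM μ Q c) {F : (V → ℤ) → ℝ} (hF : Gr F) :
    ContinuousOn (fun s => Ech μ 0 (Real.sqrt s • Q)
        fun J => Ex (post μ (Real.sqrt s • Q)) J F ^ 2) (Set.Ici 0) := by
  have hμ := hG.em
  have hc := hG.pos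
  have h1 : ContinuousOn (fun s => (∫ g, Ph μ Q F s g ∂(gau I)) / Zs μ 0) (Set.Ici 0) := by
    refine ContinuousOn.div_const ?_ _
    intro s hs
    have hs0 : (0 : ℝ) ≤ s := hs
    set ε := c / 2 with hε
    have hε0 : 0 < ε := by linarith
    set s1 := max (s - ε) 0 with hs1
    set r := Real.sqrt (s + ε) with hr
    have hr2 : r ^ 2 ≤ s1 + 2 * c := by
      rw [hr, Real.sq_sqrt (by linarith)]
      have := le_max_left (s - ε) 0
      linarith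
    have hnear : ∀ᶠ x in nhdsWithin s (Set.Ici 0), 0 ≤ x ∧ |x - s| < ε := by
      have h2 : ∀ᶠ x in nhdsWithin s (Set.Ici 0), x ∈ Set.Ici (0 : ℝ) := self_mem_nhdsWithin
      have h3 : ∀ᶠ x in nhdsWithin s (Set.Ici 0), |x - s| < ε := by
        have h4 : Metric.ball s ε ∈ nhds s := Metric.ball_mem_nhds s hε0
        have h5 : ∀ᶠ x in nhds s, |x - s| < ε := by
          filter_upwards [h4] with x hx
          rw [Metric.mem_ball, Real.dist_eq] at hx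
          exact hx
        exact h5.filter_mono nhdsWithin_le_nhds
      filter_upwards [h2, h3] with x hx hx'
      exact ⟨hx, hx'⟩
    refine continuousWithinAt_of_dominated (bound := DD μ Q (fun h => F h ^ 2) s1 r 0) ?_ ?_ ?_ ?_
    · filter_upwards [hnear] with x hx
      unfold Ph
      exact (((cont_MM_g hμ hF hx.1).pow 2).div (cont_MM_g hμ (Gr.const 1) hx.1) fun g =>
        (MM_one_pos hμ hx.1 _).ne').aestronglyMeasurable
    · filter_upwards [hnear] with x hx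
      refine Filter.Eventually.of_forall fun g => ?_
      have hz := MM_one_pos (Q := Q) hμ hx.1 (Real.sqrt x • g)
      unfold Ph
      rw [Real.norm_eq_abs, abs_of_nonneg (div_nonneg (sq_nonneg _) hz.le)]
      refine (sq_div_le hμ hF hx.1 _).trans ((le_abs_self _).trans ?_)
      have hx2 := abs_lt.1 hx.2
      refine MM_dom hμ (Gr.sq hF) (Gr.sq hF) (le_max_right _ _)
        (max_le (by linarith) hx.1) (fun i => ?_) fun h => ?_
      · refine (sqrt_smul_abs g i).trans (mul_le_mul_of_nonneg_right ?_ (abs_nonneg _))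
        exact Real.sqrt_le_sqrt (by linarith)
      · rw [zero_mul, Real.exp_zero, mul_one, abs_of_nonneg (sq_nonneg _)]
    · exact DD_int hG (Gr.sq hF) (fun h => sq_nonneg _) hr2
    · refine Filter.Eventually.of_forall fun g => ?_
      unfold Ph
      have c1 := MM_cont_curve (Q := Q) hμ hF g s hs
      have c2 := MM_cont_curve (Q := Q) hμ (Gr.const 1) g s hs
      exact (c1.pow 2).div c2 (MM_one_pos hμ hs0 _).ne'
  exact h1.congr fun s hs => Ech_Ex_sq hμ hs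

end

end Vale.Agent.P159.H730
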