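import Vale.Agent.P159.H730.StarM

/-!
P159 (helper730): **SATURATION** (mode by mode) and the contribution of the bad set.
-/

namespace Vale.Agent.P159.H730

open Finset Matrix MeasureTheory
open Vale.Agent.P159.TM.H104 (EM Ex Cv K3 Lg li nh Gr nh_nonneg abs_li)
open Vale.Agent.P159.H37

noncomputable section

set_option linter.unusedSectionVars false

variable {V : Type*} [Fintype V] {I : Type*} [Fintype I]
variable {μ : (V → ℤ) → ℝ} {Q : Matrix I V ℝ} {c : ℝ}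

/-! ### real algebra -/

lemma frac_mono {n g x y : ℝ} (hn : 0 ≤ n) (hg : 0 < g) (hx : 0 ≤ x) (hxy : x ≤ y) :
    n / g - n / (g + x) ≤ n / g - n / (g + y) := by
  have h1 : n / (g + y) ≤ n / (g + x) :=
    div_le_div_of_nonneg_left hn (by linarith) (by linarith)
  linarith

lemma frac_add {n g x ε r : ℝ} (hn : 0 ≤ n) (hg : 0 < g) (hx : 0 ≤ x) (hε : 0 ≤ ε) (hr : 0 ≤ r) :
    n / g - n / (g + ((1 + ε) * x + r)) ≤ (1 + ε) * (n / g - n / (g + x)) + n * r / g ^ 2 := by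
  set y := (1 + ε) * x + r with hy
  have hy0 : 0 ≤ y := by positivity
  have e1 : n / g - n / (g + y) = n * y / (g * (g + y)) := by
    field_simp
    ring
  have e2 : n / g - n / (g + x) = n * x / (g * (g + x)) := by
    field_simp
    ring
  rw [e1, e2]
  have h1 : n * y / (g * (g + y)) = (1 + ε) * (n * x / (g * (g + y))) + n * r / (g * (g + y)) := by
    rw [hy]
    field_simp
  rw [h1]
  refine add_le_add (mul_le_mul_of_nonneg_left ?_ (by linarith)) ?_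
  · refine div_le_div_of_nonneg_left (mul_nonneg hn hx) (by positivity) ?_
    refine mul_le_mul_of_nonneg_left ?_ hg.le
    have : x ≤ y := by rw [hy]; nlinarith
    linarith
  · refine div_le_div_of_nonneg_left (mul_nonneg hn hr) (by positivity) ?_
    nlinarith

/-- saturation, real algebra -/
theorem sat_real {θ ε n g x1 x2 D1 D e r : ℝ} (hθ : 0 ≤ θ) (hθ2 : θ ≤ 1 / 2) (hε : 0 ≤ ε)
    (hn : 0 ≤ n) (hg : 0 < g) (hx1 : 0 ≤ x1) (hx2 : 0 ≤ x2) (he : 0 ≤ e) (hr : 0 ≤ r)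
    (hx : x2 ≤ (1 + ε) * x1 + r) (h2 : (1 - θ) * D - e ≤ n / g - n / (g + x2))
    (h1 : n / g - n / (g + x1) ≤ D1) :
    D - D1 ≤ 2 * (θ + ε) * D1 + 2 * (e + n * r / g ^ 2) := by
  have a1 := frac_mono (n := n) hn hg hx2 hx
  have a2 := frac_add (n := n) hn hg hx1 hε hr
  have a3 : (1 + ε) * (n / g - n / (g + x1)) ≤ (1 + ε) * D1 :=
    mul_le_mul_of_nonneg_left h1 (by linarith)
  have a4 : (1 - θ) * D ≤ (1 + ε) * D1 + (e + n * r / g ^ 2) := by linarith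
  have hD1 : 0 ≤ D1 := by
    refine le_trans ?_ h1
    rw [sub_nonneg]
    exact div_le_div_of_nonneg_left hn hg (by linarith)
  have hE : 0 ≤ e + n * r / g ^ 2 := by positivity
  have a5 : D ≤ ((1 + ε) * D1 + (e + n * r / g ^ 2)) / (1 - θ) := by
    rw [le_div_iff₀ (by linarith)]
    linarith
  have a6 : ((1 + ε) * D1 + (e + n * r / g ^ 2)) / (1 - θ) ≤
      (1 + 2 * (θ + ε)) * D1 + 2 * (e + n * r / g ^ 2) := by
    rw [div_le_iff₀ (by linarith)]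
    have b1 : (1 + ε) ≤ (1 + 2 * (θ + ε)) * (1 - θ) := by nlinarith
    have b2 : (1 : ℝ) ≤ 2 * (1 - θ) := by linarith
    have b3 := mul_le_mul_of_nonneg_right b1 hD1
    have b4 := mul_le_mul_of_nonneg_right b2 hE
    nlinarith
  linarith

/-! ### composition of channels -/

/-- observing twice -/
lemma ps_add {a b : ℝ} (ha : 0 ≤ a) (hb : 0 ≤ b) (μ : (V → ℤ) → ℝ) (Q : Matrix I V ℝ) :
    ps (ps μ Q a) Q b = ps μ Q (a + b) := by
  funext h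
  unfold ps
  rw [post_sqrt hb, post_sqrt ha, post_sqrt (add_nonneg ha hb), mul_assoc, ← Real.exp_add]
  congr 2
  ring

variable {μ' μ'' : (V → ℤ) → ℝ} {u : I → ℝ} {p' p'' θ e' e'' : ℝ} {Gd' Gd'' : ℝ → Set (V → ℝ)}

/-- **SATURATION.**  Two priors `μ'`, `μ''` with the same posterior; `N = cb - g` the mean excess
covariance of the mode.  `Δ₁ = Π(p') - Π(0)` for `μ'`, `Δ₁ + Δ₂ = Π(p'') - Π(0)` for `μ''`.
If `N'' ≤ (1+ε) N' + r` then `Δ₂ ≤ 2 (θ + ε) Δ₁ + 2 n (p'' e'' + r) / g²`. -/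
theorem saturation (h' : SH μ' Q u p' θ e' Gd') (h'' : SH μ'' Q u p'' θ e'' Gd'')
    (hpost : ps μ' Q p' = ps μ'' Q p'') (hθ2 : θ ≤ 1 / 2) {ε r : ℝ} (hε : 0 ≤ ε) (hr : 0 ≤ r)
    (hN : cz μ'' Q (Qᵀ *ᵥ u) p'' - gz μ'' Q (Qᵀ *ᵥ u) p'' ≤
      (1 + ε) * (cz μ' Q (Qᵀ *ᵥ u) p' - gz μ' Q (Qᵀ *ᵥ u) p') + r) :
    (PiZ μ'' Q u p'' - PiZ μ'' Q u 0) - (PiZ μ' Q u p' - PiZ μ' Q u 0) ≤
      2 * (θ + ε) * (PiZ μ' Q u p' - PiZ μ' Q u 0) +
        2 * ((∑ i, u i ^ 2) * (p'' * e'' + r) / gz μ' Q (Qᵀ *ᵥ u) p' ^ 2) := by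
  have hg : gz μ'' Q (Qᵀ *ᵥ u) p'' = gz μ' Q (Qᵀ *ᵥ u) p' := by
    unfold gz
    rw [hpost]
  have s1 := h'.star
  have s2 := h''.star
  rw [hg] at s2 hN
  have i' : p' ∈ Set.Icc 0 p' := ⟨h'.p0, le_rfl⟩
  have i'' : p'' ∈ Set.Icc 0 p'' := ⟨h''.p0, le_rfl⟩
  have hgp := h'.mode.pos p' i'
  have hx1 : 0 ≤ cz μ' Q (Qᵀ *ᵥ u) p' - gz μ' Q (Qᵀ *ᵥ u) p' := sub_nonneg.2 (h'.gz_le i')
  have hx2 : 0 ≤ cz μ'' Q (Qᵀ *ᵥ u) p'' - gz μ' Q (Qᵀ *ᵥ u) p' := by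
    rw [← hg]
    exact sub_nonneg.2 (h''.gz_le i'')
  have hn := h'.mode.nn
  set n := ∑ i, u i ^ 2
  set g := gz μ' Q (Qᵀ *ᵥ u) p'
  set x1 := cz μ' Q (Qᵀ *ᵥ u) p' - g with hx1d
  set x2 := cz μ'' Q (Qᵀ *ᵥ u) p'' - g with hx2d
  have e1 : cz μ' Q (Qᵀ *ᵥ u) p' = g + x1 := by rw [hx1d]; ring
  have e2 : cz μ'' Q (Qᵀ *ᵥ u) p'' = g + x2 := by rw [hx2d]; ring
  rw [e1] at s1
  rw [e2] at s2
  have hE : 0 ≤ p'' * (n * e'' / g ^ 2) :=
    mul_nonneg h''.p0 (div_nonneg (mul_nonneg hn.le h''.e0) (sq_nonneg _))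
  have h := sat_real (n := n) (g := g) h'.th0 hθ2 hε hn.le hgp hx1 hx2 hE hr hN s2.1 s1.2
  refine h.trans (le_of_eq ?_)
  ring

/-! ### the bad set -/

/-- bad set contribution from a uniform bound -/
lemma err_unif (hμ : EM μ) {s B q : ℝ} {a : V → ℝ} {Gd : Set (V → ℝ)} (hm : MeasurableSet Gd)
    (hB : ∀ J ∈ Gdᶜ, dev μ Q a s J ≤ B) (hB0 : 0 ≤ B)
    (hq : Es μ Q s (Gdᶜ.indicator fun _ => (1 : ℝ)) ≤ q) :
    Es μ Q s (Gdᶜ.indicator (dev μ Q a s)) ≤ B * q := by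
  have h1 : H663.ChI μ 0 (Real.sqrt s • Q) (Gdᶜ.indicator fun _ => (1 : ℝ)) := by
    refine H663.ChI.mono hμ (measurable_const.indicator hm.compl)
      (chi_const hμ 0 _ 1) fun J => ?_
    by_cases hJ : J ∈ Gdᶜ
    · rw [Set.indicator_of_mem hJ, abs_one]
    · rw [Set.indicator_of_notMem hJ, abs_zero]
      exact zero_le_one
  have h2 : H663.ChI μ 0 (Real.sqrt s • Q) (Gdᶜ.indicator (dev μ Q a s)) := by
    refine H663.ChI.mono hμ ((measurable_dev hμ a s).indicator hm.compl) (chi_dev hμ a s)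
      fun J => ?_
    by_cases hJ : J ∈ Gdᶜ
    · rw [Set.indicator_of_mem hJ, abs_of_nonneg (dev_nonneg _ _ _ _ _)]
    · rw [Set.indicator_of_notMem hJ, abs_zero]
      exact dev_nonneg _ _ _ _ _
  have h3 : Es μ Q s (Gdᶜ.indicator (dev μ Q a s)) ≤
      Es μ Q s fun J => B * Gdᶜ.indicator (fun _ => (1 : ℝ)) J := by
    refine H663.Ech_mono' hμ h2 (h1.cmul B) fun J => ?_
    by_cases hJ : J ∈ Gdᶜ
    · rw [Set.indicator_of_mem hJ, Set.indicator_of_mem hJ, mul_one]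
      exact hB J hJ
    · rw [Set.indicator_of_notMem hJ, Set.indicator_of_notMem hJ, mul_zero]
  refine h3.trans ?_
  unfold Es
  rw [Ech_cmul]
  exact mul_le_mul_of_nonneg_left hq hB0

/-- Cauchy-Schwarz in the channel (real-parameter form) -/
lemma Es_cs (hμ : EM μ) {s : ℝ} {Φ Ψ : (V → ℝ) → ℝ}
    (h1 : H663.ChI μ 0 (Real.sqrt s • Q) fun J => Φ J ^ 2)
    (h2 : H663.ChI μ 0 (Real.sqrt s • Q) fun J => Ψ J ^ 2)
    (h3 : H663.ChI μ 0 (Real.sqrt s • Q) fun J => Φ J * Ψ J) :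
    (Es μ Q s fun J => Φ J * Ψ J) ^ 2 ≤
      (Es μ Q s fun J => Φ J ^ 2) * Es μ Q s fun J => Ψ J ^ 2 := by
  have key : ∀ x : ℝ, 0 ≤ (Es μ Q s fun J => Φ J ^ 2) * (x * x) +
      (-(2 * Es μ Q s fun J => Φ J * Ψ J)) * x + Es μ Q s fun J => Ψ J ^ 2 := by
    intro x
    have h4 : 0 ≤ Es μ Q s fun J => (x * Φ J - Ψ J) ^ 2 :=
      Ech_nonneg hμ _ _ fun J => sq_nonneg _
    have e : (fun J => (x * Φ J - Ψ J) ^ 2) = fun J =>
        (x * x * Φ J ^ 2 - 2 * x * (Φ J * Ψ J)) + Ψ J ^ 2 := by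
      funext J; ring
    rw [e] at h4
    unfold Es at h4 ⊢
    rw [H663.Ech_add' ((h1.cmul _).sub (h3.cmul _)) h2, H663.Ech_sub' (h1.cmul _) (h3.cmul _),
      Ech_cmul, Ech_cmul] at h4
    linarith
  have h5 := discrim_le_zero key
  unfold discrim at h5
  nlinarith

end

end Vale.Agent.P159.H730
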