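import Vale.Agent.P159.H730.Vbd

/-!
P159 (helper730): **(*)** mode by mode.  `u` is a common eigenvector of the observed covariance at
source `0` (eigenvalue `g(s)`) and of the mean posterior covariance (eigenvalue `cb(s)`) for all
precisions `s ∈ [0,p]`.  `Π(s) = 1/g(s) - s`, `Πbar(s) = 1/cb(s) - s`.

`(1 - θ) (Π(p) - Π(0)) - err ≤ 1/g(p) - 1/cb(p) ≤ Π(p) - Π(0)`.
-/

namespace Vale.Agent.P159.H730

open Finset Matrix MeasureTheory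
open Vale.Agent.P159.TM.H104 (EM Ex Cv K3 Lg li nh Gr nh_nonneg abs_li)
open Vale.Agent.P159.H37

noncomputable section

set_option linter.unusedSectionVars false

variable {V : Type*} [Fintype V] {I : Type*} [Fintype I]
variable {μ : (V → ℤ) → ℝ} {Q : Matrix I V ℝ} {c : ℝ}

/-! ### bilinearity -/

lemma Qt_sum (Q : Matrix I V ℝ) (u : I → ℝ) : Qᵀ *ᵥ u = ∑ i, u i • Q i := by
  funext x
  simp only [mulVec, dotProduct, transpose_apply, Finset.sum_apply, Pi.smul_apply, smul_eq_mul]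
  exact Finset.sum_congr rfl fun i _ => mul_comm _ _

lemma bf_sum_right {κ : Type*} (M : Matrix V V ℝ) (a : V → ℝ) (t : Finset κ) (b : κ → V → ℝ) :
    bf M a (∑ i ∈ t, b i) = ∑ i ∈ t, bf M a (b i) := by
  classical
  induction t using Finset.induction_on with
  | empty => simp [bf]
  | insert i t hi ih => rw [Finset.sum_insert hi, Finset.sum_insert hi, bf_add_right, ih]

/-- `Cov(a, Qᵀ u) = Σ u_i Cov(a, q_i)` -/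
lemma Cv_Qt {ν : (V → ℤ) → ℝ} (hν : EM ν) (J a : V → ℝ) (Q : Matrix I V ℝ) (u : I → ℝ) :
    Cv ν J (li a) (li (Qᵀ *ᵥ u)) = ∑ i, u i * Cv ν J (li a) (li (Q i)) := by
  rw [← H789.bf_Cm hν, Qt_sum, bf_sum_right]
  refine Finset.sum_congr rfl fun i _ => ?_
  rw [bf_smul_right, H789.bf_Cm hν]

/-! ### the mode -/

/-- covariance at source `0` -/
def gz (μ : (V → ℤ) → ℝ) (Q : Matrix I V ℝ) (a : V → ℝ) (s : ℝ) : ℝ :=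
  Cv (ps μ Q s) 0 (li a) (li a)

/-- mean posterior covariance -/
def cz (μ : (V → ℤ) → ℝ) (Q : Matrix I V ℝ) (a : V → ℝ) (s : ℝ) : ℝ :=
  Es μ Q s fun J => Cv (ps μ Q s) J (li a) (li a)

/-- `Σ_i κ₄(a,a,q_i,q_i)` -/
def k4z (μ : (V → ℤ) → ℝ) (Q : Matrix I V ℝ) (a : V → ℝ) (s : ℝ) : ℝ :=
  ∑ i, K4 (ps μ Q s) a a (Q i) (Q i)

/-- `u` is a common eigenvector for the precisions in `[0,p]` -/
structure Mode (μ : (V → ℤ) → ℝ) (Q : Matrix I V ℝ) (u : I → ℝ) (p : ℝ) : Prop where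
  nn : 0 < ∑ i, u i ^ 2
  pos : ∀ s ∈ Set.Icc 0 p, 0 < gz μ Q (Qᵀ *ᵥ u) s
  G0 : ∀ s ∈ Set.Icc 0 p, ∃ g : ℝ, ∀ i, Cv (ps μ Q s) 0 (li (Qᵀ *ᵥ u)) (li (Q i)) = g * u i
  Cb : ∀ s ∈ Set.Icc 0 p, ∃ g : ℝ, ∀ i,
    (Es μ Q s fun J => Cv (ps μ Q s) J (li (Qᵀ *ᵥ u)) (li (Q i))) = g * u i

lemma gz_eig (hμ : EM μ) {u : I → ℝ} {s g : ℝ}
    (h : ∀ i, Cv (ps μ Q s) 0 (li (Qᵀ *ᵥ u)) (li (Q i)) = g * u i) :
    gz μ Q (Qᵀ *ᵥ u) s = g * ∑ i, u i ^ 2 := by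
  unfold gz
  rw [Cv_Qt (em_post hμ _), Finset.mul_sum]
  refine Finset.sum_congr rfl fun i _ => ?_
  rw [h i]
  ring

lemma cz_eig (hμ : EM μ) {u : I → ℝ} {s g : ℝ}
    (h : ∀ i, (Es μ Q s fun J => Cv (ps μ Q s) J (li (Qᵀ *ᵥ u)) (li (Q i))) = g * u i) :
    cz μ Q (Qᵀ *ᵥ u) s = g * ∑ i, u i ^ 2 := by
  unfold cz
  have hp := em_post hμ (Real.sqrt s • Q)
  simp only [Cv_Qt hp]
  have h1 : (Es μ Q s fun J => ∑ i, u i * Cv (ps μ Q s) J (li (Qᵀ *ᵥ u)) (li (Q i))) =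
      ∑ i, Es μ Q s fun J => u i * Cv (ps μ Q s) J (li (Qᵀ *ᵥ u)) (li (Q i)) :=
    Ech_sum _ fun i => (chi_Cv hμ (Real.sqrt s • Q) (Gr.li _) (Gr.li (Q i))).cmul (u i)
  rw [h1, Finset.mul_sum]
  refine Finset.sum_congr rfl fun i _ => ?_
  unfold Es
  rw [Ech_cmul]
  change u i * (Es μ Q s fun J => Cv (ps μ Q s) J (li (Qᵀ *ᵥ u)) (li (Q i))) = _
  rw [h i]
  ring

/-- `g(s) ≤ cb(s)` -/
lemma gz_le_cz (hμ : EM μ) (he : Ev μ) {s : ℝ} (hK : PK (ps μ Q s)) (a : V → ℝ) :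
    gz μ Q a s ≤ cz μ Q a s := by
  have hp := em_post hμ (Real.sqrt s • Q)
  have h1 : Es μ Q s (fun _ => gz μ Q a s) ≤ cz μ Q a s := by
    unfold cz
    refine H663.Ech_mono' hμ (chi_const hμ 0 _ _) (chi_Cv hμ _ (Gr.li a) (Gr.li a)) fun J => ?_
    exact H789.Cv_mono hp (ev_post he _) hK J a
  unfold Es at h1
  rwa [Ech_const hμ] at h1

/-- derivative of `g`, for a mode -/
lemma gz_deriv (hμ : EM μ) (he : Ev μ) {u : I → ℝ} {p : ℝ} (hM : Mode μ Q u p) {s : ℝ}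
    (hs : s ∈ Set.Ioo 0 p) :
    HasDerivAt (gz μ Q (Qᵀ *ᵥ u)) (-(1 / 2) * k4z μ Q (Qᵀ *ᵥ u) s -
      gz μ Q (Qᵀ *ᵥ u) s ^ 2 / ∑ i, u i ^ 2) s := by
  have h := hasDerivAt_G0 (Q := Q) hμ he (Qᵀ *ᵥ u) hs.1
  obtain ⟨g, hg⟩ := hM.G0 s ⟨hs.1.le, hs.2.le⟩
  have e1 := gz_eig hμ hg
  have hn := hM.nn.ne'
  refine h.congr_deriv ?_
  unfold k4z
  rw [e1]
  simp only [hg]
  have e2 : ∑ i, (g * u i) ^ 2 = g ^ 2 * ∑ i, u i ^ 2 := by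
    rw [Finset.mul_sum]
    exact Finset.sum_congr rfl fun i _ => by ring
  rw [e2]
  field_simp

/-- self energy of the mode at source `0` -/
def PiZ (μ : (V → ℤ) → ℝ) (Q : Matrix I V ℝ) (u : I → ℝ) (s : ℝ) : ℝ :=
  (∑ i, u i ^ 2) / gz μ Q (Qᵀ *ᵥ u) s - s

/-- self energy of the mode, mean posterior covariance -/
def PiB (μ : (V → ℤ) → ℝ) (Q : Matrix I V ℝ) (u : I → ℝ) (s : ℝ) : ℝ :=
  (∑ i, u i ^ 2) / cz μ Q (Qᵀ *ᵥ u) s - s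

/-- `dΠ/ds = (1/2) κ₄ / g²` (for the mode) -/
lemma PiZ_deriv (hμ : EM μ) (he : Ev μ) {u : I → ℝ} {p : ℝ} (hM : Mode μ Q u p) {s : ℝ}
    (hs : s ∈ Set.Ioo 0 p) :
    HasDerivAt (PiZ μ Q u) ((∑ i, u i ^ 2) * (1 / 2 * k4z μ Q (Qᵀ *ᵥ u) s) /
      gz μ Q (Qᵀ *ᵥ u) s ^ 2) s := by
  have h := gz_deriv hμ he hM hs
  have hg := (hM.pos s ⟨hs.1.le, hs.2.le⟩).ne'
  have hn := hM.nn.ne'
  have h2 := ((hasDerivAt_const s (∑ i, u i ^ 2)).div h hg).sub (hasDerivAt_id s)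
  refine h2.congr_deriv ?_
  field_simp
  ring

/-- `dΠbar/ds` -/
lemma PiB_deriv (hG : GM μ Q c) {u : I → ℝ} {s : ℝ} (hs : 0 < s)
    (hc : cz μ Q (Qᵀ *ᵥ u) s ≠ 0) :
    HasDerivAt (PiB μ Q u) ((∑ i, u i ^ 2) * (Es μ Q s fun J => ∑ i,
      Cv (ps μ Q s) J (li (Qᵀ *ᵥ u)) (li (Q i)) ^ 2) / cz μ Q (Qᵀ *ᵥ u) s ^ 2 - 1) s := by
  have h : HasDerivAt (cz μ Q (Qᵀ *ᵥ u)) _ s := hasDerivAt_Cb hG (Qᵀ *ᵥ u) hs
  have h2 := ((hasDerivAt_const s (∑ i, u i ^ 2)).div h hc).sub (hasDerivAt_id s)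
  refine h2.congr_deriv ?_
  ring

lemma PiZ_cont (hμ : EM μ) (he : Ev μ) {u : I → ℝ} {p : ℝ} (hM : Mode μ Q u p) :
    ContinuousOn (PiZ μ Q u) (Set.Icc 0 p) := by
  have h1 : ContinuousOn (gz μ Q (Qᵀ *ᵥ u)) (Set.Icc 0 p) :=
    (cont_G0 hμ he (Qᵀ *ᵥ u)).mono Set.Icc_subset_Ici_self
  unfold PiZ
  exact (continuousOn_const.div h1 fun s hs => (hM.pos s hs).ne').sub continuousOn_id

lemma PiB_cont (hG : GM μ Q c) {u : I → ℝ} {p : ℝ}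
    (hc : ∀ s ∈ Set.Icc 0 p, cz μ Q (Qᵀ *ᵥ u) s ≠ 0) :
    ContinuousOn (PiB μ Q u) (Set.Icc 0 p) := by
  have h1 : ContinuousOn (cz μ Q (Qᵀ *ᵥ u)) (Set.Icc 0 p) :=
    (cont_Cb hG (Qᵀ *ᵥ u)).mono Set.Icc_subset_Ici_self
  unfold PiB
  exact (continuousOn_const.div h1 hc).sub continuousOn_id

/-- the hypotheses of **(*)** -/
structure SH (μ : (V → ℤ) → ℝ) (Q : Matrix I V ℝ) (u : I → ℝ) (p θ e : ℝ)
    (Gd : ℝ → Set (V → ℝ)) : Prop where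
  gm : ∃ c, GM μ Q c
  ev : Ev μ
  p0 : 0 ≤ p
  pk : ∀ s ∈ Set.Icc 0 p, PK (ps μ Q s)
  mode : Mode μ Q u p
  th0 : 0 ≤ θ
  e0 : 0 ≤ e
  meas : ∀ s ∈ Set.Icc 0 p, MeasurableSet (Gd s)
  th : ∀ s ∈ Set.Icc 0 p, ∀ J ∈ Gd s, Real.exp (Tq (ps μ Q s) J) - 1 ≤ θ
  err : ∀ s ∈ Set.Icc 0 p, Es μ Q s ((Gd s)ᶜ.indicator (dev μ Q (Qᵀ *ᵥ u) s)) ≤ e

variable {u : I → ℝ} {p θ e : ℝ} {Gd : ℝ → Set (V → ℝ)}

lemma SH.em (h : SH μ Q u p θ e Gd) : EM μ := by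
  obtain ⟨c, hc⟩ := h.gm
  exact hc.em

lemma SH.k4 (h : SH μ Q u p θ e Gd) {s : ℝ} (hs : s ∈ Set.Icc 0 p) :
    0 ≤ k4z μ Q (Qᵀ *ᵥ u) s :=
  Finset.sum_nonneg fun _ _ => H789.K4_nonneg' (em_post h.em _) (ev_post h.ev _) (h.pk s hs) _ _

lemma SH.gz_le (h : SH μ Q u p θ e Gd) {s : ℝ} (hs : s ∈ Set.Icc 0 p) :
    gz μ Q (Qᵀ *ᵥ u) s ≤ cz μ Q (Qᵀ *ᵥ u) s := gz_le_cz h.em h.ev (h.pk s hs) _

lemma SH.cpos (h : SH μ Q u p θ e Gd) {s : ℝ} (hs : s ∈ Set.Icc 0 p) :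
    0 < cz μ Q (Qᵀ *ᵥ u) s := lt_of_lt_of_le (h.mode.pos s hs) (h.gz_le hs)

/-- `g` is antitone -/
lemma SH.gz_anti (h : SH μ Q u p θ e Gd) : AntitoneOn (gz μ Q (Qᵀ *ᵥ u)) (Set.Icc 0 p) := by
  have hD : interior (Set.Icc 0 p) = Set.Ioo 0 p := interior_Icc
  refine antitoneOn_of_hasDerivWithinAt_nonpos (convex_Icc 0 p)
    ((cont_G0 h.em h.ev (Qᵀ *ᵥ u)).mono Set.Icc_subset_Ici_self)
    (f' := fun s => -(1 / 2) * k4z μ Q (Qᵀ *ᵥ u) s - gz μ Q (Qᵀ *ᵥ u) s ^ 2 / ∑ i, u i ^ 2)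
    (fun s hs => ?_) fun s hs => ?_
  · rw [hD] at hs
    exact (gz_deriv h.em h.ev h.mode hs).hasDerivWithinAt
  · rw [hD] at hs
    have h1 := h.k4 (s := s) ⟨hs.1.le, hs.2.le⟩
    have h2 : 0 ≤ gz μ Q (Qᵀ *ᵥ u) s ^ 2 / ∑ i, u i ^ 2 := div_nonneg (sq_nonneg _) h.mode.nn.le
    linarith

/-- `Π` is monotone -/
lemma SH.PiZ_mono (h : SH μ Q u p θ e Gd) : MonotoneOn (PiZ μ Q u) (Set.Icc 0 p) := by
  have hD : interior (Set.Icc 0 p) = Set.Ioo 0 p := interior_Icc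
  refine monotoneOn_of_hasDerivWithinAt_nonneg (convex_Icc 0 p) (PiZ_cont h.em h.ev h.mode)
    (f' := fun s => (∑ i, u i ^ 2) * (1 / 2 * k4z μ Q (Qᵀ *ᵥ u) s) / gz μ Q (Qᵀ *ᵥ u) s ^ 2)
    (fun s hs => ?_) fun s hs => ?_
  · rw [hD] at hs
    exact (PiZ_deriv h.em h.ev h.mode hs).hasDerivWithinAt
  · rw [hD] at hs
    have h1 := h.k4 (s := s) ⟨hs.1.le, hs.2.le⟩
    have h2 := h.mode.nn
    positivity

/-- at precision `0` both self energies agree -/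
lemma PiB_zero (hμ : EM μ) (u : I → ℝ) : PiB μ Q u 0 = PiZ μ Q u 0 := by
  unfold PiB PiZ cz gz
  rw [Es_zero hμ]

/-- the two bounds of the derivative of `Πbar` -/
lemma SH.V_bounds (h : SH μ Q u p θ e Gd) {s : ℝ} (hs : s ∈ Set.Ioo 0 p) :
    0 ≤ (∑ i, u i ^ 2) * (Es μ Q s fun J => ∑ i,
      Cv (ps μ Q s) J (li (Qᵀ *ᵥ u)) (li (Q i)) ^ 2) / cz μ Q (Qᵀ *ᵥ u) s ^ 2 - 1 ∧
    (∑ i, u i ^ 2) * (Es μ Q s fun J => ∑ i,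
      Cv (ps μ Q s) J (li (Qᵀ *ᵥ u)) (li (Q i)) ^ 2) / cz μ Q (Qᵀ *ᵥ u) s ^ 2 - 1 ≤
      θ * ((∑ i, u i ^ 2) * (1 / 2 * k4z μ Q (Qᵀ *ᵥ u) s) / gz μ Q (Qᵀ *ᵥ u) s ^ 2) +
        (∑ i, u i ^ 2) * e / gz μ Q (Qᵀ *ᵥ u) p ^ 2 := by
  have hs' : s ∈ Set.Icc 0 p := ⟨hs.1.le, hs.2.le⟩
  have hμ := h.em
  have hn := h.mode.nn
  obtain ⟨x, hx⟩ := h.mode.Cb s hs'
  have e1 := cz_eig hμ hx
  have e2 : ∑ i, (Es μ Q s fun J => Cv (ps μ Q s) J (li (Qᵀ *ᵥ u)) (li (Q i))) ^ 2 =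
      cz μ Q (Qᵀ *ᵥ u) s ^ 2 / ∑ i, u i ^ 2 := by
    rw [e1]
    simp only [hx]
    have : ∑ i, (x * u i) ^ 2 = x ^ 2 * ∑ i, u i ^ 2 := by
      rw [Finset.mul_sum]
      exact Finset.sum_congr rfl fun i _ => by ring
    rw [this]
    field_simp
  obtain ⟨v1, v2⟩ := var_le (Q := Q) hμ (Qᵀ *ᵥ u) s
  have v3 := dev_le (Q := Q) hμ h.ev (h.pk s hs') (h.meas s hs') h.th0 (h.th s hs') (Qᵀ *ᵥ u)
  have v4 := h.err s hs'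
  have hc := h.cpos hs'
  have hgp := h.mode.pos s hs'
  have hgpp := h.mode.pos p ⟨h.p0, le_rfl⟩
  have hle := h.gz_le hs'
  have hanti := h.gz_anti hs' ⟨h.p0, le_rfl⟩ hs.2.le
  have hk := h.k4 hs'
  rw [e2] at v1 v2
  unfold k4z at hk ⊢
  set X := Es μ Q s fun J => ∑ i, Cv (ps μ Q s) J (li (Qᵀ *ᵥ u)) (li (Q i)) ^ 2
  set D := Es μ Q s (dev μ Q (Qᵀ *ᵥ u) s)
  set cc := cz μ Q (Qᵀ *ᵥ u) s
  set gg := gz μ Q (Qᵀ *ᵥ u) s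
  set gp := gz μ Q (Qᵀ *ᵥ u) p
  set k := ∑ i, K4 (ps μ Q s) (Qᵀ *ᵥ u) (Qᵀ *ᵥ u) (Q i) (Q i)
  set n := ∑ i, u i ^ 2
  have hcc : 0 < cc ^ 2 := pow_pos hc 2
  constructor
  · rw [sub_nonneg, le_div_iff₀ hcc, one_mul]
    have := mul_le_mul_of_nonneg_left v1 hn.le
    have e3 : n * (cc ^ 2 / n) = cc ^ 2 := by field_simp
    linarith
  · have hX : n * X ≤ cc ^ 2 + n * (θ / 2 * k + e) := by
      have h1 : X ≤ cc ^ 2 / n + (θ / 2 * k + e) := by linarith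
      have h2 := mul_le_mul_of_nonneg_left h1 hn.le
      have e3 : n * (cc ^ 2 / n + (θ / 2 * k + e)) = cc ^ 2 + n * (θ / 2 * k + e) := by
        field_simp
      linarith
    have h3 : n * X / cc ^ 2 - 1 ≤ n * (θ / 2 * k + e) / cc ^ 2 := by
      rw [sub_le_iff_le_add, div_le_iff₀ hcc, add_mul, div_mul_cancel₀ _ hcc.ne']
      linarith
    have h4 : n * (θ / 2 * k + e) / cc ^ 2 ≤ n * (θ / 2 * k) / gg ^ 2 + n * e / gp ^ 2 := by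
      rw [mul_add, add_div]
      have h5 : 0 ≤ θ / 2 * k := mul_nonneg (by linarith [h.th0]) hk
      refine add_le_add ?_ ?_
      · exact div_le_div_of_nonneg_left (mul_nonneg hn.le h5) (pow_pos hgp 2)
          (pow_le_pow_left₀ hgp.le hle 2)
      · exact div_le_div_of_nonneg_left (mul_nonneg hn.le h.e0) (pow_pos hgpp 2)
          (pow_le_pow_left₀ hgpp.le (hanti.trans hle) 2)
    refine h3.trans (h4.trans (le_of_eq ?_))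
    ring

/-- `Πbar` is monotone -/
theorem SH.PiB_mono (h : SH μ Q u p θ e Gd) : MonotoneOn (PiB μ Q u) (Set.Icc 0 p) := by
  obtain ⟨c, hG⟩ := h.gm
  have hD : interior (Set.Icc 0 p) = Set.Ioo 0 p := interior_Icc
  refine monotoneOn_of_hasDerivWithinAt_nonneg (convex_Icc 0 p)
    (PiB_cont hG fun s hs => (h.cpos hs).ne')
    (f' := fun s => (∑ i, u i ^ 2) * (Es μ Q s fun J => ∑ i,
      Cv (ps μ Q s) J (li (Qᵀ *ᵥ u)) (li (Q i)) ^ 2) / cz μ Q (Qᵀ *ᵥ u) s ^ 2 - 1)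
    (fun s hs => ?_) fun s hs => ?_
  · rw [hD] at hs
    exact (PiB_deriv hG hs.1 (h.cpos ⟨hs.1.le, hs.2.le⟩).ne').hasDerivWithinAt
  · rw [hD] at hs
    exact (h.V_bounds hs).1

/-- `Πbar(p) - Π(0) ≤ θ (Π(p) - Π(0)) + error` -/
theorem SH.PiB_le (h : SH μ Q u p θ e Gd) :
    PiB μ Q u p - PiZ μ Q u 0 ≤ θ * (PiZ μ Q u p - PiZ μ Q u 0) +
      p * ((∑ i, u i ^ 2) * e / gz μ Q (Qᵀ *ᵥ u) p ^ 2) := by
  obtain ⟨c, hG⟩ := h.gm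
  have hD : interior (Set.Icc 0 p) = Set.Ioo 0 p := interior_Icc
  have h1 : MonotoneOn (fun s => θ * PiZ μ Q u s +
      s * ((∑ i, u i ^ 2) * e / gz μ Q (Qᵀ *ᵥ u) p ^ 2) - PiB μ Q u s) (Set.Icc 0 p) := by
    refine monotoneOn_of_hasDerivWithinAt_nonneg (convex_Icc 0 p)
      (((continuousOn_const.mul (PiZ_cont h.em h.ev h.mode)).add
        (continuousOn_id.mul continuousOn_const)).sub
          (PiB_cont hG fun s hs => (h.cpos hs).ne'))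
      (f' := fun s => θ * ((∑ i, u i ^ 2) * (1 / 2 * k4z μ Q (Qᵀ *ᵥ u) s) /
        gz μ Q (Qᵀ *ᵥ u) s ^ 2) + 1 * ((∑ i, u i ^ 2) * e / gz μ Q (Qᵀ *ᵥ u) p ^ 2) -
        ((∑ i, u i ^ 2) * (Es μ Q s fun J => ∑ i,
      Cv (ps μ Q s) J (li (Qᵀ *ᵥ u)) (li (Q i)) ^ 2) / cz μ Q (Qᵀ *ᵥ u) s ^ 2 - 1))
      (fun s hs => ?_) fun s hs => ?_
    · rw [hD] at hs
      have a1 := (PiZ_deriv h.em h.ev h.mode hs).const_mul θ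
      have a2 := PiB_deriv hG hs.1 (h.cpos ⟨hs.1.le, hs.2.le⟩).ne'
      exact ((a1.add ((hasDerivAt_id s).mul_const _)).sub a2).hasDerivWithinAt
    · rw [hD] at hs
      have := (h.V_bounds hs).2
      linarith
  have h2 := h1 ⟨le_rfl, h.p0⟩ ⟨h.p0, le_rfl⟩ h.p0
  simp only at h2
  rw [PiB_zero h.em] at h2
  linarith

/-- **(*)**: `(1 - θ) (Π(p) - Π(0)) - err ≤ n/g - n/cb ≤ Π(p) - Π(0)` (`n = |u|²`) -/
theorem SH.star (h : SH μ Q u p θ e Gd) :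
    (1 - θ) * (PiZ μ Q u p - PiZ μ Q u 0) -
        p * ((∑ i, u i ^ 2) * e / gz μ Q (Qᵀ *ᵥ u) p ^ 2) ≤
      (∑ i, u i ^ 2) / gz μ Q (Qᵀ *ᵥ u) p - (∑ i, u i ^ 2) / cz μ Q (Qᵀ *ᵥ u) p ∧
    (∑ i, u i ^ 2) / gz μ Q (Qᵀ *ᵥ u) p - (∑ i, u i ^ 2) / cz μ Q (Qᵀ *ᵥ u) p ≤
      PiZ μ Q u p - PiZ μ Q u 0 := by
  have h1 := h.PiB_le
  have h2 := h.PiB_mono ⟨le_rfl, h.p0⟩ ⟨h.p0, le_rfl⟩ h.p0
  rw [PiB_zero h.em] at h2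
  have e3 : (∑ i, u i ^ 2) / gz μ Q (Qᵀ *ᵥ u) p - (∑ i, u i ^ 2) / cz μ Q (Qᵀ *ᵥ u) p =
      PiZ μ Q u p - PiB μ Q u p := by
    unfold PiZ PiB
    ring
  rw [e3]
  constructor <;> linarith

end

end Vale.Agent.P159.H730
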