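import Vale.Agent.P159.H730.NTor
import Vale.Agent.P159.H708.ClAp
import Vale.Agent.P159.H462.In3Sum

/-!
P159 (helper730): STIFF (PU14).  Bound of the drop of the self energy between two cell masses by
`sqrt (θ D)`, momentum by momentum, integer and neutral model.
-/

namespace Vale.Agent.P159.H730

open Finset Matrix MeasureTheory
open Vale.Agent.P159.TM.H104 (EM Ex Cv K3 Lg li nh Gr nh_nonneg abs_li)
open Vale.Agent.P159.H37
open Vale.Agent.P159.H447 (K4S)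

noncomputable section

set_option linter.unusedSectionVars false

section abstract

variable {V : Type*} [Fintype V] {I : Type*} [Fintype I]
variable {μ : (V → ℤ) → ℝ} {Q : Matrix I V ℝ} {u : I → ℝ} {p θ e : ℝ} {Gd : ℝ → Set (V → ℝ)}

/-- deviation of the posterior variance in the direction of a mode -/
lemma dev1_sq_le (hμ : EM μ) (s : ℝ) (J : V → ℝ) (u : I → ℝ) :
    (Cv (ps μ Q s) J (li (Qᵀ *ᵥ u)) (li (Qᵀ *ᵥ u)) -
      Cv (ps μ Q s) 0 (li (Qᵀ *ᵥ u)) (li (Qᵀ *ᵥ u))) ^ 2 ≤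
      (∑ i, u i ^ 2) * dev μ Q (Qᵀ *ᵥ u) s J := by
  have hp := em_post hμ (Real.sqrt s • Q)
  rw [Cv_Qt hp, Cv_Qt hp, ← Finset.sum_sub_distrib]
  simp only [← mul_sub]
  unfold dev
  exact Finset.sum_mul_sq_le_sq_mul_sq _ _ _

/-- the mean posterior variance of a mode against the variance at source `0` -/
theorem SH.cz_le (h : SH μ Q u p θ e Gd) {κ : ℝ}
    (hκ : K4 (ps μ Q p) (Qᵀ *ᵥ u) (Qᵀ *ᵥ u) (Qᵀ *ᵥ u) (Qᵀ *ᵥ u) ≤ κ) :
    cz μ Q (Qᵀ *ᵥ u) p ≤ gz μ Q (Qᵀ *ᵥ u) p + Real.sqrt (θ / 2 * κ) +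
      Real.sqrt ((∑ i, u i ^ 2) * e) := by
  have hμ := h.em
  have hpI : p ∈ Set.Icc 0 p := ⟨h.p0, le_rfl⟩
  have hp := em_post hμ (Real.sqrt p • Q)
  have hG := h.meas p hpI
  set z := Qᵀ *ᵥ u with hz
  set n := ∑ i, u i ^ 2 with hn
  have hn0 : 0 ≤ n := Finset.sum_nonneg fun _ _ => sq_nonneg _
  set F : (V → ℝ) → ℝ := fun J => Cv (ps μ Q p) J (li z) (li z) - Cv (ps μ Q p) 0 (li z) (li z)
    with hF
  have cC := chi_Cv hμ (Real.sqrt p • Q) (Gr.li z) (Gr.li z)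
  have cF : H663.ChI μ 0 (Real.sqrt p • Q) F := cC.sub (chi_const hμ 0 _ _)
  have mF : Measurable F := ((TM.H104.continuous_Cv hp (Gr.li z) (Gr.li z)).sub
    continuous_const).measurable
  have e1 : cz μ Q z p - gz μ Q z p = Es μ Q p F := by
    unfold cz gz Es
    rw [hF, H663.Ech_sub' cC (chi_const hμ 0 _ _), Ech_const hμ]
  -- the good part is bounded by a constant
  have hk0 : 0 ≤ κ := (H789.K4_nonneg' hp (ev_post h.ev _) (h.pk p hpI) _ _).trans hκ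
  have hgood : ∀ J ∈ Gd p, F J ≤ Real.sqrt (θ / 2 * κ) := by
    intro J hJ
    have h1 := H789.star' hp (ev_post h.ev _) (h.pk p hpI) J z z
    have h2 := h.th p hpI J hJ
    refine Real.le_sqrt_of_sq_le (h1.trans ?_)
    have h3 : 0 ≤ K4 (ps μ Q p) z z z z := H789.K4_nonneg' hp (ev_post h.ev _) (h.pk p hpI) _ _
    calc 1 / 2 * (Real.exp (Tq (post μ (Real.sqrt p • Q)) J) - 1) *
          K4 (post μ (Real.sqrt p • Q)) z z z z ≤ 1 / 2 * θ * κ :=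
          mul_le_mul (mul_le_mul_of_nonneg_left h2 (by norm_num)) hκ h3
            (mul_nonneg (by norm_num) h.th0)
      _ = θ / 2 * κ := by ring
  set D : (V → ℝ) → ℝ := fun J => Real.sqrt (n * dev μ Q z p J) with hD
  have mdev := measurable_dev (Q := Q) hμ z p
  have mD : Measurable D := (measurable_const.mul mdev).sqrt
  have cdev := chi_dev (Q := Q) hμ z p
  have habs : ∀ J, |F J| ≤ D J := fun J => by
    refine Real.abs_le_sqrt ?_
    exact dev1_sq_le hμ p J u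
  have cdn : H663.ChI μ 0 (Real.sqrt p • Q) fun J => n * dev μ Q z p J := cdev.cmul n
  have cD : H663.ChI μ 0 (Real.sqrt p • Q) D := by
    refine H663.ChI.mono hμ mD ((chi_const hμ 0 _ 1).add cdn) fun J => ?_
    have h0 : 0 ≤ n * dev μ Q z p J := mul_nonneg hn0 (dev_nonneg _ _ _ _ _)
    rw [hD, abs_of_nonneg (Real.sqrt_nonneg _)]
    refine Real.sqrt_le_iff.2 ⟨by linarith, ?_⟩
    nlinarith
  have cD1 := chi_ind hμ mD (fun J => Real.sqrt_nonneg _) cD hG.compl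
  have cD2 := chi_ind hμ (measurable_const.mul mdev)
    (fun J => mul_nonneg hn0 (dev_nonneg μ Q z p J)) cdn hG.compl
  have h1 : Es μ Q p F ≤ Es μ Q p fun J => Real.sqrt (θ / 2 * κ) + (Gd p)ᶜ.indicator D J := by
    refine H663.Ech_mono' hμ cF ((chi_const hμ 0 _ _).add cD1) fun J => ?_
    by_cases hJ : J ∈ Gd p
    · have n2 : J ∉ (Gd p)ᶜ := fun h => h hJ
      rw [Set.indicator_of_notMem n2, add_zero]
      exact hgood J hJ
    · have n2 : J ∈ (Gd p)ᶜ := hJ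
      rw [Set.indicator_of_mem n2]
      have := (le_abs_self _).trans (habs J)
      linarith [Real.sqrt_nonneg (θ / 2 * κ)]
  -- Cauchy-Schwarz on the bad part
  have e2 : (fun J => ((Gd p)ᶜ.indicator (fun _ => (1 : ℝ)) J) ^ 2) =
      (Gd p)ᶜ.indicator fun _ => (1 : ℝ) := by
    funext J
    by_cases hJ : J ∈ (Gd p)ᶜ
    · rw [Set.indicator_of_mem hJ, one_pow]
    · rw [Set.indicator_of_notMem hJ]
      norm_num
  have e3 : (fun J => ((Gd p)ᶜ.indicator D J) ^ 2) =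
      (Gd p)ᶜ.indicator fun J => n * dev μ Q z p J := by
    funext J
    by_cases hJ : J ∈ (Gd p)ᶜ
    · rw [Set.indicator_of_mem hJ, Set.indicator_of_mem hJ, hD]
      exact Real.sq_sqrt (mul_nonneg hn0 (dev_nonneg _ _ _ _ _))
    · rw [Set.indicator_of_notMem hJ, Set.indicator_of_notMem hJ]
      norm_num
  have e4 : (fun J => (Gd p)ᶜ.indicator (fun _ => (1 : ℝ)) J * (Gd p)ᶜ.indicator D J) =
      (Gd p)ᶜ.indicator D := by
    funext J
    by_cases hJ : J ∈ (Gd p)ᶜ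
    · rw [Set.indicator_of_mem hJ, Set.indicator_of_mem hJ, one_mul]
    · rw [Set.indicator_of_notMem hJ, Set.indicator_of_notMem hJ, mul_zero]
  have c1 : H663.ChI μ 0 (Real.sqrt p • Q) ((Gd p)ᶜ.indicator fun _ => (1 : ℝ)) :=
    chi_ind hμ measurable_const (fun _ => zero_le_one) (chi_const hμ 0 _ 1) hG.compl
  have hcs := Es_cs (Q := Q) hμ (s := p) (Φ := (Gd p)ᶜ.indicator fun _ => (1 : ℝ))
    (Ψ := (Gd p)ᶜ.indicator D) (by rw [e2]; exact c1) (by rw [e3]; exact cD2)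
    (by rw [e4]; exact cD1)
  rw [e2, e3, e4] at hcs
  have hP1 : Es μ Q p ((Gd p)ᶜ.indicator fun _ => (1 : ℝ)) ≤ 1 := by
    have h2 : Es μ Q p ((Gd p)ᶜ.indicator fun _ => (1 : ℝ)) ≤ Es μ Q p fun _ => (1 : ℝ) :=
      H663.Ech_mono' hμ c1 (chi_const hμ 0 _ 1) fun J =>
        Set.indicator_le_self' (fun _ _ => zero_le_one) J
    unfold Es at h2 ⊢
    rwa [Ech_const hμ] at h2
  have e5 : (Gd p)ᶜ.indicator (fun J => n * dev μ Q z p J) = fun J =>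
      n * (Gd p)ᶜ.indicator (dev μ Q z p) J := by
    funext J
    by_cases hJ : J ∈ (Gd p)ᶜ
    · rw [Set.indicator_of_mem hJ, Set.indicator_of_mem hJ]
    · rw [Set.indicator_of_notMem hJ, Set.indicator_of_notMem hJ, mul_zero]
  have h3 : Es μ Q p ((Gd p)ᶜ.indicator fun J => n * dev μ Q z p J) ≤ n * e := by
    rw [e5]
    unfold Es
    rw [Ech_cmul]
    exact mul_le_mul_of_nonneg_left (h.err p hpI) hn0
  have h30 : 0 ≤ Es μ Q p ((Gd p)ᶜ.indicator fun J => n * dev μ Q z p J) :=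
    Ech_nonneg hμ _ _ fun J => Set.indicator_nonneg
      (fun _ _ => mul_nonneg hn0 (dev_nonneg _ _ _ _ _)) J
  have h4 : Es μ Q p ((Gd p)ᶜ.indicator D) ≤ Real.sqrt (n * e) := by
    refine Real.le_sqrt_of_sq_le (hcs.trans ?_)
    calc _ ≤ 1 * Es μ Q p ((Gd p)ᶜ.indicator fun J => n * dev μ Q z p J) :=
          mul_le_mul_of_nonneg_right hP1 h30
      _ ≤ n * e := by rw [one_mul]; exact h3
  have h5 : Es μ Q p (fun J => Real.sqrt (θ / 2 * κ) + (Gd p)ᶜ.indicator D J) =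
      Real.sqrt (θ / 2 * κ) + Es μ Q p ((Gd p)ᶜ.indicator D) := by
    unfold Es
    rw [H663.Ech_add' (chi_const hμ 0 _ _) cD1, Ech_const hμ]
  rw [h5] at h1
  linarith

/-- **the drop of the self energy of a mode** -/
theorem SH.stiff (h : SH μ Q u p θ e Gd) (hθ : θ ≤ 1 / 2) {κ : ℝ}
    (hκ : K4 (ps μ Q p) (Qᵀ *ᵥ u) (Qᵀ *ᵥ u) (Qᵀ *ᵥ u) (Qᵀ *ᵥ u) ≤ κ) :
    PiZ μ Q u p - PiZ μ Q u 0 ≤
      2 * ((∑ i, u i ^ 2) * (Real.sqrt (θ / 2 * κ) + Real.sqrt ((∑ i, u i ^ 2) * e) + p * e) /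
        gz μ Q (Qᵀ *ᵥ u) p ^ 2) := by
  have hpI : p ∈ Set.Icc 0 p := ⟨h.p0, le_rfl⟩
  have h1 := h.star
  have h2 := h.cz_le hκ
  have h3 := h.gz_le hpI
  have hg := h.mode.pos p hpI
  set n := ∑ i, u i ^ 2 with hn
  have hn0 : 0 ≤ n := Finset.sum_nonneg fun _ _ => sq_nonneg _
  set g := gz μ Q (Qᵀ *ᵥ u) p with hgd
  set c := cz μ Q (Qᵀ *ᵥ u) p with hcd
  have hc : 0 < c := hg.trans_le h3
  set r := Real.sqrt (θ / 2 * κ) + Real.sqrt (n * e) with hr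
  have h4 : n / g - n / c ≤ n * r / g ^ 2 := by
    rw [div_sub_div _ _ hg.ne' hc.ne', div_le_div_iff₀ (mul_pos hg hc) (by positivity)]
    have h5 : n * c - g * n ≤ n * r := by nlinarith
    have h6 : g ^ 2 ≤ g * c := by nlinarith
    have h7 : 0 ≤ n * r := mul_nonneg hn0 (by positivity)
    have h8 : 0 ≤ n * c - g * n := by nlinarith
    nlinarith [mul_le_mul h5 h6 (sq_nonneg g) h7]
  have h9 : PiZ μ Q u 0 ≤ PiZ μ Q u p := by
    have := h1.2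
    have h10 : 0 ≤ n / g - n / c := by
      rw [sub_nonneg]
      exact div_le_div_of_nonneg_left hn0 hg h3
    linarith
  have h11 : 1 / 2 * (PiZ μ Q u p - PiZ μ Q u 0) ≤ (1 - θ) * (PiZ μ Q u p - PiZ μ Q u 0) :=
    mul_le_mul_of_nonneg_right (by linarith) (sub_nonneg.2 h9)
  have e1 : n * (r + p * e) / g ^ 2 = n * r / g ^ 2 + p * (n * e / g ^ 2) := by ring
  have h12 := h1.1
  rw [e1]
  linarith

end abstract

section torus

open Vale.Agent.P159.TM.Spec (V)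
open Vale.Agent.P159.TM.SpecC (wT)
open Vale.Agent.P159.H864 (TI TInv tra sym Inv CT CInv MC cl up cobV Gc Gck PiCk)
open Vale.Agent.P159.TM.H764 (cN sN dt EE)
open Vale.Agent.P159.H963 (GrI Neu pin Pn nMC nM Gnc PinC obsN)
open Vale.Agent.P159.H447 (CN SN)

variable {N l : ℕ} [NeZero N] [NeZero (N / l)] {b t τ τ' θ e : ℝ} {Gd : ℝ → Set (V N → ℝ)}

lemma scale_aux {n K s g e p D : ℝ} (hn : 0 < n) (hg : 0 < g)
    (h : D ≤ 2 * (n * (Real.sqrt (s / 2 * (n ^ 2 * K)) + Real.sqrt (n * (n * e)) + p * (n * e)) /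
      (g * n) ^ 2)) :
    D ≤ 2 * ((Real.sqrt (s / 2 * K) + Real.sqrt e + p * e) / g ^ 2) := by
  have e1 : Real.sqrt (s / 2 * (n ^ 2 * K)) = n * Real.sqrt (s / 2 * K) := by
    rw [show s / 2 * (n ^ 2 * K) = n ^ 2 * (s / 2 * K) by ring, Real.sqrt_mul (sq_nonneg n),
      Real.sqrt_sq hn.le]
  have e2 : Real.sqrt (n * (n * e)) = n * Real.sqrt e := by
    rw [show n * (n * e) = n ^ 2 * e by ring, Real.sqrt_mul (sq_nonneg n), Real.sqrt_sq hn.le]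
  rw [e1, e2] at h
  refine h.trans (le_of_eq ?_)
  field_simp

/-- **drop of the integer cell self energy** -/
theorem ST.stiff (h : ST N l b t τ' τ θ e Gd) (hθ : θ ≤ 1 / 2) (k : V (N / l)) :
    PiCk N l b t τ k - PiCk N l b t τ' k ≤
      2 * ((Real.sqrt (θ / 2 * K4S (wC N l b t τ) (cellP N l) (cellP N l)) + Real.sqrt e +
        (τ - τ') * e) / Gck N l b t τ k ^ 2) := by
  have hE := H864.em_MC (N := N) (l := l) (t := t) (τ := τ) h.b0.le h.dvd (h.pos.trans_le h.le) h.le'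
  have hpk := (H864.dm_MC h.b0 h.dvd (h.pos.trans_le h.le) h.le').pk
  have hn := wv_pos (N := N) (l := l) k
  have i0 : (0 : ℝ) ∈ Set.Icc 0 (τ - τ') := ⟨le_rfl, sub_nonneg.2 h.le⟩
  have i : τ - τ' ∈ Set.Icc 0 (τ - τ') := ⟨sub_nonneg.2 h.le, le_rfl⟩
  have hps : ps (wC N l b t τ') (cobV N l) (τ - τ') = wC N l b t τ := by
    rw [ps_wC h.dvd b t i.1, add_sub_cancel]
  have hK := H708.K4_cm hE (H864.ev_wTM _) hpk (cobV N l)ᵀ (wv k)
  rw [transpose_transpose, ← H864.cellP_eq h.dvd] at hK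
  have hK' : K4 (ps (wC N l b t τ') (cobV N l) (τ - τ')) ((cobV N l)ᵀ *ᵥ wv k)
      ((cobV N l)ᵀ *ᵥ wv k) ((cobV N l)ᵀ *ᵥ wv k) ((cobV N l)ᵀ *ᵥ wv k) ≤
      (∑ x, wv (N := N) (l := l) k x ^ 2) ^ 2 * K4S (wC N l b t τ) (cellP N l) (cellP N l) := by
    rw [hps]
    exact hK
  have h1 := (h.sh k).stiff hθ hK'
  obtain ⟨_, h2, _⟩ := mode_wv h.b0 h.dvd h.pos h.le h.le' k
  rw [PiZ_tor h k i, PiZ_tor h k i0, h2 _ i, add_zero, add_sub_cancel] at h1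
  have e3 : PiCk N l b t τ k + τ' - (PiCk N l b t τ' k + τ') =
      PiCk N l b t τ k - PiCk N l b t τ' k := by ring
  rw [e3] at h1
  have hg := H864.Gck_pos (N := N) (l := l) (t := t) h.b0 h.dvd (h.pos.trans_le h.le) h.le' k
  exact scale_aux hn hg h1

/-- **drop of the neutral cell self energy** (PU14) -/
theorem STN.stiff (h : STN N l b t τ' τ θ e Gd) (hθ : θ ≤ 1 / 2) {k : V (N / l)} (hk : k ≠ 0) :
    PinC N l b t τ k - PinC N l b t τ' k ≤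
      2 * ((Real.sqrt (θ / 2 * K4S (wN N l b t τ) (SN N l) (SN N l)) + Real.sqrt e +
        (τ - τ') * e) / gN N l b t τ k ^ 2) := by
  have hE := H963.em_nMC (N := N) (l := l) (t := t) (τ := τ) h.b0.le h.dvd (h.pos.trans_le h.le)
    h.le' (0 : V N)
  have hpk := H963.pk_nMC (N := N) (l := l) (t := t) (τ := τ) h.b0.le h.dvd (h.pos.trans_le h.le)
    h.le' (0 : V N)
  have hev := H963.ev_nMC (N := N) (l := l) h.b0.le t τ (0 : V N)
  have hn := wv_pos (N := N) (l := l) k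
  have i0 : (0 : ℝ) ∈ Set.Icc 0 (τ - τ') := ⟨le_rfl, sub_nonneg.2 h.le⟩
  have i : τ - τ' ∈ Set.Icc 0 (τ - τ') := ⟨sub_nonneg.2 h.le, le_rfl⟩
  have hps : ps (wN N l b t τ') (CN N l) (τ - τ') = wN N l b t τ := by
    rw [ps_wN h.dvd b t i.1, add_sub_cancel]
  have hK := H708.K4_cm hE hev hpk (CN N l)ᵀ (wv k)
  rw [transpose_transpose, H447.CN_gram h.dvd] at hK
  have hK' : K4 (ps (wN N l b t τ') (CN N l) (τ - τ')) ((CN N l)ᵀ *ᵥ wv k) ((CN N l)ᵀ *ᵥ wv k)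
      ((CN N l)ᵀ *ᵥ wv k) ((CN N l)ᵀ *ᵥ wv k) ≤ (∑ x, wv (N := N) (l := l) k x ^ 2) ^ 2 *
        K4S (wN N l b t τ) (SN N l) (SN N l) := by
    rw [hps]
    exact hK
  have h1 := (h.sh hk).stiff hθ hK'
  obtain ⟨_, h2, _⟩ := mode_wvN h.b0 h.dvd h.pos h.le h.le' hk
  rw [PiZ_torN h hk i, PiZ_torN h hk i0, h2 _ i, add_zero, add_sub_cancel] at h1
  have e3 : PinC N l b t τ k + τ' - (PinC N l b t τ' k + τ') =
      PinC N l b t τ k - PinC N l b t τ' k := by ring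
  rw [e3] at h1
  have hg : 0 < gN N l b t τ k :=
    H963.sym_Gnc_pos (N := N) (l := l) (t := t) h.b0 h.dvd (h.pos.trans_le h.le) h.le' hk
  exact scale_aux hn hg h1

/-- every nonzero momentum of the torus is at least `1 / N` -/
lemma mass_le_EE (hl : l ∣ N) {k : V (N / l)} (hk : k ≠ 0) {ξ : ℝ} (hξ : 0 < ξ)
    (hτ : τ ≤ 4 / ξ ^ 2) : τ ≤ (N / ξ) ^ 2 / 4 * (EE k / (l : ℝ) ^ 2) := by
  have h1 := H462.EE_gap hk
  have hlp : (0 : ℝ) < l := by exact_mod_cast H864.l_pos hl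
  have hn : (0 : ℝ) < (N / l : ℕ) := by exact_mod_cast NeZero.pos (N / l)
  have hN := H963.N_eq hl
  have h2 : 4 / ξ ^ 2 = (N / ξ) ^ 2 / 4 * ((16 / ((N / l : ℕ) : ℝ) ^ 2) / (l : ℝ) ^ 2) := by
    rw [hN]
    field_simp
    ring
  rw [h2] at hτ
  refine hτ.trans (mul_le_mul_of_nonneg_left ?_ (by positivity))
  exact div_le_div_of_nonneg_right h1 (by positivity)

lemma EE_scalar {L A τ θ K x q E a g : ℝ} (hx0 : 0 ≤ x) (hτ0 : 0 < τ)
    (hE : τ ≤ L ^ 2 / 4 * E) (hg : 0 < g) (hgA : g⁻¹ ≤ A * τ)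
    (ha : a ≤ 2 * ((Real.sqrt (θ / 2 * K) + x + q) / g ^ 2)) (hq : 0 ≤ q) :
    a ≤ A ^ 2 / 2 * L ^ 2 * (τ * Real.sqrt (θ / 2 * K) + τ * x + τ * q) * E := by
  have h1 : 0 ≤ g⁻¹ := (inv_pos.2 hg).le
  have h2 : (g⁻¹) ^ 2 ≤ (A * τ) ^ 2 := pow_le_pow_left₀ h1 hgA 2
  have h3 : 0 ≤ Real.sqrt (θ / 2 * K) + x + q := by positivity
  have h4 : a ≤ 2 * ((Real.sqrt (θ / 2 * K) + x + q) * (A * τ) ^ 2) := by
    refine ha.trans ?_
    rw [div_eq_mul_inv, ← inv_pow]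
    have := mul_le_mul_of_nonneg_left h2 h3
    linarith
  refine h4.trans ?_
  have h5 : 2 * ((Real.sqrt (θ / 2 * K) + x + q) * (A * τ) ^ 2) =
      2 * A ^ 2 * (τ * (Real.sqrt (θ / 2 * K) + x + q)) * τ := by ring
  have h6 : A ^ 2 / 2 * L ^ 2 * (τ * Real.sqrt (θ / 2 * K) + τ * x + τ * q) * E =
      2 * A ^ 2 * (τ * (Real.sqrt (θ / 2 * K) + x + q)) * (L ^ 2 / 4 * E) := by ring
  rw [h5, h6]
  exact mul_le_mul_of_nonneg_left hE (by positivity)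

/-- **(PU14)** the drop against the lattice Laplacian; `L = N/ξ`,
`D = (1/2) τ² L⁻² K4S`, momenta with `1/gN ≤ A τ` -/
theorem STN.stiff_EE (h : STN N l b t τ' τ θ e Gd) (hθ : θ ≤ 1 / 2) {k : V (N / l)} (hk : k ≠ 0)
    {ξ A D : ℝ} (hξ : 0 < ξ) (hτ : τ ≤ 4 / ξ ^ 2) (hA : (gN N l b t τ k)⁻¹ ≤ A * τ)
    (hD : 1 / 2 * τ ^ 2 * (ξ / N) ^ 2 * K4S (wN N l b t τ) (SN N l) (SN N l) ≤ D) :
    PinC N l b t τ k - PinC N l b t τ' k ≤
      A ^ 2 / 2 * (N / ξ) ^ 2 * ((N / ξ) * Real.sqrt (θ * D) + τ * Real.sqrt e +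
        τ * ((τ - τ') * e)) * (EE k / (l : ℝ) ^ 2) := by
  have hτ0 : 0 < τ := h.pos.trans_le h.le
  have hg : 0 < gN N l b t τ k :=
    H963.sym_Gnc_pos (N := N) (l := l) (t := t) h.b0 h.dvd hτ0 h.le' hk
  have hNp : (0 : ℝ) < N := by exact_mod_cast NeZero.pos N
  have hlp : (0 : ℝ) < l := by exact_mod_cast H864.l_pos h.dvd
  have h1 := EE_scalar (L := N / ξ) (Real.sqrt_nonneg e) hτ0
    (mass_le_EE h.dvd hk hξ hτ) hg hA (h.stiff hθ hk)
    (mul_nonneg (sub_nonneg.2 h.le) h.e0)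
  refine h1.trans ?_
  have hE0 : 0 ≤ EE k / (l : ℝ) ^ 2 := div_nonneg (H462.EE_nonneg k) (by positivity)
  refine mul_le_mul_of_nonneg_right (mul_le_mul_of_nonneg_left ?_ (by positivity)) hE0
  have h2 : τ * Real.sqrt (θ / 2 * K4S (wN N l b t τ) (SN N l) (SN N l)) ≤
      (N / ξ) * Real.sqrt (θ * D) := by
    have e1 : τ * Real.sqrt (θ / 2 * K4S (wN N l b t τ) (SN N l) (SN N l)) =
        Real.sqrt (τ ^ 2 * (θ / 2 * K4S (wN N l b t τ) (SN N l) (SN N l))) := by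
      rw [Real.sqrt_mul (sq_nonneg τ), Real.sqrt_sq hτ0.le]
    have e2 : (N / ξ) * Real.sqrt (θ * D) = Real.sqrt ((N / ξ) ^ 2 * (θ * D)) := by
      rw [Real.sqrt_mul (sq_nonneg _), Real.sqrt_sq (by positivity)]
    rw [e1, e2]
    refine Real.sqrt_le_sqrt ?_
    have h3 := mul_le_mul_of_nonneg_left hD (mul_nonneg h.th0 (sq_nonneg ((N : ℝ) / ξ)))
    refine le_trans (le_of_eq ?_) (h3.trans (le_of_eq ?_))
    · field_simp
    · ring
  linarith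

end torus

end

end Vale.Agent.P159.H730
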