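import Vale.Agent.P159.H730.Law
import Vale.Agent.P159.H730.NTor
import Vale.Agent.P159.H447.MassG

/-!
P159 (helper730): THETA and the drop of the self energy.

Along the channel with observation matrix `√s Q` (prior `μ`, posteriors `ps μ Q s`, `0 ≤ s ≤ p`):
`Theta s = log Z_s(0) - log Z_p(0) - log ∫ exp ((p-s) <g, A g> / 2)`, `A = Q G_p Qᵀ`, satisfies
`exp (Theta s) = E_G e^R` (`G` = Gaussian reference law of the source), and
`Theta' s = -(1/2) (tr (Q G_s Qᵀ) - tr (A (1 - (p-s) A)⁻¹))`.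
Hence: a good set at the TOP precision only bounds the drop of the self energy at every momentum.
-/

namespace Vale.Agent.P159.H730

open Finset Matrix MeasureTheory ProbabilityTheory
open Vale.Agent.P159.TM.H104 (EM Ex Cv K3 Lg li nh Gr nh_nonneg abs_li)
open Vale.Agent.P159.H37
open Vale.Agent.P159.H552 (dnp dn gau_scale gau_int_eq gau_integrable_iff spec_real meas_mulVec)
open Vale.Agent.P159.H114 (K1 dg EA)

noncomputable section

set_option linter.unusedSectionVars false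

section gauss

variable {I : Type*} [Fintype I] [DecidableEq I]

/-- Gaussian integral of a quadratic weight in spectral form -/
lemma int_expqf_diag {O : Matrix I I ℝ} {h : I → ℝ} (hO1 : O * Oᵀ = 1) (hO2 : Oᵀ * O = 1)
    (hh : ∀ i, h i < 1) :
    ∫ g, Real.exp (qf (O * diagonal h * Oᵀ) g / 2) ∂(gau I) = ∏ i, √(1 / (1 - h i)) := by
  set H : Matrix I I ℝ := O * diagonal h * Oᵀ with hH
  have hq := qf_diagO hO2 hH
  set a : I → ℝ := fun i => 1 / (1 - h i) - 1 with ha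
  have ha0 : ∀ i, 1 + a i = 1 / (1 - h i) := fun i => by simp only [ha]; ring
  have ha1 : ∀ i, 0 < 1 + a i := by
    intro i
    have : 0 < 1 - h i := by linarith [hh i]
    rw [ha0]
    positivity
  have hdn : ∀ g : I → ℝ, Real.exp ((∑ i, h i * g i ^ 2) / 2) =
      (∏ i, √(1 + a i)) * dnp a g := by
    intro g
    unfold H552.dnp H552.dn
    rw [← Finset.prod_mul_distrib]
    have h1 : ∀ i, √(1 + a i) * ((√(1 + a i))⁻¹ * Real.exp (a i / (1 + a i) * (g i ^ 2 / 2))) =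
        Real.exp (h i * g i ^ 2 / 2) := by
      intro i
      have h3 : 0 < √(1 + a i) := Real.sqrt_pos.2 (ha1 i)
      rw [← mul_assoc, mul_inv_cancel₀ h3.ne', one_mul]
      congr 1
      have h4 : 0 < 1 - h i := by linarith [hh i]
      rw [ha0]
      simp only [ha]
      field_simp
      ring
    simp only [h1]
    rw [← Real.exp_sum, Finset.sum_div]
  have h1 := gau_int_eq (A := (1 : Matrix I I ℝ)) (B := O)
    (by rw [Matrix.transpose_one, Matrix.mul_one, hO1]) (measurable_expqf H)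
  simp only [Matrix.one_mulVec] at h1
  rw [h1]
  simp only [hq, hdn]
  rw [integral_const_mul]
  have h2 := gau_scale ha1 fun _ : I → ℝ => (1 : ℝ)
  simp only [mul_one, integral_const, probReal_univ, smul_eq_mul] at h2
  rw [← h2, mul_one]
  exact Finset.prod_congr rfl fun i _ => by rw [ha0]

/-- `log` of the Gaussian integral -/
def lgd (h : I → ℝ) (q : ℝ) : ℝ := ∑ i, -(1 / 2) * Real.log (1 - q * h i)

lemma hasDerivAt_lgd {h : I → ℝ} {q : ℝ} (hh : ∀ i, q * h i < 1) :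
    HasDerivAt (lgd h) (1 / 2 * ∑ i, h i / (1 - q * h i)) q := by
  unfold lgd
  rw [Finset.mul_sum]
  refine HasDerivAt.fun_sum fun i _ => ?_
  have h0 : 0 < 1 - q * h i := by linarith [hh i]
  have h1 : HasDerivAt (fun q : ℝ => 1 - q * h i) (-(h i)) q := by
    have := ((hasDerivAt_id q).mul_const (h i)).const_sub 1
    simpa using this
  refine ((h1.log h0.ne').const_mul (-(1 / 2))).congr_deriv ?_
  ring

lemma log_prod_sqrt {h : I → ℝ} {q : ℝ} (hh : ∀ i, q * h i < 1) :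
    Real.log (∏ i, √(1 / (1 - q * h i))) = lgd h q := by
  have h0 : ∀ i, 0 < 1 / (1 - q * h i) := fun i => by
    have : 0 < 1 - q * h i := by linarith [hh i]
    positivity
  rw [Real.log_prod (fun i _ => (Real.sqrt_pos.2 (h0 i)).ne')]
  unfold lgd
  refine Finset.sum_congr rfl fun i _ => ?_
  rw [Real.log_sqrt (h0 i).le, one_div, Real.log_inv]
  ring

/-- trace of the resolvent in spectral form -/
lemma trace_res {O A : Matrix I I ℝ} {h : I → ℝ} (hO1 : O * Oᵀ = 1) (hO2 : Oᵀ * O = 1)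
    (hA : A = O * diagonal h * Oᵀ) {q : ℝ} (hh : ∀ i, q * h i < 1) :
    (A * (1 - q • A)⁻¹).trace = ∑ i, h i / (1 - q * h i) := by
  have h1 : (1 : Matrix I I ℝ) - q • A = O * diagonal (fun i => 1 - q * h i) * Oᵀ := by
    have : diagonal (fun i => 1 - q * h i) = 1 - q • diagonal h := by
      rw [← diagonal_one, ← diagonal_smul, diagonal_sub]
      rfl
    rw [this, Matrix.mul_sub, Matrix.sub_mul, Matrix.mul_one, hO1, Matrix.mul_smul,
      Matrix.smul_mul, ← hA]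
  have h2 : (1 - q • A)⁻¹ = O * diagonal (fun i => 1 / (1 - q * h i)) * Oᵀ := by
    refine Matrix.inv_eq_left_inv ?_
    rw [h1]
    calc _ = O * (diagonal (fun i => 1 / (1 - q * h i)) * ((Oᵀ * O) *
          diagonal (fun i => 1 - q * h i))) * Oᵀ := by simp only [Matrix.mul_assoc]
      _ = 1 := by
        rw [hO2, Matrix.one_mul, diagonal_mul_diagonal]
        have e : (fun i => 1 / (1 - q * h i) * (1 - q * h i)) = fun _ => (1 : ℝ) := by
          funext i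
          have : (1 : ℝ) - q * h i ≠ 0 := by linarith [hh i]
          field_simp
        rw [e, diagonal_one, Matrix.mul_one, hO1]
  rw [h2, hA]
  have e : O * diagonal h * Oᵀ * (O * diagonal (fun i => 1 / (1 - q * h i)) * Oᵀ) =
      O * diagonal (fun i => h i / (1 - q * h i)) * Oᵀ := by
    calc _ = O * (diagonal h * ((Oᵀ * O) * diagonal (fun i => 1 / (1 - q * h i)))) * Oᵀ := by
          simp only [Matrix.mul_assoc]
      _ = _ := by
        rw [hO2, Matrix.one_mul, diagonal_mul_diagonal]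
        congr 3
        funext i
        ring
  rw [e, Matrix.trace_mul_comm, ← Matrix.mul_assoc, hO2, Matrix.one_mul, trace_diagonal]

end gauss

section theta

variable {V : Type*} [Fintype V] {I : Type*} [Fintype I] [DecidableEq I]
variable {μ : (V → ℤ) → ℝ} {Q : Matrix I V ℝ} {p : ℝ}

/-- covariance of the observations at the top precision -/
abbrev Ag (μ : (V → ℤ) → ℝ) (Q : Matrix I V ℝ) (p : ℝ) : Matrix I I ℝ := Hm (ps μ Q p) Q

/-- the Gaussian normalisation -/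
def Dn (μ : (V → ℤ) → ℝ) (Q : Matrix I V ℝ) (p q : ℝ) : ℝ :=
  ∫ g, Real.exp (qf (q • Ag μ Q p) g / 2) ∂(gau I)

/-- `Θ(s)` -/
def Theta (μ : (V → ℤ) → ℝ) (Q : Matrix I V ℝ) (p s : ℝ) : ℝ :=
  Real.log (Zs (ps μ Q s) 0) - Real.log (Zs (ps μ Q p) 0) - Real.log (Dn μ Q p (p - s))

lemma Hm_sqrt {ν : (V → ℤ) → ℝ} {q : ℝ} (hq : 0 ≤ q) (Q : Matrix I V ℝ) :
    Hm ν (Real.sqrt q • Q) = q • Hm ν Q := by
  unfold Hm
  rw [transpose_smul, Matrix.smul_mul, Matrix.smul_mul, Matrix.mul_smul, smul_smul,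
    Real.mul_self_sqrt hq]

lemma post_ps {s : ℝ} (hs : s ∈ Set.Icc 0 p) (μ : (V → ℤ) → ℝ) (Q : Matrix I V ℝ) :
    post (ps μ Q s) (Real.sqrt (p - s) • Q) = ps μ Q p := by
  have h := ps_add (a := s) (b := p - s) hs.1 (sub_nonneg.2 hs.2) μ Q
  rw [add_sub_cancel] at h
  exact h

/-- **`e^Θ` is the normalisation of the channel law** -/
theorem exp_Theta {I' : Type*} [Fintype I'] (hμ : EM μ) {s : ℝ} (hs : s ∈ Set.Icc 0 p)
    {X : Matrix V I' ℝ} (hX : RL (ps μ Q s) (Real.sqrt (p - s) • Q) X) :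
    ∫ g, Real.exp (Rs (ps μ Q p) (X *ᵥ g)) ∂(gau I') = Real.exp (Theta μ Q p s) := by
  have hp := em_post hμ (Real.sqrt p • Q)
  have hsE := em_post hμ (Real.sqrt s • Q)
  have e0 := post_ps hs μ Q
  have h1 := hX.int_eq (F := fun J => Real.exp (Rs (ps μ Q p) J)) (by
    have := hX.meas_eR
    rwa [e0] at this)
  have h2 := ch_norm hsE 0 (Real.sqrt (p - s) • Q)
  rw [e0] at h1 h2
  simp only [zero_add, H114.Zs_obs hp] at h2
  rw [integral_const_mul] at h2
  rw [h1] at h2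
  have hZp := Zs_pos hp 0
  have hZs := Zs_pos hsE 0
  have hD : ∫ g, dg (ps μ Q p) (Real.sqrt (p - s) • Q) g ∂(gau I) = Dn μ Q p (p - s) := by
    unfold Dn
    refine integral_congr_ae (Filter.Eventually.of_forall fun g => ?_)
    simp only
    rw [dg_eq, Hm_sqrt (sub_nonneg.2 hs.2)]
  have hDpos : 0 < Dn μ Q p (p - s) := by
    rw [← hD]
    have := H114.int_dg_pos hsE (Real.sqrt (p - s) • Q) hX.k1
    rwa [e0] at this
  rw [hD] at h2
  unfold Theta
  rw [Real.exp_sub, Real.exp_sub, Real.exp_log hZs, Real.exp_log hZp, Real.exp_log hDpos, ← h2]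
  field_simp

/-- `log Z_s(0)` in the precision -/
lemma hasDerivAt_logZ (hμ : EM μ) (he : Ev μ) {s : ℝ} (hs : 0 < s) :
    HasDerivAt (fun s => Real.log (Zs (ps μ Q s) 0))
      (-(1 / 2) * (Q * Gm (ps μ Q s) * Qᵀ).trace) s := by
  have h1 := MM_zero_deriv (Q := Q) hμ (Gr.const 1) hs
  have hz := MM_one_pos (Q := Q) hμ hs.le 0
  have h2 := h1.log hz.ne'
  have e0 : ∀ x : ℝ, 0 ≤ x → Zs (ps μ Q x) 0 = MM μ Q (fun _ => 1) x 0 := by
    intro x hx
    have h := MM_eq hx μ Q (fun _ => 1) 0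
    rw [mulVec_zero] at h
    exact h
  have h3 : (fun s => Real.log (Zs (ps μ Q s) 0)) =ᶠ[nhds s]
      fun s => Real.log (MM μ Q (fun _ => 1) s 0) := by
    have h0 : ∀ᶠ x in nhds s, 0 < x := lt_mem_nhds hs
    exact h0.mono fun x hx => by
      simp only
      rw [e0 x hx.le]
  refine (h2.congr_of_eventuallyEq h3).congr_deriv ?_
  have hps := em_post hμ (Real.sqrt s • Q)
  have e2 : MM μ Q (fun h => 1 * nq Q h) s 0 =
      ∑ i, MM μ Q (fun h => li (Q i) h * li (Q i) h) s 0 := by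
    rw [← MM_sum hμ _ (fun i => (Gr.li (Q i)).mul (Gr.li (Q i))) hs.le]
    congr 1
    funext h
    unfold nq
    rw [one_mul]
    exact Finset.sum_congr rfl fun i _ => by ring
  rw [e2, mul_div_assoc, Finset.sum_div]
  congr 1
  unfold Matrix.trace
  refine Finset.sum_congr rfl fun i _ => ?_
  rw [Matrix.diag_apply, QAQ_apply, ← Ex_zero_MM hs.le]
  unfold Gm
  rw [bf_Cm_comm hps]
  unfold Cv
  rw [H114.Ex_li_zero (ev_post he _) (Q i), zero_mul, sub_zero]

lemma cont_logZ (hμ : EM μ) : ContinuousOn (fun s => Real.log (Zs (ps μ Q s) 0)) (Set.Ici 0) := by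
  have c2 := MM_cont_curve (Q := Q) hμ (Gr.const 1) 0
  simp only [smul_zero] at c2
  refine (c2.log fun s hs => (MM_one_pos hμ hs 0).ne').congr fun s hs => ?_
  have h := MM_eq hs μ Q (fun _ => 1) 0
  rw [mulVec_zero] at h
  simp only
  rw [← h]
  rfl

/-- spectral form of `A`, eigenvalues below `1/p` -/
lemma spec_Ag (hμ : EM μ) (hK : K1 (ps μ Q p)) (hp : 0 < p) :
    ∃ (O : Matrix I I ℝ) (h : I → ℝ), O * Oᵀ = 1 ∧ Oᵀ * O = 1 ∧
      Ag μ Q p = O * diagonal h * Oᵀ ∧ ∀ i, 0 ≤ h i ∧ p * h i < 1 := by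
  have h1 := int_Hm (μ' := μ) (P := Real.sqrt p • Q) hμ hK
  have e : Hm (ps μ Q p) (Real.sqrt p • Q) = p • Ag μ Q p := Hm_sqrt hp.le Q
  rw [e] at h1
  have hs : (p • Ag μ Q p)ᵀ = p • Ag μ Q p := by
    rw [transpose_smul, Hm_symm]
  have hE := em_post hμ (Real.sqrt p • Q)
  have h0 : ∀ u, 0 ≤ qf (p • Ag μ Q p) u := fun u => by
    rw [← e]
    exact Hm_nonneg hE _ u
  obtain ⟨O, h, hO1, hO2, hH, hh⟩ := spec_tilt hs h0 h1
  refine ⟨O, fun i => h i / p, hO1, hO2, ?_, fun i => ⟨div_nonneg (hh i).1 hp.le, ?_⟩⟩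
  · have e2 : diagonal (fun i => h i / p) = p⁻¹ • diagonal h := by
      rw [← diagonal_smul]
      congr 1
      funext i
      rw [Pi.smul_apply, smul_eq_mul, div_eq_inv_mul]
    rw [e2, Matrix.mul_smul, Matrix.smul_mul, ← hH, smul_smul, inv_mul_cancel₀ hp.ne', one_smul]
  · rw [mul_div_cancel₀ _ hp.ne']
    exact (hh i).2

lemma log_Dn {O : Matrix I I ℝ} {h : I → ℝ} (hO1 : O * Oᵀ = 1) (hO2 : Oᵀ * O = 1)
    (hA : Ag μ Q p = O * diagonal h * Oᵀ) {q : ℝ} (hq : ∀ i, q * h i < 1) :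
    Real.log (Dn μ Q p q) = lgd h q := by
  unfold Dn
  have e : q • Ag μ Q p = O * diagonal (fun i => q * h i) * Oᵀ := by
    have e2 : diagonal (fun i => q * h i) = q • diagonal h := by
      rw [← diagonal_smul]
      rfl
    rw [e2, Matrix.mul_smul, Matrix.smul_mul, ← hA]
  rw [e, int_expqf_diag hO1 hO2 hq, log_prod_sqrt hq]

lemma mul_lt_of_le {h q p : ℝ} (h0 : 0 ≤ h) (hp : p * h < 1) (hq : q ≤ p) : q * h < 1 :=
  (mul_le_mul_of_nonneg_right hq h0).trans_lt hp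

/-- **derivative of `Θ`** -/
theorem hasDerivAt_Theta (hμ : EM μ) (he : Ev μ) (hK : K1 (ps μ Q p)) {s : ℝ}
    (hs : s ∈ Set.Ioo 0 p) :
    HasDerivAt (Theta μ Q p) (-(1 / 2) * ((Q * Gm (ps μ Q s) * Qᵀ).trace -
      (Ag μ Q p * (1 - (p - s) • Ag μ Q p)⁻¹).trace)) s := by
  have hp : 0 < p := hs.1.trans hs.2
  obtain ⟨O, h, hO1, hO2, hA, hh⟩ := spec_Ag hμ hK hp
  have hlt : ∀ q, q ≤ p → ∀ i, q * h i < 1 := fun q hq i =>
    mul_lt_of_le (hh i).1 (hh i).2 hq
  have h1 := hasDerivAt_logZ (Q := Q) hμ he hs.1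
  have h2 : HasDerivAt (fun s => lgd h (p - s)) (-(1 / 2 * ∑ i, h i / (1 - (p - s) * h i))) s := by
    have h3 := hasDerivAt_lgd (h := h) (q := p - s) (hlt _ (by linarith [hs.1]))
    have h4 : HasDerivAt (fun s : ℝ => p - s) (-1) s := by
      simpa using (hasDerivAt_id s).const_sub p
    refine (h3.comp s h4).congr_deriv ?_
    ring
  have h5 := (h1.sub_const (Real.log (Zs (ps μ Q p) 0))).sub h2
  have h6 : Theta μ Q p =ᶠ[nhds s] fun s => Real.log (Zs (ps μ Q s) 0) -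
      Real.log (Zs (ps μ Q p) 0) - lgd h (p - s) := by
    have h0 : ∀ᶠ x in nhds s, 0 < x := lt_mem_nhds hs.1
    refine h0.mono fun x hx => ?_
    unfold Theta
    rw [log_Dn hO1 hO2 hA (hlt _ (by linarith))]
  refine (h5.congr_of_eventuallyEq h6).congr_deriv ?_
  rw [trace_res hO1 hO2 hA (hlt _ (by linarith [hs.1]))]
  ring

theorem cont_Theta (hμ : EM μ) (hK : K1 (ps μ Q p)) (hp : 0 < p) :
    ContinuousOn (Theta μ Q p) (Set.Icc 0 p) := by
  obtain ⟨O, h, hO1, hO2, hA, hh⟩ := spec_Ag hμ hK hp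
  have hlt : ∀ q, q ≤ p → ∀ i, q * h i < 1 := fun q hq i =>
    mul_lt_of_le (hh i).1 (hh i).2 hq
  have c1 : ContinuousOn (fun s => Real.log (Zs (ps μ Q s) 0)) (Set.Icc 0 p) :=
    (cont_logZ (Q := Q) hμ).mono fun x hx => hx.1
  have c2 : ContinuousOn (fun s => lgd h (p - s)) (Set.Icc 0 p) := by
    intro s hs
    have h3 := (hasDerivAt_lgd (h := h) (q := p - s) (hlt _ (by linarith [hs.1]))).continuousAt
    have h4 : ContinuousAt (fun s : ℝ => p - s) s := by fun_prop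
    exact (ContinuousAt.comp (f := fun s : ℝ => p - s) (g := lgd h) h3 h4).continuousWithinAt
  refine ((c1.sub (continuousOn_const (c := Real.log (Zs (ps μ Q p) 0)))).sub c2).congr
    fun s hs => ?_
  unfold Theta
  rw [log_Dn hO1 hO2 hA (hlt _ (by linarith [hs.1]))]
  rfl

/-- `Θ ≥ 0` -/
theorem Theta_nonneg (hμ : EM μ) (hK : K1 (ps μ Q p)) {s : ℝ} (hs : s ∈ Set.Icc 0 p) :
    0 ≤ Theta μ Q p s := by
  have e0 := post_ps hs μ Q
  obtain ⟨X, hX⟩ := exists_RL (em_post hμ (Real.sqrt s • Q)) (P := Real.sqrt (p - s) • Q)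
    (by rw [e0]; exact hK)
  have h1 := hX.one_le
  rw [e0, exp_Theta hμ hs hX] at h1
  exact Real.one_le_exp_iff.1 h1

/-- **`Θ` from a good set at the top precision** -/
theorem Theta_le (hμ : EM μ) (hK : K1 (ps μ Q p)) {s : ℝ} (hs : s ∈ Set.Icc 0 p)
    {Gd : Set (V → ℝ)} {ρ pb : ℝ} (hG : MeasurableSet Gd) (hR : ∀ J ∈ Gd, Rs (ps μ Q p) J ≤ ρ)
    (hp : 1 - pb ≤ Ech (ps μ Q s) 0 (Real.sqrt (p - s) • Q) (Gd.indicator fun _ => (1 : ℝ)))
    (hpb : pb < 1) : Theta μ Q p s ≤ ρ - Real.log (1 - pb) := by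
  have e0 := post_ps hs μ Q
  obtain ⟨X, hX⟩ := exists_RL (em_post hμ (Real.sqrt s • Q)) (P := Real.sqrt (p - s) • Q)
    (by rw [e0]; exact hK)
  have h1 := hX.norm_le hG (by rw [e0]; exact hR) hp
  rw [e0, exp_Theta hμ hs hX] at h1
  have h2 : 0 < 1 - pb := by linarith
  have h3 := Real.log_le_log (mul_pos h2 (Real.exp_pos _)) h1
  rw [Real.log_mul h2.ne' (Real.exp_pos _).ne', Real.log_exp, Real.log_exp] at h3
  linarith

/-- **THETA ⇒ DROP, abstract form**: if the trace difference is at least `κ` on `(0, σ)` then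
`σ κ ≤ 2 Θ(0)` -/
theorem theta_drop (hμ : EM μ) (he : Ev μ) (hK : K1 (ps μ Q p)) {σ κ : ℝ} (hσ : 0 < σ) (hσp : σ ≤ p)
    (hκ : ∀ s ∈ Set.Ioo 0 σ, κ ≤ (Q * Gm (ps μ Q s) * Qᵀ).trace -
      (Ag μ Q p * (1 - (p - s) • Ag μ Q p)⁻¹).trace) :
    σ * κ ≤ 2 * Theta μ Q p 0 := by
  have hp : 0 < p := hσ.trans_le hσp
  have hc := (cont_Theta hμ hK hp).mono (Set.Icc_subset_Icc_right hσp)
  have hd : ∀ s ∈ Set.Ioo 0 σ, HasDerivAt (Theta μ Q p) _ s := fun s hs =>
    hasDerivAt_Theta hμ he hK ⟨hs.1, hs.2.trans_le hσp⟩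
  obtain ⟨s, hs, h1⟩ := exists_hasDerivAt_eq_slope (Theta μ Q p) _ hσ hc hd
  have h2 := hκ s hs
  have h3 := Theta_nonneg hμ hK (s := σ) ⟨hσ.le, hσp⟩
  rw [sub_zero] at h1
  have h4 : -(1 / 2) * ((Q * Gm (ps μ Q s) * Qᵀ).trace -
      (Ag μ Q p * (1 - (p - s) • Ag μ Q p)⁻¹).trace) * σ = Theta μ Q p σ - Theta μ Q p 0 := by
    rw [h1]
    field_simp
  nlinarith [mul_le_mul_of_nonneg_left h2 hσ.le]

end theta

/-! ### translation invariant observations -/

section ti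

open Vale.Agent.P159.TM.Spec (V)
open Vale.Agent.P159.H864 (TI sym)

variable {n : ℕ} [NeZero n] {V' : Type*} [Fintype V'] {μ : (V' → ℤ) → ℝ}
  {Q : Matrix (V n) V' ℝ} {p : ℝ}

/-- trace of the resolvent, symbol form -/
lemma trace_res_ti {A : Matrix (V n) (V n) ℝ} (hA : TI A) {q : ℝ}
    (h : ∀ k, 0 < 1 - q * sym A k) :
    (A * (1 - q • A)⁻¹).trace = ∑ k, sym A k / (1 - q * sym A k) := by
  have h1 : TI (1 : Matrix (V n) (V n) ℝ) := by
    have := H864.ti_smul_one (N := n) 1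
    rwa [one_smul] at this
  have h2 : TI (1 - q • A) := h1.sub (hA.smul q)
  have h3 : ∀ k, sym (1 - q • A) k = 1 - q * sym A k := fun k => by
    rw [H864.sym_sub, H864.sym_smul, H864.sym_one]
  have h4 : ∀ k, sym (1 - q • A) k ≠ 0 := fun k => by
    rw [h3]
    exact (h k).ne'
  rw [(hA.mul (H864.TI.inv h2)).trace_eq]
  refine Finset.sum_congr rfl fun k _ => ?_
  rw [H864.sym_mul hA (H864.TI.inv h2), H864.sym_inv' h2 h4, h3, div_eq_mul_inv]

/-- **THETA ⇒ DROP in symbols**: `g s k` the symbol of the observed covariance at precision `s` -/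
theorem theta_drop_ti (hμ : EM μ) (he : Ev μ) (hK : K1 (ps μ Q p)) {σ : ℝ} (hσ : 0 < σ)
    (hσp : σ ≤ p) {g : ℝ → V n → ℝ} (hti : ∀ s ∈ Set.Icc 0 p, TI (Q * Gm (ps μ Q s) * Qᵀ))
    (hg : ∀ s ∈ Set.Icc 0 p, ∀ k, sym (Q * Gm (ps μ Q s) * Qᵀ) k = g s k)
    (hlt : ∀ k, 0 ≤ g p k ∧ p * g p k < 1) {d : V n → ℝ}
    (hd : ∀ s ∈ Set.Ioo 0 σ, ∀ k, d k ≤ g s k - g p k / (1 - (p - s) * g p k)) :
    σ * ∑ k, d k ≤ 2 * Theta μ Q p 0 := by
  have hp : 0 < p := hσ.trans_le hσp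
  have hpI : p ∈ Set.Icc 0 p := ⟨hp.le, le_rfl⟩
  refine theta_drop hμ he hK hσ hσp fun s hs => ?_
  have hsI : s ∈ Set.Icc 0 p := ⟨hs.1.le, hs.2.le.trans hσp⟩
  have hA : TI (Ag μ Q p) := hti p hpI
  have hAs : ∀ k, sym (Ag μ Q p) k = g p k := hg p hpI
  rw [trace_res_ti hA (fun k => by
    rw [hAs]
    have h1 := mul_le_mul_of_nonneg_right (by linarith [hs.1] : p - s ≤ p) (hlt k).1
    linarith [(hlt k).2]), (hti s hsI).trace_eq, ← Finset.sum_sub_distrib]
  refine Finset.sum_le_sum fun k _ => ?_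
  rw [hg s hsI, hAs]
  exact hd s hs k

/-- elementary lower bound of the difference of two covariances -/
lemma inv_drop {x σ px ps pt : ℝ} (hx : 0 < x) (hxσ : x ≤ σ) (h0 : 0 ≤ px) (h1 : px ≤ ps)
    (h2 : ps ≤ pt) : (pt - ps) / (σ + pt) ^ 2 ≤ (x + px)⁻¹ - (x + pt)⁻¹ := by
  have a1 : 0 < x + px := by linarith
  have a2 : 0 < x + pt := by linarith
  have a3 : 0 < σ + pt := by linarith
  rw [inv_sub_inv a1.ne' a2.ne', div_le_div_iff₀ (by positivity) (by positivity)]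
  have b1 : (x + px) * (x + pt) ≤ (σ + pt) ^ 2 := by
    rw [pow_two]
    exact mul_le_mul (by linarith) (by linarith) a2.le a3.le
  have b2 : 0 ≤ pt - ps := by linarith
  have b3 : pt - ps ≤ x + pt - (x + px) := by linarith
  calc (pt - ps) * ((x + px) * (x + pt)) ≤ (pt - ps) * (σ + pt) ^ 2 :=
        mul_le_mul_of_nonneg_left b1 b2
    _ ≤ (x + pt - (x + px)) * (σ + pt) ^ 2 := mul_le_mul_of_nonneg_right b3 (by positivity)

end ti


end

end Vale.Agent.P159.H730
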