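import Vale.Agent.P159.H730.Immse
import Vale.Agent.P159.H789.Ray
import Vale.Agent.P159.H114.Lmmse

/-!
P159 (helper730): along the channel with observation matrix `√s Q`, prior `μ`, posterior
`μ_s = post μ (√s Q)`, direction `u` of the observed space, `a = Qᵀ u`:

* `hasDerivAt_G0` : derivative of the covariance at source `0`;
* `hasDerivAt_Cb` : derivative of the mean posterior covariance (I-MMSE);
* `vb` : `E Σ_i Cov_J(a, q_i)² - Σ_i (E Cov_J(a, q_i))² ≤ (θ/2) Σ_i κ₄(a,a,q_i,q_i) + (bad set)`.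
-/

namespace Vale.Agent.P159.H730

open Finset Matrix MeasureTheory
open Vale.Agent.P159.TM.H104 (EM Ex Cv K3 Lg li nh Gr nh_nonneg abs_li)
open Vale.Agent.P159.H37

noncomputable section

set_option linter.unusedSectionVars false

variable {V : Type*} [Fintype V] {I : Type*} [Fintype I]
variable {μ : (V → ℤ) → ℝ} {Q : Matrix I V ℝ} {c : ℝ}

/-- the posterior weight at precision `s` -/
abbrev ps (μ : (V → ℤ) → ℝ) (Q : Matrix I V ℝ) (s : ℝ) : (V → ℤ) → ℝ := post μ (Real.sqrt s • Q)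

/-- the law of the source at precision `s` -/
abbrev Es (μ : (V → ℤ) → ℝ) (Q : Matrix I V ℝ) (s : ℝ) (Φ : (V → ℝ) → ℝ) : ℝ :=
  Ech μ 0 (Real.sqrt s • Q) Φ

/-! ### source zero -/

lemma MM_zero_deriv (hμ : EM μ) {F : (V → ℤ) → ℝ} (hF : Gr F) {s : ℝ} (hs : 0 < s) :
    HasDerivAt (fun s => MM μ Q F s 0) (-(1 / 2) * MM μ Q (fun h => F h * nq Q h) s 0) s := by
  have h := MM_curve (Q := Q) hμ hF hs 0
  simp only [smul_zero] at h
  refine h.congr_deriv ?_
  rw [← MM_cmul]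
  congr 1
  funext h
  unfold ww
  simp only [Pi.zero_apply, zero_mul, Finset.sum_const_zero, mul_zero, add_zero]
  ring

lemma Ex_zero_MM {s : ℝ} (hs : 0 ≤ s) (F : (V → ℤ) → ℝ) :
    Ex (ps μ Q s) 0 F = MM μ Q F s 0 / MM μ Q (fun _ => 1) s 0 := by
  have e : (0 : V → ℝ) = Qᵀ *ᵥ (0 : I → ℝ) := by rw [mulVec_zero]
  unfold Ex
  conv_lhs => rw [e]
  rw [MM_eq hs, MM_eq hs]

/-- derivative of expectations at source `0` -/
lemma Ex_zero_deriv (hμ : EM μ) {F : (V → ℤ) → ℝ} (hF : Gr F) {s : ℝ} (hs : 0 < s) :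
    HasDerivAt (fun s => Ex (ps μ Q s) 0 F)
      (-(1 / 2) * ∑ i, (Ex (ps μ Q s) 0 (fun h => F h * (li (Q i) h * li (Q i) h)) -
        Ex (ps μ Q s) 0 F * Ex (ps μ Q s) 0 fun h => li (Q i) h * li (Q i) h)) s := by
  have h1 := MM_zero_deriv (Q := Q) hμ hF hs
  have h2 := MM_zero_deriv (Q := Q) hμ (Gr.const 1) hs
  have hz := (MM_one_pos (Q := Q) hμ hs.le 0).ne'
  have h3 := h1.div h2 hz
  have h4 : (fun s => Ex (ps μ Q s) 0 F) =ᶠ[nhds s]
      fun s => MM μ Q F s 0 / MM μ Q (fun _ => 1) s 0 := by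
    have h0 : ∀ᶠ x in nhds s, 0 < x := lt_mem_nhds hs
    exact h0.mono fun x hx => Ex_zero_MM hx.le F
  refine (h3.congr_of_eventuallyEq h4).congr_deriv ?_
  have e1 : MM μ Q (fun h => F h * nq Q h) s 0 =
      ∑ i, MM μ Q (fun h => F h * (li (Q i) h * li (Q i) h)) s 0 := by
    rw [← MM_sum hμ _ (fun i => hF.mul ((Gr.li (Q i)).mul (Gr.li (Q i)))) hs.le]
    congr 1
    funext h
    unfold nq
    rw [Finset.mul_sum]
    exact Finset.sum_congr rfl fun i _ => by ring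
  have e2 : MM μ Q (fun h => 1 * nq Q h) s 0 =
      ∑ i, MM μ Q (fun h => li (Q i) h * li (Q i) h) s 0 := by
    rw [← MM_sum hμ _ (fun i => (Gr.li (Q i)).mul (Gr.li (Q i))) hs.le]
    congr 1
    funext h
    unfold nq
    rw [one_mul]
    exact Finset.sum_congr rfl fun i _ => by ring
  rw [e1, e2]
  simp only [Ex_zero_MM hs.le]
  simp only [Finset.sum_sub_distrib, ← Finset.mul_sum, ← Finset.sum_div]
  field_simp
  ring

lemma Ex_zero_cont (hμ : EM μ) {F : (V → ℤ) → ℝ} (hF : Gr F) :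
    ContinuousOn (fun s => Ex (ps μ Q s) 0 F) (Set.Ici 0) := by
  have c1 := MM_cont_curve (Q := Q) hμ hF 0
  have c2 := MM_cont_curve (Q := Q) hμ (Gr.const 1) 0
  simp only [smul_zero] at c1 c2
  refine (c1.div c2 fun s hs => (MM_one_pos hμ hs 0).ne').congr fun s hs => ?_
  exact Ex_zero_MM hs F

/-- **derivative of the covariance at source `0`** -/
theorem hasDerivAt_G0 (hμ : EM μ) (he : Ev μ) (a : V → ℝ) {s : ℝ} (hs : 0 < s) :
    HasDerivAt (fun s => Cv (ps μ Q s) 0 (li a) (li a))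
      (-(1 / 2) * ∑ i, K4 (ps μ Q s) a a (Q i) (Q i) -
        ∑ i, Cv (ps μ Q s) 0 (li a) (li (Q i)) ^ 2) s := by
  have hz : ∀ (s : ℝ) (b : V → ℝ), Ex (ps μ Q s) 0 (li b) = 0 := fun s b =>
    H114.Ex_li_zero (ev_post he _) b
  have e1 : (fun s => Cv (ps μ Q s) 0 (li a) (li a)) =
      fun s => Ex (ps μ Q s) 0 fun h => li a h * li a h := by
    funext s
    unfold Cv
    rw [hz, zero_mul, sub_zero]
  rw [e1]
  refine (Ex_zero_deriv (Q := Q) hμ ((Gr.li a).mul (Gr.li a)) hs).congr_deriv ?_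
  rw [Finset.mul_sum, Finset.mul_sum, ← Finset.sum_sub_distrib]
  refine Finset.sum_congr rfl fun i _ => ?_
  have e2 : Cv (ps μ Q s) 0 (li a) (li (Q i)) = Ex (ps μ Q s) 0 fun h => li a h * li (Q i) h := by
    unfold Cv
    rw [hz, zero_mul, sub_zero]
  rw [e2]
  unfold K4
  have e3 : (fun h : V → ℤ => li a h * li a h * (li (Q i) h * li (Q i) h)) =
      fun h => li a h * li a h * li (Q i) h * li (Q i) h := by
    funext h; ring
  rw [e3]
  ring

theorem cont_G0 (hμ : EM μ) (he : Ev μ) (a : V → ℝ) :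
    ContinuousOn (fun s => Cv (ps μ Q s) 0 (li a) (li a)) (Set.Ici 0) := by
  have e1 : (fun s => Cv (ps μ Q s) 0 (li a) (li a)) =
      fun s => Ex (ps μ Q s) 0 fun h => li a h * li a h := by
    funext s
    unfold Cv
    rw [H114.Ex_li_zero (ev_post he _) a, zero_mul, sub_zero]
  rw [e1]
  exact Ex_zero_cont hμ ((Gr.li a).mul (Gr.li a))

/-! ### the mean posterior covariance -/

lemma Es_Cv (hμ : EM μ) (s : ℝ) (a : V → ℝ) :
    Es μ Q s (fun J => Cv (ps μ Q s) J (li a) (li a)) =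
      Ex μ 0 (fun h => li a h * li a h) - Es μ Q s fun J => Ex (ps μ Q s) J (li a) ^ 2 := by
  refine (H114.Ech_tot hμ 0 (Real.sqrt s • Q) a a).trans ?_
  congr 2
  funext J
  ring

/-- **I-MMSE for the mean posterior covariance** -/
theorem hasDerivAt_Cb (hG : GM μ Q c) (a : V → ℝ) {s : ℝ} (hs : 0 < s) :
    HasDerivAt (fun s => Es μ Q s fun J => Cv (ps μ Q s) J (li a) (li a))
      (-Es μ Q s fun J => ∑ i, Cv (ps μ Q s) J (li a) (li (Q i)) ^ 2) s := by
  have e : (fun s => Es μ Q s fun J => Cv (ps μ Q s) J (li a) (li a)) = fun s =>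
      Ex μ 0 (fun h => li a h * li a h) - Es μ Q s fun J => Ex (ps μ Q s) J (li a) ^ 2 :=
    funext fun s => Es_Cv hG.em s a
  rw [e]
  have h := (immse hG (Gr.li a) hs).const_sub (Ex μ 0 fun h => li a h * li a h)
  exact h

theorem cont_Cb (hG : GM μ Q c) (a : V → ℝ) :
    ContinuousOn (fun s => Es μ Q s fun J => Cv (ps μ Q s) J (li a) (li a)) (Set.Ici 0) := by
  have e : (fun s => Es μ Q s fun J => Cv (ps μ Q s) J (li a) (li a)) = fun s =>
      Ex μ 0 (fun h => li a h * li a h) - Es μ Q s fun J => Ex (ps μ Q s) J (li a) ^ 2 :=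
    funext fun s => Es_Cv hG.em s a
  rw [e]
  exact continuousOn_const.sub (immse_cont hG (Gr.li a))

/-- at precision `0` nothing is observed -/
lemma ps_zero (μ : (V → ℤ) → ℝ) (Q : Matrix I V ℝ) : ps μ Q 0 = μ := by
  funext h
  rw [ps, post_sqrt le_rfl]
  simp

lemma Es_zero (hμ : EM μ) (Φ : (V → ℝ) → ℝ) : Es μ Q 0 Φ = Φ 0 := by
  have e : Real.sqrt 0 • Q = 0 := by simp
  unfold Es Ech
  rw [e]
  simp only [transpose_zero, zero_mulVec, add_zero]
  have hp : Zs (post μ (0 : Matrix I V ℝ)) 0 ≠ 0 := (Zs_pos (em_post hμ _) 0).ne'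
  simp only [integral_const, probReal_univ, one_smul]
  exact mul_div_cancel_right₀ _ hp

/-! ### integrability of the posterior covariances -/

lemma chi_Cv (hμ : EM μ) (P : Matrix I V ℝ) {F G : (V → ℤ) → ℝ} (hF : Gr F) (hG : Gr G) :
    H663.ChI μ 0 P fun J => Cv (post μ P) J F G := by
  have h1 := H663.ChI.of_Ex hμ 0 P (hF.mul hG)
  have h2 := H663.ChI.of_Ex_mul hμ 0 P hF hG
  exact h1.sub h2

lemma chi_Cv_sq (hμ : EM μ) (P : Matrix I V ℝ) {F G : (V → ℤ) → ℝ} (hF : Gr F) (hG : Gr G) :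
    H663.ChI μ 0 P fun J => Cv (post μ P) J F G ^ 2 := by
  have hp := em_post hμ P
  have h1 : H663.ChI μ 0 P fun J => 2 * Ex (post μ P) J (fun h => (F h * G h) * (F h * G h)) +
      2 * (Ex (post μ P) J (fun h => (F h * F h) * (F h * F h)) +
        Ex (post μ P) J (fun h => (G h * G h) * (G h * G h))) :=
    ((H663.ChI.of_Ex hμ 0 P ((hF.mul hG).mul (hF.mul hG))).cmul 2).add
      (((H663.ChI.of_Ex hμ 0 P ((hF.mul hF).mul (hF.mul hF))).add
        (H663.ChI.of_Ex hμ 0 P ((hG.mul hG).mul (hG.mul hG)))).cmul 2)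
  refine H663.ChI.mono hμ ((TM.H104.continuous_Cv hp hF hG).pow 2).measurable h1 fun J => ?_
  have a1 := H114.Cv_self_nonneg hp J (hF.mul hG)
  have a2 := H114.Cv_self_nonneg hp J (hF.mul hF)
  have a3 := H114.Cv_self_nonneg hp J (hG.mul hG)
  have a4 := H114.Cv_self_nonneg hp J hF
  have a5 := H114.Cv_self_nonneg hp J hG
  unfold Cv at *
  beta_reduce at a1 a2 a3
  set x := Ex (post μ P) J fun h => F h * G h
  set f := Ex (post μ P) J F
  set g := Ex (post μ P) J G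
  set ff := Ex (post μ P) J fun h => F h * F h
  set gg := Ex (post μ P) J fun h => G h * G h
  rw [abs_of_nonneg (sq_nonneg _)]
  have b1 : (x - f * g) ^ 2 ≤ 2 * (x * x) + 2 * (f * g) ^ 2 := by
    nlinarith [sq_nonneg (x + f * g)]
  have b2 : (f * g) ^ 2 ≤ ff * gg := by
    have : (f * g) ^ 2 = (f * f) * (g * g) := by ring
    rw [this]
    exact mul_le_mul (by linarith) (by linarith) (mul_self_nonneg _)
      (le_trans (mul_self_nonneg f) (by linarith))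
  have b3 : 2 * (ff * gg) ≤ ff * ff + gg * gg := by nlinarith [sq_nonneg (ff - gg)]
  have b4 := mul_self_nonneg ff
  have b5 := mul_self_nonneg gg
  linarith

/-! ### the variance of the posterior covariance -/

/-- `|(C_J - G) a|²` in the observed space -/
def dev (μ : (V → ℤ) → ℝ) (Q : Matrix I V ℝ) (a : V → ℝ) (s : ℝ) (J : V → ℝ) : ℝ :=
  ∑ i, (Cv (ps μ Q s) J (li a) (li (Q i)) - Cv (ps μ Q s) 0 (li a) (li (Q i))) ^ 2

lemma dev_nonneg (μ : (V → ℤ) → ℝ) (Q : Matrix I V ℝ) (a : V → ℝ) (s : ℝ) (J : V → ℝ) :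
    0 ≤ dev μ Q a s J := Finset.sum_nonneg fun _ _ => sq_nonneg _

lemma measurable_dev (hμ : EM μ) (a : V → ℝ) (s : ℝ) : Measurable (dev μ Q a s) := by
  unfold dev
  refine (continuous_finsetSum _ fun i _ => ?_).measurable
  exact ((TM.H104.continuous_Cv (em_post hμ _) (Gr.li a) (Gr.li (Q i))).sub
    continuous_const).pow 2

lemma chi_sum {κ : Type*} {J₁ : V → ℝ} {P : Matrix I V ℝ} (t : Finset κ)
    {Φ : κ → (V → ℝ) → ℝ} (h : ∀ i, H663.ChI μ J₁ P (Φ i)) :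
    H663.ChI μ J₁ P fun J => ∑ i ∈ t, Φ i J := by
  classical
  induction t using Finset.induction_on with
  | empty =>
    unfold H663.ChI
    simp
  | insert a t ha ih =>
    simp only [Finset.sum_insert ha]
    exact (h a).add ih

lemma Ech_sum {κ : Type*} {J₁ : V → ℝ} {P : Matrix I V ℝ} (t : Finset κ)
    {Φ : κ → (V → ℝ) → ℝ} (h : ∀ i, H663.ChI μ J₁ P (Φ i)) :
    Ech μ J₁ P (fun J => ∑ i ∈ t, Φ i J) = ∑ i ∈ t, Ech μ J₁ P (Φ i) := by
  classical
  induction t using Finset.induction_on with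
  | empty => simp [Ech]
  | insert a t ha ih =>
    simp only [Finset.sum_insert ha]
    rw [H663.Ech_add' (h a) (chi_sum t h), ih]

lemma chi_const (hμ : EM μ) (J₁ : V → ℝ) (P : Matrix I V ℝ) (x : ℝ) :
    H663.ChI μ J₁ P fun _ => x := H663.ChI.of_EGr hμ J₁ P (EGr.const x)

lemma chi_dev (hμ : EM μ) (a : V → ℝ) (s : ℝ) :
    H663.ChI μ 0 (Real.sqrt s • Q) (dev μ Q a s) := by
  unfold dev
  refine chi_sum _ fun i => ?_
  have h1 := chi_Cv_sq hμ (Real.sqrt s • Q) (Gr.li a) (Gr.li (Q i))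
  have h2 := (chi_Cv hμ (Real.sqrt s • Q) (Gr.li a) (Gr.li (Q i))).cmul
    (2 * Cv (ps μ Q s) 0 (li a) (li (Q i)))
  have h3 := chi_const hμ 0 (Real.sqrt s • Q) (Cv (ps μ Q s) 0 (li a) (li (Q i)) ^ 2)
  have h4 := (h1.sub h2).add h3
  have e : (fun J => (Cv (ps μ Q s) J (li a) (li (Q i)) -
      Cv (ps μ Q s) 0 (li a) (li (Q i))) ^ 2) = fun J =>
      Cv (post μ (Real.sqrt s • Q)) J (li a) (li (Q i)) ^ 2 -
        2 * Cv (ps μ Q s) 0 (li a) (li (Q i)) *
          Cv (post μ (Real.sqrt s • Q)) J (li a) (li (Q i)) +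
        Cv (ps μ Q s) 0 (li a) (li (Q i)) ^ 2 := by
    funext J; ring
  rw [e]
  exact h4

/-- the variance is at most the mean square distance to `G`; and it is nonnegative -/
lemma var_le (hμ : EM μ) (a : V → ℝ) (s : ℝ) :
    (∑ i, (Es μ Q s fun J => Cv (ps μ Q s) J (li a) (li (Q i))) ^ 2 ≤
      Es μ Q s fun J => ∑ i, Cv (ps μ Q s) J (li a) (li (Q i)) ^ 2) ∧
    (Es μ Q s fun J => ∑ i, Cv (ps μ Q s) J (li a) (li (Q i)) ^ 2) ≤
      ∑ i, (Es μ Q s fun J => Cv (ps μ Q s) J (li a) (li (Q i))) ^ 2 + Es μ Q s (dev μ Q a s) := by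
  have hi2 : ∀ i, H663.ChI μ 0 (Real.sqrt s • Q) fun J => Cv (ps μ Q s) J (li a) (li (Q i)) ^ 2 :=
    fun i => chi_Cv_sq hμ (Real.sqrt s • Q) (Gr.li a) (Gr.li (Q i))
  have hi1 : ∀ i, H663.ChI μ 0 (Real.sqrt s • Q) fun J => Cv (ps μ Q s) J (li a) (li (Q i)) :=
    fun i => chi_Cv hμ (Real.sqrt s • Q) (Gr.li a) (Gr.li (Q i))
  -- `E (X - x)² = E X² - 2 x E X + x²`
  have key : ∀ (i : I) (x : ℝ), (Es μ Q s fun J =>
      (Cv (ps μ Q s) J (li a) (li (Q i)) - x) ^ 2) =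
      (Es μ Q s fun J => Cv (ps μ Q s) J (li a) (li (Q i)) ^ 2) -
        2 * x * (Es μ Q s fun J => Cv (ps μ Q s) J (li a) (li (Q i))) + x ^ 2 := by
    intro i x
    have e : (fun J => (Cv (ps μ Q s) J (li a) (li (Q i)) - x) ^ 2) = fun J =>
        (Cv (ps μ Q s) J (li a) (li (Q i)) ^ 2 - 2 * x * Cv (ps μ Q s) J (li a) (li (Q i))) +
          x ^ 2 := by
      funext J; ring
    rw [e]
    unfold Es
    rw [H663.Ech_add' ((hi2 i).sub ((hi1 i).cmul (2 * x))) (chi_const hμ 0 _ _),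
      H663.Ech_sub' (hi2 i) ((hi1 i).cmul (2 * x)), Ech_cmul, Ech_const hμ]
  have hnn : ∀ (i : I) (x : ℝ), 0 ≤ Es μ Q s fun J =>
      (Cv (ps μ Q s) J (li a) (li (Q i)) - x) ^ 2 := fun i x =>
    Ech_nonneg hμ _ _ fun J => sq_nonneg _
  have es : (Es μ Q s fun J => ∑ i, Cv (ps μ Q s) J (li a) (li (Q i)) ^ 2) =
      ∑ i, Es μ Q s fun J => Cv (ps μ Q s) J (li a) (li (Q i)) ^ 2 := Ech_sum _ hi2
  have hd : ∀ i, H663.ChI μ 0 (Real.sqrt s • Q) fun J =>
      (Cv (ps μ Q s) J (li a) (li (Q i)) - Cv (ps μ Q s) 0 (li a) (li (Q i))) ^ 2 := by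
    intro i
    have h4 := ((hi2 i).sub ((hi1 i).cmul (2 * Cv (ps μ Q s) 0 (li a) (li (Q i))))).add
      (chi_const hμ 0 (Real.sqrt s • Q) (Cv (ps μ Q s) 0 (li a) (li (Q i)) ^ 2))
    have e : (fun J => (Cv (ps μ Q s) J (li a) (li (Q i)) -
        Cv (ps μ Q s) 0 (li a) (li (Q i))) ^ 2) = fun J =>
        Cv (ps μ Q s) J (li a) (li (Q i)) ^ 2 -
          2 * Cv (ps μ Q s) 0 (li a) (li (Q i)) * Cv (ps μ Q s) J (li a) (li (Q i)) +
          Cv (ps μ Q s) 0 (li a) (li (Q i)) ^ 2 := by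
      funext J; ring
    rw [e]
    exact h4
  have ed : Es μ Q s (dev μ Q a s) = ∑ i, Es μ Q s fun J =>
      (Cv (ps μ Q s) J (li a) (li (Q i)) - Cv (ps μ Q s) 0 (li a) (li (Q i))) ^ 2 := by
    unfold dev
    exact Ech_sum _ hd
  rw [es, ed, ← Finset.sum_add_distrib]
  constructor
  · refine Finset.sum_le_sum fun i _ => ?_
    have h1 := hnn i (Es μ Q s fun J => Cv (ps μ Q s) J (li a) (li (Q i)))
    rw [key] at h1
    nlinarith
  · refine Finset.sum_le_sum fun i _ => ?_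
    have h1 := key i (Cv (ps μ Q s) 0 (li a) (li (Q i)))
    rw [h1]
    nlinarith [sq_nonneg ((Es μ Q s fun J => Cv (ps μ Q s) J (li a) (li (Q i))) -
      Cv (ps μ Q s) 0 (li a) (li (Q i)))]

/-- **STAR with a good set** -/
theorem dev_le (hμ : EM μ) (he : Ev μ) {s θ : ℝ} (hK : PK (ps μ Q s)) {Gd : Set (V → ℝ)}
    (hm : MeasurableSet Gd) (hθ0 : 0 ≤ θ)
    (hθ : ∀ J ∈ Gd, Real.exp (Tq (ps μ Q s) J) - 1 ≤ θ) (a : V → ℝ) :
    Es μ Q s (dev μ Q a s) ≤ θ / 2 * ∑ i, K4 (ps μ Q s) a a (Q i) (Q i) +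
      Es μ Q s (Gdᶜ.indicator (dev μ Q a s)) := by
  have hp := em_post hμ (Real.sqrt s • Q)
  have hep := ev_post he (Real.sqrt s • Q)
  have hk : ∀ i, 0 ≤ K4 (ps μ Q s) a a (Q i) (Q i) := fun i => H789.K4_nonneg' hp hep hK a (Q i)
  have hk0 : 0 ≤ ∑ i, K4 (ps μ Q s) a a (Q i) (Q i) := Finset.sum_nonneg fun i _ => hk i
  have hchi := chi_dev (Q := Q) hμ a s
  have hind : H663.ChI μ 0 (Real.sqrt s • Q) (Gdᶜ.indicator (dev μ Q a s)) := by
    refine H663.ChI.mono hμ ((measurable_dev hμ a s).indicator hm.compl) hchi fun J => ?_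
    by_cases hJ : J ∈ Gdᶜ
    · rw [Set.indicator_of_mem hJ, abs_of_nonneg (dev_nonneg _ _ _ _ _)]
    · rw [Set.indicator_of_notMem hJ, abs_zero]
      exact dev_nonneg _ _ _ _ _
  have h1 : Es μ Q s (dev μ Q a s) ≤ Es μ Q s fun J =>
      θ / 2 * (∑ i, K4 (ps μ Q s) a a (Q i) (Q i)) + Gdᶜ.indicator (dev μ Q a s) J := by
    refine H663.Ech_mono' hμ hchi ((chi_const hμ 0 _ _).add hind) fun J => ?_
    by_cases hJ : J ∈ Gd
    · rw [Set.indicator_of_notMem (Set.notMem_compl_iff.2 hJ), add_zero, Finset.mul_sum]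
      unfold dev
      refine Finset.sum_le_sum fun i _ => ?_
      have h2 := H789.star' hp hep hK J a (Q i)
      refine h2.trans ?_
      refine mul_le_mul_of_nonneg_right ?_ (hk i)
      have := hθ J hJ
      linarith
    · rw [Set.indicator_of_mem (show J ∈ Gdᶜ from hJ)]
      have : 0 ≤ θ / 2 * ∑ i, K4 (ps μ Q s) a a (Q i) (Q i) :=
        mul_nonneg (by linarith) hk0
      linarith
  refine h1.trans (le_of_eq ?_)
  unfold Es
  rw [H663.Ech_add' (chi_const hμ 0 _ _) hind, Ech_const hμ]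

end

end Vale.Agent.P159.H730
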